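import Vale.Agent.P146.H161.RowInst
import Vale.Agent.P146.H161.RowI1
import Vale.Agent.P146.H646.W0Sk

/-!
# P146: the direction of the row in full norm

`dvec_id`: for the row `R = Rw i0 S BL FL` of a hidden site, the vector
`cx K (y_e N) - cfr_e` is explicit. `dvec_sk`: its squared norm, against a test function
`0 ≤ φ ≤ P0` of the frozen coordinates, is at most `P0 (τ d0² + v d0f²)`.
-/

open MeasureTheory ProbabilityTheory

namespace Vale.Agent.P146.H317

open Vale.Agent.P157.Lv Vale.Agent.P146.H196 Vale.Agent.P146.H646 Vale.Agent.P146.H615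
  Vale.Agent.P146.H347 Vale.Agent.P146.H475 Vale.Agent.P146.H816 Vale.Agent.P146.H325
  Vale.Agent.P146.H161

set_option linter.unusedSectionVars false

variable {n : ℕ} {LB LF : Type} [Fintype LB] [DecidableEq LB] [Fintype LF] [DecidableEq LF]
variable {b s η lam c x r0 : ℝ} {cB : LB → ℝ} {cF : LF → ℝ} {BL : Finset LB} {FL : Finset LF}
  {i0 : Fin n} {S S1 : Finset (Fin n)}

/-- from a linear bound in every direction to the squared norm. -/
lemma l2_of_dir {κ : Type*} [Fintype κ] [DecidableEq κ] {μ : κ → Measure ℝ}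
    [∀ e, IsProbabilityMeasure (μ e)] {w : (κ → ℝ) → ℝ} (hw : Wt μ w) {J : Type*} (T : Finset J)
    {D : J → (κ → ℝ) → ℝ} (hD : ∀ j, BM (D j)) {φ : (κ → ℝ) → ℝ} (hφ : BM φ)
    (hφ0 : ∀ z, 0 ≤ φ z) {P0 d : ℝ} (hφ1 : ∀ z, φ z ≤ P0) (hd : 0 ≤ d)
    (h : |∑ j ∈ T, ex μ w (fun z => D j z * (φ z * D j z))| ≤
      d * √(∑ j ∈ T, ex μ w (fun z => (φ z * D j z) ^ 2))) :
    ex μ w (fun z => φ z * ∑ j ∈ T, D j z ^ 2) ≤ P0 * d ^ 2 := by
  set A := ex μ w (fun z => φ z * ∑ j ∈ T, D j z ^ 2) with hA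
  have hA0 : 0 ≤ A := ex_nonneg hw fun z =>
    mul_nonneg (hφ0 z) (Finset.sum_nonneg fun _ _ => sq_nonneg _)
  have hP0 : 0 ≤ P0 := (hφ0 0).trans (hφ1 0)
  have e1 : ∑ j ∈ T, ex μ w (fun z => D j z * (φ z * D j z)) = A := by
    rw [← ex_sum hw T fun j _ => (hD j).mul (hφ.mul (hD j)), hA]
    congr 1
    funext z
    rw [Finset.mul_sum]
    exact Finset.sum_congr rfl fun j _ => by ring
  have e2 : ∑ j ∈ T, ex μ w (fun z => (φ z * D j z) ^ 2) ≤ P0 * A := by
    rw [← ex_sum hw T fun j _ => bsq (hφ.mul (hD j)), hA, ← ex_cmul]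
    refine ex_mono hw (BM.sum T fun j _ => bsq (hφ.mul (hD j)))
      (bcm P0 (hφ.mul (BM.sum T fun j _ => bsq (hD j)))) fun z => ?_
    rw [Finset.mul_sum, Finset.mul_sum]
    refine Finset.sum_le_sum fun j _ => ?_
    have h1 : 0 ≤ φ z * D j z ^ 2 := mul_nonneg (hφ0 z) (sq_nonneg _)
    calc (φ z * D j z) ^ 2 = φ z * (φ z * D j z ^ 2) := by ring
      _ ≤ P0 * (φ z * D j z ^ 2) := mul_le_mul_of_nonneg_right (hφ1 z) h1
  rw [e1, abs_of_nonneg hA0] at h
  have h3 : A ≤ d * √(P0 * A) :=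
    h.trans (mul_le_mul_of_nonneg_left (Real.sqrt_le_sqrt e2) hd)
  have h4 : A ^ 2 ≤ d ^ 2 * (P0 * A) := by
    calc A ^ 2 ≤ (d * √(P0 * A)) ^ 2 := pow_le_pow_left₀ hA0 h3 2
      _ = d ^ 2 * (P0 * A) := by
        rw [mul_pow, Real.sq_sqrt (mul_nonneg hP0 hA0)]
  rcases hA0.eq_or_lt with h5 | h5
  · rw [← h5]; positivity
  · have h6 : A * A ≤ (P0 * d ^ 2) * A := by nlinarith
    exact le_of_mul_le_mul_right h6 h5

section main

variable (hl : 0 < lam) (hη : 0 ≤ η)
include hl hη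

/-- **The vector of the row, pointwise.** -/
theorem dvec_id (hi0 : i0 ∉ S) (kp : ℝ) (z : Co n LB LF → ℝ) :
    ∑ e ∈ Rw i0 S BL FL, (cxS n b cB cF s η lam c x (Kset S BL FL) (fun y =>
        cxS n b cB cF s η lam c x (Kset (insert i0 S) BL FL)
          (avS b cB cF s η lam c (fun w => al η w.1 * sp w.2 i0)) y * y e) z -
        cfr i0 b cB cF kp (fun j => cxS n b cB cF s η lam c x (Kset S BL FL)
          (avS b cB cF s η lam c (fun w => al η w.1 * sp w.2 j))) z e) ^ 2 =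
      b ^ 2 / n * (∑ l ∈ BL, cB l ^ 2) * ∑ j ∈ S, (cxS n b cB cF s η lam c x (Kset S BL FL)
        (H615.Th (avS b cB cF s η lam c) x (fun w => al η w.1) (fun w => sp w.2 i0)
          (fun j w => sp w.2 j) j) z - kp * cxS n b cB cF s η lam c x (Kset S BL FL)
          (avS b cB cF s η lam c (fun w => al η w.1 * sp w.2 j)) z) ^ 2 +
      (∑ l ∈ FL, cF l ^ 2) * (cxS n b cB cF s η lam c x (Kset S BL FL)
        (H615.Tf (avS b cB cF s η lam c) x (fun w => al η w.1) (fun w => sp w.2 i0)) z - kp) ^ 2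
      := by
  have hG := gmA (n := n) b cB cF s hl hη c
  set K := Kset (LB := LB) (LF := LF) S BL FL with hK
  set K' := Kset (LB := LB) (LF := LF) (insert i0 S) BL FL with hK'
  set h : ℝ × Xs n → ℝ := fun w => al η w.1 * sp w.2 i0 with hh
  have hR : Rw i0 S BL FL ⊆ K' := by
    rw [hK', ← Rw_union hi0]
    exact Finset.subset_union_right
  have hKK : K ⊆ K' := Kset_mono (Finset.subset_insert i0 S) (Finset.Subset.refl _)
    (Finset.Subset.refl _)
  have hd : Disjoint K (Rw i0 S BL FL) := Rw_disj hi0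
  have bh : Bm h := (bm_of_al (n := n) hη).mul (bm_sp i0)
  -- one coordinate
  have key : ∀ e ∈ Rw i0 S BL FL, cxS n b cB cF s η lam c x K (fun y =>
      cxS n b cB cF s η lam c x K' (avS b cB cF s η lam c h) y * y e) z =
      cxS n b cB cF s η lam c x K (rsg (muA (Xs n) lam η c) 1 (Sm b cB cF s η) x h
        (Sm b cB cF s η e)) z := by
    intro e he
    have hsub : ({e} : Finset (Co n LB LF)) ⊆ Rw i0 S BL FL := Finset.singleton_subset_iff.2 he
    have h1 := cx_N_lin hG 1 x (R := {e}) (Finset.disjoint_of_subset_right hsub hd) hKK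
      (hsub.trans hR) bh (fun _ => 1) z
    have e1 : lc {e} (fun _ => (1 : ℝ)) = fun y : Co n LB LF → ℝ => y e := by
      funext y; unfold lc; simp
    have e2 : YS {e} (fun _ => (1 : ℝ)) (Sm b cB cF s η) = Sm b cB cF s η e := by
      funext w; unfold YS; simp
    rw [e1, e2, one_mul] at h1
    exact h1
  have hsum : ∀ (A : Fin n → LB → ℝ) (B : LF → ℝ),
      (∀ p ∈ row i0, oth i0 p ∈ S → ∀ l ∈ BL, (cxS n b cB cF s η lam c x K (fun y =>
        cxS n b cB cF s η lam c x K' (avS b cB cF s η lam c h) y * y (bd LF p l)) z -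
        cfr i0 b cB cF kp (fun j => cxS n b cB cF s η lam c x K
          (avS b cB cF s η lam c (fun w => al η w.1 * sp w.2 j))) z (bd LF p l)) ^ 2 =
        A (oth i0 p) l) →
      (∀ l ∈ FL, (cxS n b cB cF s η lam c x K (fun y =>
        cxS n b cB cF s η lam c x K' (avS b cB cF s η lam c h) y * y (fd LB i0 l)) z -
        cfr i0 b cB cF kp (fun j => cxS n b cB cF s η lam c x K
          (avS b cB cF s η lam c (fun w => al η w.1 * sp w.2 j))) z (fd LB i0 l)) ^ 2 = B l) →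
      ∑ e ∈ Rw i0 S BL FL, (cxS n b cB cF s η lam c x K (fun y =>
        cxS n b cB cF s η lam c x K' (avS b cB cF s η lam c h) y * y e) z -
        cfr i0 b cB cF kp (fun j => cxS n b cB cF s η lam c x K
          (avS b cB cF s η lam c (fun w => al η w.1 * sp w.2 j))) z e) ^ 2 =
        ∑ j ∈ S, ∑ l ∈ BL, A j l + ∑ l ∈ FL, B l := by
    intro A B hA hB
    rw [sum_Rw' hi0 _ A hA]
    congr 1
    exact Finset.sum_congr rfl hB
  rw [hsum (fun j l => b ^ 2 / n * cB l ^ 2 * (cxS n b cB cF s η lam c x K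
        (H615.Th (avS b cB cF s η lam c) x (fun w => al η w.1) (fun w => sp w.2 i0)
          (fun j w => sp w.2 j) j) z - kp * cxS n b cB cF s η lam c x K
          (avS b cB cF s η lam c (fun w => al η w.1 * sp w.2 j)) z) ^ 2)
      (fun l => cF l ^ 2 * (cxS n b cB cF s η lam c x K
        (H615.Tf (avS b cB cF s η lam c) x (fun w => al η w.1) (fun w => sp w.2 i0)) z - kp) ^ 2)
      ?_ ?_]
  · congr 1
    · rw [Finset.mul_sum]
      refine Finset.sum_congr rfl fun j _ => ?_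
      rw [Finset.mul_sum, Finset.sum_mul]
    · rw [Finset.sum_mul]
  · intro p hp hpS l hl'
    have hmem : bd LF p l ∈ Rw i0 S BL FL := (bd_memR p l).2 ⟨⟨hp, hpS⟩, hl'⟩
    rw [key _ hmem, cfr_bd]
    have e3 : rsg (muA (Xs n) lam η c) 1 (Sm b cB cF s η) x h (Sm b cB cF s η (bd LF p l)) =
        fun y => (b / √n * cB l) * H615.Th (avS b cB cF s η lam c) x (fun w => al η w.1)
          (fun w => sp w.2 i0) (fun j w => sp w.2 j) (oth i0 p) y := by
      funext y
      unfold rsg H615.Th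
      have f1 : (fun ω => h ω * Sm b cB cF s η (bd LF p l) ω) =
          fun ω => (b / √n * cB l) * (al η ω.1 * sp ω.2 (oth i0 p)) := by
        funext ω
        rw [Sm_bd b cB cF s η hp, hh]
        have := sp_mul_self ω.2 i0
        calc al η ω.1 * sp ω.2 i0 * (b / √n * cB l * (sp ω.2 i0 * sp ω.2 (oth i0 p)))
            = (b / √n * cB l) * (al η ω.1 * sp ω.2 (oth i0 p)) * (sp ω.2 i0 * sp ω.2 i0) := by
              ring
          _ = _ := by rw [this, mul_one]
      have f2 : (fun ω => Sm b cB cF s η (bd LF p l) ω) =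
          fun ω => (b / √n * cB l) * (sp ω.2 i0 * sp ω.2 (oth i0 p)) := by
        funext ω
        rw [Sm_bd b cB cF s η hp]
      rw [f1, show Sm b cB cF s η (bd LF p l) = fun ω => Sm b cB cF s η (bd LF p l) ω from rfl,
        f2, H196.av_mul, H196.av_mul]
      show _ = b / √n * cB l * (avm _ _ _ _ _ - (1 - x) * (avm _ _ _ _ _ * avm _ _ _ _ _))
      ring
    rw [e3]
    have e4 : cxS n b cB cF s η lam c x K (fun y => (b / √n * cB l) *
        H615.Th (avS b cB cF s η lam c) x (fun w => al η w.1)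
          (fun w => sp w.2 i0) (fun j w => sp w.2 j) (oth i0 p) y) z =
        (b / √n * cB l) * cxS n b cB cF s η lam c x K (H615.Th (avS b cB cF s η lam c) x
          (fun w => al η w.1) (fun w => sp w.2 i0) (fun j w => sp w.2 j) (oth i0 p)) z :=
      H347.cx_cmul _ _ _ _ _
    rw [e4, ← div_sqrt_sq]
    ring
  · intro l hl'
    have hmem : fd LB i0 l ∈ Rw i0 S BL FL := (fd_memR i0 l).2 ⟨rfl, hl'⟩
    rw [key _ hmem, cfr_fd]
    have e3 : rsg (muA (Xs n) lam η c) 1 (Sm b cB cF s η) x h (Sm b cB cF s η (fd LB i0 l)) =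
        fun y => cF l * H615.Tf (avS b cB cF s η lam c) x (fun w => al η w.1)
          (fun w => sp w.2 i0) y := by
      funext y
      unfold rsg H615.Tf
      have f1 : (fun ω => h ω * Sm b cB cF s η (fd LB i0 l) ω) =
          fun ω => cF l * al η ω.1 := by
        funext ω
        rw [Sm_fd, hh]
        have := sp_mul_self ω.2 i0
        calc al η ω.1 * sp ω.2 i0 * (cF l * sp ω.2 i0)
            = cF l * al η ω.1 * (sp ω.2 i0 * sp ω.2 i0) := by ring
          _ = _ := by rw [this, mul_one]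
      have f2 : (fun ω => Sm b cB cF s η (fd LB i0 l) ω) = fun ω => cF l * sp ω.2 i0 := by
        funext ω
        rw [Sm_fd]
      rw [f1, show Sm b cB cF s η (fd LB i0 l) = fun ω => Sm b cB cF s η (fd LB i0 l) ω from rfl,
        f2, H196.av_mul, H196.av_mul]
      show _ = cF l * (avm _ _ _ _ _ - (1 - x) * (avm _ _ _ _ _ * avm _ _ _ _ _))
      ring
    rw [e3]
    have e4 : cxS n b cB cF s η lam c x K (fun y => cF l *
        H615.Tf (avS b cB cF s η lam c) x (fun w => al η w.1) (fun w => sp w.2 i0) y) z =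
        cF l * cxS n b cB cF s η lam c x K (H615.Tf (avS b cB cF s η lam c) x
          (fun w => al η w.1) (fun w => sp w.2 i0)) z :=
      H347.cx_cmul _ _ _ _ _
    rw [e4]
    ring

end main

section l2

variable (hl : 0 < lam) (hη : 0 ≤ η) (hs : s ≠ 0) (hx0 : 0 ≤ x) (hx1 : x < 1)
  (hc : c = s ^ 2 * n * (1 - (1 - x) * r0))
include hl hη hs hx0 hx1 hc

/-- **Bonds, full norm.** -/
theorem dth_sk (b : ℝ) (cB : LB → ℝ) (cF : LF → ℝ) (BL : Finset LB) (FL : Finset LF)
    {S S1 : Finset (Fin n)} (hS : S ⊆ S1) {i0 : Fin n} (hi0 : i0 ∉ S)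
    (hne : (S1 \ S).Nonempty) {φ : (Co n LB LF → ℝ) → ℝ} (hφ : BM φ) (hφ0 : ∀ z, 0 ≤ φ z)
    {P0 : ℝ} (hφ1 : ∀ z, φ z ≤ P0) :
    exS n b cB cF s η lam c x (fun z => φ z * ∑ j ∈ S, (cxS n b cB cF s η lam c x (Kset S BL FL)
        (H615.Th (avS b cB cF s η lam c) x (fun w => al η w.1) (fun w => sp w.2 i0)
          (fun j w => sp w.2 j) j) z - (1 - (1 - x) * r0) *
          cxS n b cB cF s η lam c x (Kset S BL FL)
          (avS b cB cF s η lam c (fun w => al η w.1 * sp w.2 j)) z) ^ 2) ≤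
      P0 * d0 n b cB cF s η lam c x r0 (Kset S BL FL) (Kset S1 BL FL) (S1 \ S).card ^ 2 := by
  have := H347.dmx n
  have hc' : c = s ^ 2 * (Fintype.card (Fin n) : ℝ) * (1 - (1 - x) * r0) := by
    rw [Fintype.card_fin]; exact hc
  obtain ⟨M0, hB⟩ := ab_sk (n := n) b cB cF s hη
  have hG := gm (c := c) hl hη hB
  have hw := H347.wt hG 1 x
  have hS0 := sites_sk hl hη c b cB cF s (n := n)
  have hK := rev_sk (n := n) BL FL
  have : Nonempty (Fin n) := ⟨i0⟩
  have hA : ∀ w : ℝ × H347.Xs n, |al η w.1| ≤ 1 + η := fun w => by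
    have h1 := al_mem hη w.1
    rw [abs_le]; constructor <;> linarith [h1.1, h1.2]
  set G := H347.g1 (H347.Co n LB LF) with hGd
  set W := wS n b cB cF s η lam c x with hW
  set K := H347.Kset S BL FL with hKd
  set K1 := H347.Kset S1 BL FL with hK1
  set M : Fin n → (H347.Co n LB LF → ℝ) → ℝ := fun j =>
    cxS n b cB cF s η lam c x K (avS b cB cF s η lam c (fun w => al η w.1 * sp w.2 j)) with hM
  set T : Fin n → (H347.Co n LB LF → ℝ) → ℝ := fun j =>
    H646.Th (muA (H347.Xs n) lam η c) 1 x (H347.Sm b cB cF s η)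
      (fun (i : Fin n) w => sp w.2 i)
      (fun w => al η w.1) (fun (j : Fin n) w => sp w.2 j) i0 j with hT
  have bT : ∀ j, BM (T j) := fun j => (hS0.eqv hG 1 x).bm i0 j
  have bA : ∀ j, BM (avS b cB cF s η lam c (fun w => al η w.1 * sp w.2 j)) := fun j =>
    hS0.bm_av hG 1 j
  have bM : ∀ j, BM (M j) := fun j => hw.bm_cx K (bA j)
  set D : Fin n → (H347.Co n LB LF → ℝ) → ℝ := fun j z =>
    cx G K W (T j) z - (1 - (1 - x) * r0) * M j z with hD
  have bD : ∀ j, BM (D j) := fun j => (hw.bm_cx K (bT j)).sub ((BM.const _).mul (bM j))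
  have key := hS0.w0_ip hG hK 1 hx0 hx1.le hA (by linarith) r0 hS hi0 hne (T := S)
    (fun π h j hj => h j hj) (Q := fun j z => φ z * D j z) (fun j => hφ.mul (bD j))
  have hd0 : 0 ≤ d0 n b cB cF s η lam c x r0 K K1 (S1 \ S).card := by
    unfold d0
    exact add_nonneg (Real.sqrt_nonneg _) (mul_nonneg (by linarith) (Real.sqrt_nonneg _))
  refine l2_of_dir hw S bD hφ hφ0 hφ1 hd0 ?_
  refine key.trans (mul_le_mul_of_nonneg_right ?_ (Real.sqrt_nonneg _))
  unfold d0
  refine add_le_add le_rfl (mul_le_mul_of_nonneg_left (Real.sqrt_le_sqrt ?_) (by linarith))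
  have hV := Va_l2 (τ0 := fun (j : Fin n) σ => sp σ j) (K := K) (r0 := r0) hl hη hB
    (fun j σ => H646.sp_sq σ j) hs hx1 (fun j => H347.gd_memK j) hc' (fun j σ => abs_sp_le σ j)
  rw [Fintype.card_fin] at hV
  refine le_trans ?_ hV
  refine Finset.sum_le_sum_of_subset_of_nonneg (Finset.subset_univ S) fun j _ _ => ?_
  exact hw.ex_nonneg (hw.bm_cx K (hS0.bm_Va hG 1 r0 j)).sq fun _ => sq_nonneg _

/-- **Own field, full norm.** -/
theorem dtf_sk (b : ℝ) (cB : LB → ℝ) (cF : LF → ℝ) (BL : Finset LB) (FL : Finset LF)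
    {S S1 : Finset (Fin n)} (hS : S ⊆ S1) {i0 : Fin n} (hi0 : i0 ∉ S)
    (hne : (S1 \ S).Nonempty) {φ : (Co n LB LF → ℝ) → ℝ}
    (hφd : H646.Dep (Kset S BL FL) φ) (hφ : BM φ) (hφ0 : ∀ z, 0 ≤ φ z)
    {P0 : ℝ} (hφ1 : ∀ z, φ z ≤ P0) :
    exS n b cB cF s η lam c x (fun z => φ z * (cxS n b cB cF s η lam c x (Kset S BL FL)
        (H615.Tf (avS b cB cF s η lam c) x (fun w => al η w.1) (fun w => sp w.2 i0)) z -
          (1 - (1 - x) * r0)) ^ 2) ≤
      P0 * d0f n b cB cF s η lam c x r0 (S1 \ S).card ^ 2 := by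
  have hG := gmA (n := n) b cB cF s hl hη c
  have hw := H347.wt hG 1 x
  have bh : Bm (fun w : ℝ × Xs n => al η w.1) := bm_of_al (n := n) hη
  have bs : Bm (fun w : ℝ × Xs n => sp w.2 i0) := bm_sp i0
  set G := H347.g1 (H347.Co n LB LF) with hGd
  set W := wS n b cB cF s η lam c x with hW
  set K := H347.Kset S BL FL with hKd
  set kp := 1 - (1 - x) * r0 with hkp
  set T : (Co n LB LF → ℝ) → ℝ := H615.Tf (avS b cB cF s η lam c) x
    (fun w : ℝ × Xs n => al η w.1) (fun w => sp w.2 i0) with hT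
  have bT : BM T := by
    have h1 : BM fun z => avS (n := n) b cB cF s η lam c (fun w => al η w.1) z -
        (1 - x) * (avS (n := n) b cB cF s η lam c (fun w => al η w.1 * sp w.2 i0) z *
          avS (n := n) b cB cF s η lam c (fun w => sp w.2 i0) z) :=
      (H347.bm hG 1 bh).sub ((BM.const _).mul ((H347.bm hG 1 (bh.mul bs)).mul
        (H347.bm hG 1 bs)))
    exact h1
  set D : (Co n LB LF → ℝ) → ℝ := fun z => cx G K W T z - kp with hD
  have bD : BM D := (hw.bm_cx K bT).sub (BM.const _)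
  have dD : H646.Dep K D := fun z z' => by
    show cx G K W T (glue K z z') - kp = cx G K W T z - kp
    rw [dep_cx K z z']
  have bg : BM fun z => φ z * D z := hφ.mul bD
  have dg : H646.Dep K fun z => φ z * D z := H615.Dep.mul hφd dD
  have key := i2f_sk (r0 := r0) hl hη hs hx0 hx1 hc b cB cF BL FL hS hi0 hne dg bg
  have hd0 : 0 ≤ d0f n b cB cF s η lam c x r0 (S1 \ S).card := by
    unfold d0f
    refine add_nonneg (add_nonneg (Real.sqrt_nonneg _) (mul_nonneg (by linarith)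
      (Real.sqrt_nonneg _))) (mul_nonneg (abs_nonneg _) hη)
  have h1 := l2_of_dir hw (Finset.univ : Finset Unit) (D := fun _ => D) (fun _ => bD) hφ hφ0 hφ1
    hd0 ?_
  · simp only [Finset.univ_unique, Finset.sum_singleton] at h1
    exact h1
  · simp only [Finset.univ_unique, Finset.sum_singleton]
    have e1 : ex G W (fun z => D z * (φ z * D z)) =
        exS n b cB cF s η lam c x (fun z => φ z * D z * T z) -
          kp * exS n b cB cF s η lam c x (fun z => φ z * D z) := by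
      have f1 : exS n b cB cF s η lam c x (fun z => φ z * D z * T z) =
          ex G W (fun z => φ z * D z * cx G K W T z) := (ex_cx hw dg bg bT).symm
      rw [f1, ← hw.ex_const_mul, ← hw.ex_sub (bg.mul (hw.bm_cx K bT)) ((BM.const _).mul bg)]
      congr 1
      funext z
      simp only [hD]
      ring
    rw [e1]
    exact key

/-- **The direction of the row in full norm.** -/
theorem dvec_sk (b : ℝ) (cB : LB → ℝ) (cF : LF → ℝ) (BL : Finset LB) (FL : Finset LF)
    {S S1 : Finset (Fin n)} (hS : S ⊆ S1) {i0 : Fin n} (hi0 : i0 ∉ S)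
    (hne : (S1 \ S).Nonempty) {φ : (Co n LB LF → ℝ) → ℝ}
    (hφd : H646.Dep (Kset S BL FL) φ) (hφ : BM φ) (hφ0 : ∀ z, 0 ≤ φ z)
    {P0 : ℝ} (hφ1 : ∀ z, φ z ≤ P0) :
    exS n b cB cF s η lam c x (fun z => φ z * ∑ e ∈ Rw i0 S BL FL,
      (cxS n b cB cF s η lam c x (Kset S BL FL) (fun y =>
        cxS n b cB cF s η lam c x (Kset (insert i0 S) BL FL)
          (avS b cB cF s η lam c (fun w => al η w.1 * sp w.2 i0)) y * y e) z -
        cfr i0 b cB cF (1 - (1 - x) * r0) (fun j => cxS n b cB cF s η lam c x (Kset S BL FL)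
          (avS b cB cF s η lam c (fun w => al η w.1 * sp w.2 j))) z e) ^ 2) ≤
      P0 * (b ^ 2 / n * (∑ l ∈ BL, cB l ^ 2) *
        d0 n b cB cF s η lam c x r0 (Kset S BL FL) (Kset S1 BL FL) (S1 \ S).card ^ 2 +
        (∑ l ∈ FL, cF l ^ 2) * d0f n b cB cF s η lam c x r0 (S1 \ S).card ^ 2) := by
  have hG := gmA (n := n) b cB cF s hl hη c
  have hw := H347.wt hG 1 x
  have bh : Bm (fun w : ℝ × Xs n => al η w.1) := bm_of_al (n := n) hη
  have bs : ∀ i : Fin n, Bm (fun w : ℝ × Xs n => sp w.2 i) := fun i => bm_sp i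
  have h1 := dth_sk (r0 := r0) hl hη hs hx0 hx1 hc b cB cF BL FL hS hi0 hne hφ hφ0 hφ1
  have h2 := dtf_sk (r0 := r0) hl hη hs hx0 hx1 hc b cB cF BL FL hS hi0 hne hφd hφ hφ0 hφ1
  set K := H347.Kset S BL FL with hKd
  set kp := 1 - (1 - x) * r0 with hkp
  set τ := b ^ 2 / n * (∑ l ∈ BL, cB l ^ 2) with hτ
  set v := ∑ l ∈ FL, cF l ^ 2 with hv
  have hτ0 : 0 ≤ τ := mul_nonneg (by positivity) (Finset.sum_nonneg fun _ _ => sq_nonneg _)
  have hv0 : 0 ≤ v := Finset.sum_nonneg fun _ _ => sq_nonneg _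
  set A : (Co n LB LF → ℝ) → ℝ := fun z => ∑ j ∈ S, (cxS n b cB cF s η lam c x K
        (H615.Th (avS b cB cF s η lam c) x (fun w => al η w.1) (fun w => sp w.2 i0)
          (fun j w => sp w.2 j) j) z - kp * cxS n b cB cF s η lam c x K
          (avS b cB cF s η lam c (fun w => al η w.1 * sp w.2 j)) z) ^ 2 with hA
  set B : (Co n LB LF → ℝ) → ℝ := fun z => (cxS n b cB cF s η lam c x K
        (H615.Tf (avS b cB cF s η lam c) x (fun w => al η w.1) (fun w => sp w.2 i0)) z - kp) ^ 2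
    with hB
  have bTh : ∀ j, BM (H615.Th (avS b cB cF s η lam c) x (fun w => al η w.1)
      (fun w => sp w.2 i0) (fun (j : Fin n) w => sp w.2 j) j) := fun j =>
    (H347.bm hG 1 (bh.mul (bs j))).sub ((BM.const _).mul ((H347.bm hG 1 (bh.mul (bs i0))).mul
        (H347.bm hG 1 ((bs i0).mul (bs j)))))
  have bTf : BM (H615.Tf (avS b cB cF s η lam c) x (fun w => al η w.1)
      (fun w => sp w.2 i0)) :=
    (H347.bm hG 1 bh).sub ((BM.const _).mul ((H347.bm hG 1 (bh.mul (bs i0))).mul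
        (H347.bm hG 1 (bs i0))))
  have bA : BM A := BM.sum S fun j _ => bsq ((hw.bm_cx K (bTh j)).sub
    ((BM.const _).mul (hw.bm_cx K (H347.bm hG 1 (bh.mul (bs j))))))
  have bB : BM B := bsq ((hw.bm_cx K bTf).sub (BM.const _))
  have e1 : (fun z => φ z * ∑ e ∈ Rw i0 S BL FL,
      (cxS n b cB cF s η lam c x K (fun y =>
        cxS n b cB cF s η lam c x (Kset (insert i0 S) BL FL)
          (avS b cB cF s η lam c (fun w => al η w.1 * sp w.2 i0)) y * y e) z -
        cfr i0 b cB cF kp (fun j => cxS n b cB cF s η lam c x K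
          (avS b cB cF s η lam c (fun w => al η w.1 * sp w.2 j))) z e) ^ 2) =
      fun z => τ * (φ z * A z) + v * (φ z * B z) := by
    funext z
    rw [dvec_id hl hη hi0 kp z]
    ring
  rw [e1]
  show ex _ _ _ ≤ _
  rw [ex_add hw (bcm τ (hφ.mul bA)) (bcm v (hφ.mul bB)), ex_cmul, ex_cmul]
  have h3 := mul_le_mul_of_nonneg_left h1 hτ0
  have h4 := mul_le_mul_of_nonneg_left h2 hv0
  calc _ ≤ _ := add_le_add h3 h4
    _ = _ := by ring

end l2

end Vale.Agent.P146.H317
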