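import Vale.Agent.P146.H317.Kform

set_option linter.all false

/-!
# P146: two-sided bounds of `∫ E Q_T² dT` by `J = ∫₀¹ ρ²`

* `tested_up`, `tested_low`: the tested row equation gives the bounds of `E Q²`;
* `up`, `low`: bounds at one regular time of every window give the bounds of the integral.
-/

open MeasureTheory Set Filter Topology

namespace Vale.Agent.P146.H317

/-- The tested row equation, upper form (`E` is any averaging functional). -/
theorem tested_up {Ω : Type*} {c a w T err : ℝ} (hc : 0 < c) (hw : 0 < w)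
    (E : (Ω → ℝ) → ℝ) {Q : Ω → ℝ} (hQ : ∀ z, 0 ≤ Q z)
    (hlin : E (fun z => Q z ^ 2) = rho c a w T ^ 2 + E (fun z => Q z ^ 2 - rho c a w T ^ 2))
    (h : E (fun z => phi c a w T (Q z) * (c * Q z ^ 2 + (T - a) * Q z - w)) ≤ err) :
    E (fun z => Q z ^ 2) ≤ rho c a w T ^ 2 + err := by
  have e : (fun z => Q z ^ 2 - rho c a w T ^ 2) =
      fun z => phi c a w T (Q z) * (c * Q z ^ 2 + (T - a) * Q z - w) :=
    funext fun z => sq_sub_sq hc hw (hQ z)
  rw [hlin, e]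
  linarith

/-- The tested row equation, lower form. -/
theorem tested_low {Ω : Type*} {c a w T err : ℝ} (hc : 0 < c) (hw : 0 < w)
    (E : (Ω → ℝ) → ℝ) {Q : Ω → ℝ} (hQ : ∀ z, 0 ≤ Q z)
    (hlin : E (fun z => Q z ^ 2) = rho c a w T ^ 2 + E (fun z => Q z ^ 2 - rho c a w T ^ 2))
    (h : -err ≤ E (fun z => phi c a w T (Q z) * (c * Q z ^ 2 + (T - a) * Q z - w))) :
    rho c a w T ^ 2 - err ≤ E (fun z => Q z ^ 2) := by
  have e : (fun z => Q z ^ 2 - rho c a w T ^ 2) =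
      fun z => phi c a w T (Q z) * (c * Q z ^ 2 + (T - a) * Q z - w) :=
    funext fun z => sq_sub_sq hc hw (hQ z)
  rw [hlin, e]
  linarith

/-- For a probability measure. -/
theorem tested_up_prob {Ω : Type*} [MeasurableSpace Ω] {μ : Measure Ω} [IsProbabilityMeasure μ]
    {c a w T err : ℝ} (hc : 0 < c) (hw : 0 < w) {Q : Ω → ℝ} (hQ : ∀ z, 0 ≤ Q z)
    (hi : Integrable (fun z => Q z ^ 2) μ)
    (h : ∫ z, phi c a w T (Q z) * (c * Q z ^ 2 + (T - a) * Q z - w) ∂μ ≤ err) :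
    ∫ z, Q z ^ 2 ∂μ ≤ rho c a w T ^ 2 + err := by
  refine tested_up hc hw (fun f => ∫ z, f z ∂μ) hQ ?_ h
  simp only
  rw [integral_sub hi (integrable_const _)]
  simp

theorem tested_low_prob {Ω : Type*} [MeasurableSpace Ω] {μ : Measure Ω} [IsProbabilityMeasure μ]
    {c a w T err : ℝ} (hc : 0 < c) (hw : 0 < w) {Q : Ω → ℝ} (hQ : ∀ z, 0 ≤ Q z)
    (hi : Integrable (fun z => Q z ^ 2) μ)
    (h : -err ≤ ∫ z, phi c a w T (Q z) * (c * Q z ^ 2 + (T - a) * Q z - w) ∂μ) :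
    rho c a w T ^ 2 - err ≤ ∫ z, Q z ^ 2 ∂μ := by
  refine tested_low hc hw (fun f => ∫ z, f z ∂μ) hQ ?_ h
  simp only
  rw [integral_sub hi (integrable_const _)]
  simp

/-- `J = ∫₀¹ ρ²`. -/
noncomputable def J (c a w : ℝ) : ℝ := ∫ T in (0 : ℝ)..1, rho c a w T ^ 2

section

variable {c a w η e T₁ T₂ R : ℝ}

lemma ii_rho (hc : 0 < c) (hw : 0 < w) (s t : ℝ) :
    IntervalIntegrable (fun T => rho c a w T ^ 2) volume s t :=
  ((continuous_rho hc hw).pow 2).intervalIntegrable _ _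

lemma J_nonneg (c a w : ℝ) : 0 ≤ J c a w :=
  intervalIntegral.integral_nonneg zero_le_one fun _ _ => sq_nonneg _

lemma sub_le_J (hc : 0 < c) (hw : 0 < w) {s t : ℝ} (h0 : 0 ≤ s) (hst : s ≤ t) (h1 : t ≤ 1) :
    ∫ T in s..t, rho c a w T ^ 2 ≤ J c a w := by
  unfold J
  exact intervalIntegral.integral_mono_interval h0 hst h1
    (Filter.Eventually.of_forall fun _ => sq_nonneg _) (ii_rho hc hw 0 1)

lemma J_le (hc : 0 < c) (hw : 0 < w) (hR : rho c a w 0 ≤ R) :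
    J c a w ≤ c * R ^ 3 / 3 + w * R := by
  have hp := rho_pos (a := a) (T := 0) hc hw
  refine (int_le hc hw).trans ?_
  have h3 : rho c a w 0 ^ 3 ≤ R ^ 3 := pow_le_pow_left₀ hp.le hR 3
  have : c * rho c a w 0 ^ 3 / 3 ≤ c * R ^ 3 / 3 := by gcongr
  have : w * rho c a w 0 ≤ w * R := by gcongr
  linarith

/-- The size of the perturbed root. -/
lemma R_size (hc : 0 < c) (hw : 0 < w) (ha : 0 ≤ a) (he : 0 ≤ e) (hη : 0 ≤ η) (hη4 : η ≤ 1 / 4) :
    rho ((1 - η) * c) ((1 + η) * a + e) ((1 + η) * w) 0 ≤ 2 * (a + e) / c + 2 * √(w / c) := by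
  have h1 : 0 < 1 - η := by linarith
  refine (rho_le_size (mul_pos h1 hc) (by positivity)).trans ?_
  have e1 : max ((1 + η) * a + e - 0) 0 = (1 + η) * a + e := by
    rw [sub_zero, max_eq_left]
    positivity
  rw [e1]
  have k1 : ((1 + η) * a + e) / ((1 - η) * c) ≤ 2 * (a + e) / c := by
    rw [div_le_div_iff₀ (mul_pos h1 hc) hc]
    have : (1 + η) * a + e ≤ 2 * (a + e) * (1 - η) := by nlinarith
    calc ((1 + η) * a + e) * c ≤ 2 * (a + e) * (1 - η) * c := by gcongr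
      _ = _ := by ring
  have k2 : √((1 + η) * w / ((1 - η) * c)) ≤ 2 * √(w / c) := by
    have e2 : 2 * √(w / c) = √(4 * (w / c)) := by
      rw [Real.sqrt_mul (by norm_num), show (4 : ℝ) = 2 ^ 2 by norm_num,
        Real.sqrt_sq (by norm_num)]
    rw [e2]
    refine Real.sqrt_le_sqrt ?_
    rw [← mul_div_assoc, div_le_div_iff₀ (mul_pos h1 hc) hc]
    have : (1 + η) ≤ 4 * (1 - η) := by linarith
    calc (1 + η) * w * c ≤ 4 * (1 - η) * w * c := by gcongr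
      _ = _ := by ring
  linarith

/-- **The upper bound of the integral.** -/
theorem up {r E : ℝ → ℝ} (hc : 0 < c) (hw : 0 < w) (ha : 0 ≤ a) (hη : 0 ≤ η) (hη4 : η ≤ 1 / 4)
    (he : 0 ≤ e) (hT : 0 < T₁) (hTT : T₁ ≤ T₂) (hT2 : T₂ ≤ 1)
    (hR : rho ((1 - η) * c) ((1 + η) * a + e) ((1 + η) * w) 0 ≤ R)
    (hr : AntitoneOn r (Icc (T₁ / (1 + η)) T₂)) (hE : Antitone E) (hE0 : ∀ T, 0 ≤ E T)
    (h : ∀ T ∈ Icc T₁ T₂, ∃ T' ∈ Icc (T / (1 + η)) T,
      r T' ≤ rho ((1 - η) * c) ((1 + η) * a + e) ((1 + η) * w) T' ^ 2 + E T') :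
    ∫ T in T₁..T₂, r T ≤ J c a w + 4 * η * (w * R + c * R ^ 3) + 2 * (η * a + e) * R ^ 2 +
      2 * ∫ T in (T₁ / (1 + η))..T₂, E T := by
  have h1 : 0 < 1 - η := by linarith
  have h1' : 0 < 1 + η := by linarith
  have hc1 : 0 < (1 - η) * c := mul_pos h1 hc
  have hw1 : 0 < (1 + η) * w := mul_pos h1' hw
  have hcc : (1 - η) * c ≤ c := by nlinarith
  have hww : w ≤ (1 + η) * w := by nlinarith
  have haa : a ≤ (1 + η) * a + e := by nlinarith
  have hp := rho_pos (a := (1 + η) * a + e) (T := 0) hc1 hw1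
  have hR0 : 0 < R := hp.trans_le hR
  have k0 := int_upper (F := fun T => rho ((1 - η) * c) ((1 + η) * a + e) ((1 + η) * w) T ^ 2)
    hT hTT hη hr (rho_sq_anti hc1 hw1) hE h
  have hT1' : 0 ≤ T₁ / (1 + η) := by positivity
  have hT12 : T₁ / (1 + η) ≤ T₂ / (1 + η) := by gcongr
  have hT2' : T₂ / (1 + η) ≤ T₂ := div_le_self (hT.le.trans hTT) (by linarith)
  have k1 : ∫ T in (T₁ / (1 + η))..(T₂ / (1 + η)),
      rho ((1 - η) * c) ((1 + η) * a + e) ((1 + η) * w) T ^ 2 ≤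
        J ((1 - η) * c) ((1 + η) * a + e) ((1 + η) * w) :=
    sub_le_J hc1 hw1 hT1' hT12 (hT2'.trans hT2)
  have k2 := int_diff (T₁ := 0) (T₂ := 1) hc1 hcc haa hw hww
  have k3 : J ((1 - η) * c) ((1 + η) * a + e) ((1 + η) * w) ≤
      J c a w + (2 * η * w * R + (η * a + e) * R ^ 2 + 2 / 3 * (η * c) * R ^ 3) := by
    unfold J
    obtain ⟨ρ, hρ⟩ : ∃ ρ, ρ = rho ((1 - η) * c) ((1 + η) * a + e) ((1 + η) * w) 0 := ⟨_, rfl⟩
    rw [← hρ] at k2 hR hp
    have q1 : 2 * ((1 + η) * w - w) * ρ ≤ 2 * η * w * R := by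
      have : 2 * ((1 + η) * w - w) * ρ = 2 * η * w * ρ := by ring
      rw [this]
      gcongr
    have q2 : ((1 + η) * a + e - a) * ρ ^ 2 ≤ (η * a + e) * R ^ 2 := by
      have : (1 + η) * a + e - a = η * a + e := by ring
      rw [this]
      gcongr
    have q3 : 2 / 3 * (c - (1 - η) * c) * ρ ^ 3 ≤ 2 / 3 * (η * c) * R ^ 3 := by
      have : c - (1 - η) * c = η * c := by ring
      rw [this]
      gcongr
    linarith
  have k4 : J c a w ≤ c * R ^ 3 / 3 + w * R :=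
    J_le hc hw ((rho_mono hc1 hcc hw hww (by linarith)).trans hR)
  have k5 : ∫ T in (T₁ / (1 + η))..(T₂ / (1 + η)), E T ≤ ∫ T in (T₁ / (1 + η))..T₂, E T :=
    intervalIntegral.integral_mono_interval le_rfl hT12 hT2'
      (Filter.Eventually.of_forall fun _ => hE0 _) hE.intervalIntegrable
  have k6 : 0 ≤ ∫ T in (T₁ / (1 + η))..T₂, E T :=
    intervalIntegral.integral_nonneg (hT12.trans hT2') fun _ _ => hE0 _
  have k7 : (1 + η) * ((∫ T in (T₁ / (1 + η))..(T₂ / (1 + η)),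
      rho ((1 - η) * c) ((1 + η) * a + e) ((1 + η) * w) T ^ 2) +
        ∫ T in (T₁ / (1 + η))..(T₂ / (1 + η)), E T) ≤
      (1 + η) * ((J c a w + (2 * η * w * R + (η * a + e) * R ^ 2 + 2 / 3 * (η * c) * R ^ 3)) +
        ∫ T in (T₁ / (1 + η))..T₂, E T) := by gcongr; exact k1.trans k3
  refine k0.trans (k7.trans ?_)
  obtain ⟨X, hX⟩ : ∃ X, X = ∫ T in (T₁ / (1 + η))..T₂, E T := ⟨_, rfl⟩
  rw [← hX] at k6 ⊢
  have m1 : 0 ≤ w * R := by positivity
  have m2 : 0 ≤ c * R ^ 3 := by positivity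
  have m3 : 0 ≤ (η * a + e) * R ^ 2 := by positivity
  have n1 : η * J c a w ≤ η * (c * R ^ 3 / 3 + w * R) := mul_le_mul_of_nonneg_left k4 hη
  have n2 : η * X ≤ 1 * X := mul_le_mul_of_nonneg_right (by linarith) k6
  have n3 : η * (2 * η * w * R + (η * a + e) * R ^ 2 + 2 / 3 * (η * c) * R ^ 3) ≤
      1 / 4 * (2 * η * w * R + (η * a + e) * R ^ 2 + 2 / 3 * (η * c) * R ^ 3) :=
    mul_le_mul_of_nonneg_right hη4 (by positivity)
  nlinarith [mul_nonneg hη m1, mul_nonneg hη m2]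

/-- **The lower bound of the integral.** -/
theorem low {r E : ℝ → ℝ} (hc : 0 < c) (hw : 0 < w) (ha : 0 ≤ a) (hη : 0 ≤ η) (hη4 : η ≤ 1 / 4)
    (he : 0 ≤ e) (hT : 0 < T₁) (hTT : T₁ ≤ T₂) (hT2 : (1 + η) * T₂ ≤ 1) (haT : a < T₂)
    (hR : rho c a w 0 ≤ R)
    (hr : AntitoneOn r (Icc T₁ ((1 + η) * T₂))) (hE : Antitone E)
    (h : ∀ T ∈ Icc T₁ T₂, ∃ T' ∈ Icc T ((1 + η) * T),
      rho ((1 + η) * c) ((1 - η) * a - e) ((1 - η) * w) T' ^ 2 - E T' ≤ r T') :
    J c a w ≤ (∫ T in T₁..T₂, r T) + 4 * η * (w * R + c * R ^ 3) + 2 * (η * a + e) * R ^ 2 +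
      2 * T₁ * R ^ 2 + 2 * w ^ 2 / (T₂ - a) + ∫ T in T₁..T₂, E T := by
  have h1 : 0 < 1 - η := by linarith
  have h1' : 0 < 1 + η := by linarith
  have hc2 : 0 < (1 + η) * c := mul_pos h1' hc
  have hw2 : 0 < (1 - η) * w := mul_pos h1 hw
  have hcc : c ≤ (1 + η) * c := by nlinarith
  have hww : (1 - η) * w ≤ w := by nlinarith
  have haa : (1 - η) * a - e ≤ a := by nlinarith
  have hp := rho_pos (a := a) (T := 0) hc hw
  have hR0 : 0 < R := hp.trans_le hR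
  have hT20 : 0 < T₂ := hT.trans_le hTT
  have k0 := int_lower (F := fun T => rho ((1 + η) * c) ((1 - η) * a - e) ((1 - η) * w) T ^ 2)
    hT hTT hη hr (rho_sq_anti hc2 hw2) hE h
  have hA : 0 ≤ (1 + η) * T₁ := by positivity
  have hAB : (1 + η) * T₁ ≤ (1 + η) * T₂ := by gcongr
  -- splitting `J`
  have s1 : J c a w = (∫ T in (0 : ℝ)..((1 + η) * T₁), rho c a w T ^ 2) +
      ((∫ T in ((1 + η) * T₁)..((1 + η) * T₂), rho c a w T ^ 2) +
        ∫ T in ((1 + η) * T₂)..1, rho c a w T ^ 2) := by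
    unfold J
    rw [intervalIntegral.integral_add_adjacent_intervals (ii_rho hc hw _ _) (ii_rho hc hw _ _),
      intervalIntegral.integral_add_adjacent_intervals (ii_rho hc hw _ _) (ii_rho hc hw _ _)]
  have s2 : ∫ T in (0 : ℝ)..((1 + η) * T₁), rho c a w T ^ 2 ≤ 2 * T₁ * R ^ 2 := by
    have q1 : ∫ T in (0 : ℝ)..((1 + η) * T₁), rho c a w T ^ 2 ≤
        ∫ T in (0 : ℝ)..((1 + η) * T₁), R ^ 2 := by
      refine intervalIntegral.integral_mono_on hA (ii_rho hc hw _ _) (by simp) fun T hT' => ?_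
      refine pow_le_pow_left₀ (rho_pos hc hw).le ((rho_anti hc hw hT'.1).trans hR) 2
    refine q1.trans ?_
    rw [intervalIntegral.integral_const, smul_eq_mul, sub_zero]
    have : (1 + η) * T₁ ≤ 2 * T₁ := by nlinarith
    exact mul_le_mul_of_nonneg_right this (sq_nonneg _)
  have s3 : ∫ T in ((1 + η) * T₂)..1, rho c a w T ^ 2 ≤ 2 * w ^ 2 / (T₂ - a) := by
    have hle : T₂ ≤ (1 + η) * T₂ := le_mul_of_one_le_left hT20.le (by linarith)
    refine (tail_le hc hw (by linarith) hT2).trans ?_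
    have : 0 < T₂ - a := by linarith
    gcongr
  have s4 := int_diff (T₁ := (1 + η) * T₁) (T₂ := (1 + η) * T₂) hc hcc haa hw2 hww
  have s5 : (∫ T in ((1 + η) * T₁)..((1 + η) * T₂), rho c a w T ^ 2) ≤
      (∫ T in ((1 + η) * T₁)..((1 + η) * T₂),
        rho ((1 + η) * c) ((1 - η) * a - e) ((1 - η) * w) T ^ 2) +
      (2 * η * w * R + (η * a + e) * R ^ 2 + 2 / 3 * (η * c) * R ^ 3) := by
    obtain ⟨ρ, hρ⟩ : ∃ ρ, ρ = rho c a w ((1 + η) * T₁) := ⟨_, rfl⟩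
    have hρ0 : 0 < ρ := by rw [hρ]; exact rho_pos hc hw
    have hρR : ρ ≤ R := by rw [hρ]; exact (rho_anti hc hw hA).trans hR
    rw [← hρ] at s4
    have q1 : 2 * (w - (1 - η) * w) * ρ ≤ 2 * η * w * R := by
      have : 2 * (w - (1 - η) * w) * ρ = 2 * η * w * ρ := by ring
      rw [this]
      gcongr
    have q2 : (a - ((1 - η) * a - e)) * ρ ^ 2 ≤ (η * a + e) * R ^ 2 := by
      have : a - ((1 - η) * a - e) = η * a + e := by ring
      rw [this]
      gcongr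
    have q3 : 2 / 3 * ((1 + η) * c - c) * ρ ^ 3 ≤ 2 / 3 * (η * c) * R ^ 3 := by
      have : (1 + η) * c - c = η * c := by ring
      rw [this]
      gcongr
    linarith
  obtain ⟨M, hM⟩ : ∃ M, M = ∫ T in ((1 + η) * T₁)..((1 + η) * T₂),
        rho ((1 + η) * c) ((1 - η) * a - e) ((1 - η) * w) T ^ 2 := ⟨_, rfl⟩
  rw [← hM] at s5 k0
  have hM0 : 0 ≤ M := by
    rw [hM]
    exact intervalIntegral.integral_nonneg hAB fun _ _ => sq_nonneg _
  have hMle : M ≤ c * R ^ 3 / 3 + w * R := by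
    have q1 : M ≤ ∫ T in ((1 + η) * T₁)..((1 + η) * T₂), rho c a w T ^ 2 := by
      rw [hM]
      refine intervalIntegral.integral_mono_on hAB (ii_rho hc2 hw2 _ _) (ii_rho hc hw _ _)
        fun T _ => ?_
      exact pow_le_pow_left₀ (rho_pos hc2 hw2).le
        (rho_mono hc hcc hw2 hww (by linarith)) 2
    exact q1.trans ((sub_le_J hc hw hA hAB hT2).trans (J_le hc hw hR))
  have hM1 : M - η * M ≤ (1 + η)⁻¹ * M := by
    have : 1 - η ≤ (1 + η)⁻¹ := by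
      rw [le_inv_comm₀ h1 h1', inv_eq_one_div, le_div_iff₀ h1]
      nlinarith
    nlinarith [mul_le_mul_of_nonneg_right this hM0]
  have n1 : η * M ≤ η * (c * R ^ 3 / 3 + w * R) := mul_le_mul_of_nonneg_left hMle hη
  have m1 : 0 ≤ η * (w * R) := by positivity
  have m2 : 0 ≤ η * (c * R ^ 3) := by positivity
  have m3 : 0 ≤ (η * a + e) * R ^ 2 := by positivity
  rw [s1]
  nlinarith

end

end Vale.Agent.P146.H317
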