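import Mathlib

set_option linter.all false

/-!
# P146: the root of the row equation, its test function and its `T`-integral

`rho c a w T` is the positive root of `c ρ² + (T - a) ρ = w`.  Main facts:

* `sq_sub_sq`: `Q² - ρ² = φ(Q) (c Q² + (T - a) Q - w)` with `φ(Q) = (Q + ρ) / (c Q + w / ρ)`;
* `integral_sq`: `∫ ρ² dT = g(T₁) - g(T₂)`, `g = c ρ³ / 3 + w ρ`;
* `int_diff`: comparison of the integrals for two sets of parameters.
-/

open MeasureTheory Set Filter Topology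

namespace Vale.Agent.P146.H317

/-- The positive root `ρ` of `c ρ² + (T - a) ρ = w`. -/
noncomputable def rho (c a w T : ℝ) : ℝ := ((a - T) + √((a - T) ^ 2 + 4 * c * w)) / (2 * c)

/-- The test function. -/
noncomputable def phi (c a w T Q : ℝ) : ℝ := (Q + rho c a w T) / (c * Q + w / rho c a w T)

variable {c a w T Q : ℝ}

lemma disc_nonneg (hc : 0 < c) (hw : 0 ≤ w) : 0 ≤ (a - T) ^ 2 + 4 * c * w := by positivity

lemma disc_pos (hc : 0 < c) (hw : 0 < w) : 0 < (a - T) ^ 2 + 4 * c * w := by positivity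

lemma rho_eq (hc : 0 < c) (hw : 0 ≤ w) :
    c * rho c a w T ^ 2 + (T - a) * rho c a w T = w := by
  have hs := Real.sq_sqrt (disc_nonneg (a := a) (T := T) hc hw)
  unfold rho
  obtain ⟨s, hsd⟩ : ∃ s, s = √((a - T) ^ 2 + 4 * c * w) := ⟨_, rfl⟩
  rw [← hsd] at hs ⊢
  field_simp
  nlinarith [hs]

lemma rho_pos (hc : 0 < c) (hw : 0 < w) : 0 < rho c a w T := by
  unfold rho
  refine div_pos ?_ (by positivity)
  have h1 : |a - T| < √((a - T) ^ 2 + 4 * c * w) := by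
    rw [← Real.sqrt_sq_eq_abs]
    exact Real.sqrt_lt_sqrt (sq_nonneg _) (by linarith [show 0 < 4 * c * w by positivity])
  have h2 := neg_abs_le (a - T)
  linarith

lemma two_rho (hc : 0 < c) : 2 * c * rho c a w T + (T - a) = √((a - T) ^ 2 + 4 * c * w) := by
  unfold rho
  field_simp
  ring

lemma kap_eq (hc : 0 < c) (hw : 0 < w) : c * rho c a w T + (T - a) = w / rho c a w T := by
  have h := rho_eq (a := a) (T := T) hc hw.le
  have hp := rho_pos (a := a) (T := T) hc hw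
  rw [eq_div_iff hp.ne']
  nlinarith

lemma kap_pos (hc : 0 < c) (hw : 0 < w) : 0 < c * rho c a w T + (T - a) := by
  rw [kap_eq hc hw]
  exact div_pos hw (rho_pos hc hw)

lemma factor (hc : 0 < c) (hw : 0 < w) (Q : ℝ) :
    (Q - rho c a w T) * (c * Q + w / rho c a w T) = c * Q ^ 2 + (T - a) * Q - w := by
  have h := rho_eq (a := a) (T := T) hc hw.le
  rw [← kap_eq hc hw]
  linear_combination -h

/-- **The test function identity.** -/
theorem sq_sub_sq (hc : 0 < c) (hw : 0 < w) (hQ : 0 ≤ Q) :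
    Q ^ 2 - rho c a w T ^ 2 = phi c a w T Q * (c * Q ^ 2 + (T - a) * Q - w) := by
  have hp := rho_pos (a := a) (T := T) hc hw
  have hd : 0 < c * Q + w / rho c a w T := by positivity
  rw [← factor hc hw, phi]
  field_simp
  ring

lemma phi_pos (hc : 0 < c) (hw : 0 < w) (hQ : 0 ≤ Q) : 0 < phi c a w T Q := by
  have hp := rho_pos (a := a) (T := T) hc hw
  unfold phi
  positivity

/-- Comparison: a subsolution is below the root. -/
lemma le_rho (hc : 0 < c) (hw : 0 < w) (hQ : 0 ≤ Q) (h : c * Q ^ 2 + (T - a) * Q ≤ w) :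
    Q ≤ rho c a w T := by
  have hp := rho_pos (a := a) (T := T) hc hw
  have hd : 0 < c * Q + w / rho c a w T := by positivity
  have hf := factor (a := a) (T := T) hc hw Q
  by_contra hcon
  push Not at hcon
  have : 0 < (Q - rho c a w T) * (c * Q + w / rho c a w T) := mul_pos (by linarith) hd
  linarith

/-- Comparison: a supersolution is above the root. -/
lemma rho_le (hc : 0 < c) (hw : 0 < w) (hQ : 0 ≤ Q) (h : w ≤ c * Q ^ 2 + (T - a) * Q) :
    rho c a w T ≤ Q := by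
  have hp := rho_pos (a := a) (T := T) hc hw
  have hd : 0 < c * Q + w / rho c a w T := by positivity
  have hf := factor (a := a) (T := T) hc hw Q
  by_contra hcon
  push Not at hcon
  have : (Q - rho c a w T) * (c * Q + w / rho c a w T) < 0 :=
    mul_neg_of_neg_of_pos (by linarith) hd
  linarith

/-- Monotonicity in all the parameters. -/
lemma rho_mono {c' a' w' T' : ℝ} (hc' : 0 < c') (hcc : c' ≤ c) (hw : 0 < w) (hww : w ≤ w')
    (haa : a - T ≤ a' - T') : rho c a w T ≤ rho c' a' w' T' := by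
  have hc : 0 < c := hc'.trans_le hcc
  have hp := rho_pos (a := a) (T := T) hc hw
  have h := rho_eq (a := a) (T := T) hc hw.le
  refine le_rho hc' (hw.trans_le hww) hp.le ?_
  nlinarith [mul_nonneg (sub_nonneg.2 hcc) (sq_nonneg (rho c a w T)),
    mul_nonneg (sub_nonneg.2 haa) hp.le]

lemma rho_anti (hc : 0 < c) (hw : 0 < w) : Antitone (rho c a w) := fun T T' h =>
  rho_mono hc le_rfl hw le_rfl (by linarith)

/-- The size of the root. -/
lemma rho_le_size (hc : 0 < c) (hw : 0 < w) :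
    rho c a w T ≤ max (a - T) 0 / c + √(w / c) := by
  have h0 : 0 ≤ √(w / c) := Real.sqrt_nonneg _
  have h1 : 0 ≤ max (a - T) 0 := le_max_right _ _
  have h2 : a - T ≤ max (a - T) 0 := le_max_left _ _
  have hs : √(w / c) ^ 2 = w / c := Real.sq_sqrt (by positivity)
  refine rho_le hc hw (by positivity) ?_
  obtain ⟨m, hm⟩ : ∃ m, m = max (a - T) 0 := ⟨_, rfl⟩
  obtain ⟨s, hsd⟩ : ∃ s, s = √(w / c) := ⟨_, rfl⟩
  rw [← hm] at h1 h2 ⊢
  rw [← hsd] at h0 hs ⊢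
  have e1 : c * (m / c + s) ^ 2 + (T - a) * (m / c + s) =
      (m / c + s) * (m + c * s + (T - a)) := by
    field_simp
  rw [e1]
  have e2 : w = s * (c * s) := by
    have : w = c * s ^ 2 := by rw [hs]; field_simp
    rw [this]; ring
  rw [e2]
  refine mul_le_mul ?_ (by linarith) (by positivity) (by positivity)
  have : 0 ≤ m / c := by positivity
  linarith

/-- `φ ≤ max (1 / c) (ρ² / w)`. -/
lemma phi_le (hc : 0 < c) (hw : 0 < w) (hQ : 0 ≤ Q) :
    phi c a w T Q ≤ 1 / c + rho c a w T ^ 2 / w := by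
  have hp := rho_pos (a := a) (T := T) hc hw
  have hd : 0 < c * Q + w / rho c a w T := by positivity
  rw [phi, div_le_iff₀ hd]
  have e1 : (1 / c + rho c a w T ^ 2 / w) * (c * Q + w / rho c a w T) =
      Q + rho c a w T + (w / (c * rho c a w T) + rho c a w T ^ 2 * c * Q / w) := by
    field_simp
    ring
  rw [e1]
  have : 0 ≤ w / (c * rho c a w T) + rho c a w T ^ 2 * c * Q / w := by positivity
  linarith

/-- `ρ² / w ≤ (2 / c) (1 + a₊² / (c w))`. -/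
lemma rho_sq_div_le (hc : 0 < c) (hw : 0 < w) :
    rho c a w T ^ 2 / w ≤ 2 / c * (1 + max (a - T) 0 ^ 2 / (c * w)) := by
  have hp := rho_pos (a := a) (T := T) hc hw
  have h := rho_le_size (a := a) (T := T) hc hw
  have hs : √(w / c) ^ 2 = w / c := Real.sq_sqrt (by positivity)
  have h1 : 0 ≤ max (a - T) 0 := le_max_right _ _
  obtain ⟨m, hm⟩ : ∃ m, m = max (a - T) 0 := ⟨_, rfl⟩
  obtain ⟨s, hsd⟩ : ∃ s, s = √(w / c) := ⟨_, rfl⟩
  rw [← hm, ← hsd] at h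
  rw [← hm] at h1 ⊢
  rw [← hsd] at hs
  have hs0 : 0 ≤ s := by rw [hsd]; exact Real.sqrt_nonneg _
  have h2 : rho c a w T ^ 2 ≤ 2 * (m / c) ^ 2 + 2 * s ^ 2 := by
    have h3 : rho c a w T ^ 2 ≤ (m / c + s) ^ 2 := pow_le_pow_left₀ hp.le h 2
    nlinarith [sq_nonneg (m / c - s)]
  rw [div_le_iff₀ hw]
  refine h2.trans (le_of_eq ?_)
  rw [hs]
  field_simp
  ring

/-- Lipschitz bound of the test function. -/
lemma phi_lip (hc : 0 < c) (hw : 0 < w) {Q' : ℝ} (hQ : 0 ≤ Q) (hQ' : 0 ≤ Q') :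
    |phi c a w T Q - phi c a w T Q'| ≤
      (rho c a w T / w + c * rho c a w T ^ 3 / w ^ 2) * |Q - Q'| := by
  have hp := rho_pos (a := a) (T := T) hc hw
  obtain ⟨r, hr⟩ : ∃ r, r = rho c a w T := ⟨_, rfl⟩
  unfold phi
  rw [← hr] at hp ⊢
  have hd : 0 < c * Q + w / r := by positivity
  have hd' : 0 < c * Q' + w / r := by positivity
  have e1 : (Q + r) / (c * Q + w / r) - (Q' + r) / (c * Q' + w / r) =
      (w / r - c * r) * (Q - Q') / ((c * Q + w / r) * (c * Q' + w / r)) := by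
    field_simp
    ring
  rw [e1, abs_div, abs_mul, abs_of_pos (mul_pos hd hd'), div_le_iff₀ (mul_pos hd hd')]
  have h1 : |w / r - c * r| ≤ w / r + c * r := by
    have h2 : 0 < w / r := by positivity
    have h3 : 0 < c * r := by positivity
    rw [abs_le]
    constructor <;> linarith
  have h2 : (w / r) ^ 2 ≤ (c * Q + w / r) * (c * Q' + w / r) := by
    have h3 : 0 ≤ c * Q := by positivity
    have h4 : 0 ≤ c * Q' := by positivity
    have h5 : 0 < w / r := by positivity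
    nlinarith [mul_nonneg h3 h4, mul_nonneg h3 h5.le, mul_nonneg h4 h5.le]
  have e2 : w / r + c * r = (r / w + c * r ^ 3 / w ^ 2) * (w / r) ^ 2 := by
    field_simp
  calc |w / r - c * r| * |Q - Q'| ≤ (w / r + c * r) * |Q - Q'| := by gcongr
    _ = (r / w + c * r ^ 3 / w ^ 2) * (w / r) ^ 2 * |Q - Q'| := by rw [e2]
    _ ≤ (r / w + c * r ^ 3 / w ^ 2) * ((c * Q + w / r) * (c * Q' + w / r)) * |Q - Q'| := by
        gcongr
    _ = _ := by ring

/-! ### The integral -/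

lemma hasDerivAt_rho (hc : 0 < c) (hw : 0 < w) :
    HasDerivAt (rho c a w) (-(rho c a w T) / (2 * c * rho c a w T + (T - a))) T := by
  have hD := disc_pos (a := a) (T := T) hc hw
  have h1 : HasDerivAt (fun T : ℝ => (a - T) ^ 2 + 4 * c * w) (-2 * (a - T)) T := by
    have := (((hasDerivAt_id T).const_sub a).pow 2).add_const (4 * c * w)
    refine this.congr_deriv ?_
    simp
  have h2 := h1.sqrt hD.ne'
  have h3 := (((hasDerivAt_id T).const_sub a).add h2).div_const (2 * c)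
  refine h3.congr_deriv ?_
  have hs : 0 < √((a - T) ^ 2 + 4 * c * w) := Real.sqrt_pos.2 hD
  have e := two_rho (a := a) (w := w) (T := T) hc
  rw [e]
  obtain ⟨s, hsd⟩ : ∃ s, s = √((a - T) ^ 2 + 4 * c * w) := ⟨_, rfl⟩
  have e2 : rho c a w T = (s - (T - a)) / (2 * c) := by
    rw [← hsd] at e
    rw [← e]
    field_simp
    ring
  rw [← hsd] at hs ⊢
  rw [e2]
  field_simp
  try ring

/-- `g = c ρ³ / 3 + w ρ`. -/
noncomputable def g (c a w T : ℝ) : ℝ := c * rho c a w T ^ 3 / 3 + w * rho c a w T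

lemma hasDerivAt_g (hc : 0 < c) (hw : 0 < w) :
    HasDerivAt (g c a w) (-(rho c a w T) ^ 2) T := by
  have h := hasDerivAt_rho (a := a) (T := T) hc hw
  have h1 := (((h.pow 3).const_mul c).div_const 3).add (h.const_mul w)
  refine h1.congr_deriv ?_
  have hp := rho_pos (a := a) (T := T) hc hw
  have hk := kap_pos (a := a) (T := T) hc hw
  have he := rho_eq (a := a) (T := T) hc hw.le
  have hd : 0 < 2 * c * rho c a w T + (T - a) := by
    have : 0 < c * rho c a w T := by positivity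
    linarith
  obtain ⟨r, hr⟩ : ∃ r, r = rho c a w T := ⟨_, rfl⟩
  obtain ⟨D, hD⟩ : ∃ D, D = 2 * c * r + (T - a) := ⟨_, rfl⟩
  rw [← hr] at he hd ⊢
  rw [← hD] at hd ⊢
  have h5 : w = D * r - c * r ^ 2 := by rw [hD, ← he]; ring
  rw [h5]
  field_simp
  push_cast
  ring

lemma continuous_rho (hc : 0 < c) (hw : 0 < w) : Continuous (rho c a w) :=
  continuous_iff_continuousAt.2 fun _ => (hasDerivAt_rho hc hw).continuousAt

theorem integral_sq (hc : 0 < c) (hw : 0 < w) (T₁ T₂ : ℝ) :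
    ∫ T in T₁..T₂, rho c a w T ^ 2 = g c a w T₁ - g c a w T₂ := by
  have h := intervalIntegral.integral_eq_sub_of_hasDerivAt (f := g c a w)
    (f' := fun T => -(rho c a w T) ^ 2) (a := T₁) (b := T₂)
    (fun T _ => hasDerivAt_g hc hw)
    (((continuous_rho hc hw).pow 2).neg.intervalIntegrable _ _)
  rw [intervalIntegral.integral_neg] at h
  linarith

lemma g_nonneg (hc : 0 < c) (hw : 0 < w) : 0 ≤ g c a w T := by
  have hp := rho_pos (a := a) (T := T) hc hw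
  unfold g
  positivity

/-! ### Comparison of the integrals -/

section alg

variable {r R τ δ w' c' : ℝ}

lemma alg_w (hc : 0 < c) (hr : 0 < r) (hrR : r ≤ R) (h : c * r ^ 2 + τ * r = w)
    (h' : c * R ^ 2 + τ * R = w') (hk : 0 < c * r + τ) :
    c * R ^ 3 / 3 + w' * R - (c * r ^ 3 / 3 + w * r) ≤ 2 * (w' - w) * R := by
  have key : 2 * (w' - w) * R - (c * R ^ 3 / 3 + w' * R - (c * r ^ 3 / 3 + w * r)) =
      (R - r) ^ 2 * ((2 / 3) * c * (R + 2 * r) + τ) := by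
    rw [← h, ← h']; ring
  have h1 : 0 ≤ (2 / 3) * c * (R + 2 * r) + τ := by nlinarith [mul_pos hc hr]
  have h2 := mul_nonneg (sq_nonneg (R - r)) h1
  linarith

lemma alg_a (hc : 0 < c) (hr : 0 < r) (hrR : r ≤ R) (hw : 0 < w)
    (h : c * r ^ 2 + (τ + δ) * r = w) (h' : c * R ^ 2 + τ * R = w) :
    c * R ^ 3 / 3 + w * R - (c * r ^ 3 / 3 + w * r) ≤ δ * R ^ 2 := by
  have hR : 0 < R := hr.trans_le hrR
  have e1 : δ * r = (R - r) * (c * (R + r) + τ) := by
    linear_combination h - h'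
  have key : r * (δ * R ^ 2 - (c * R ^ 3 / 3 + w * R - (c * r ^ 3 / 3 + w * r))) =
      (R - r) ^ 2 * (w + 2 / 3 * c * R * r + c * r ^ 2 / 3) := by
    have e2 : r * (δ * R ^ 2 - (c * R ^ 3 / 3 + w * R - (c * r ^ 3 / 3 + w * r))) =
      R ^ 2 * ((R - r) * (c * (R + r) + τ)) -
        r * (c * R ^ 3 / 3 + w * R - (c * r ^ 3 / 3 + w * r)) := by
      rw [← e1]; ring
    rw [e2, ← h']
    ring
  have h1 : 0 ≤ (R - r) ^ 2 * (w + 2 / 3 * c * R * r + c * r ^ 2 / 3) := by positivity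
  rw [← key] at h1
  have h2 := nonneg_of_mul_nonneg_right h1 hr
  linarith

lemma alg_c (hc : 0 < c) (hr : 0 < r) (hrR : r ≤ R) (hw : 0 < w)
    (h : c' * r ^ 2 + τ * r = w) (h' : c * R ^ 2 + τ * R = w) :
    c * R ^ 3 / 3 + w * R - (c' * r ^ 3 / 3 + w * r) ≤ 2 / 3 * (c' - c) * R ^ 3 := by
  have hR : 0 < R := hr.trans_le hrR
  have hk : 0 < c * R + τ := by
    have : 0 < R * (c * R + τ) := by rw [← h'] at hw; linarith [hw, show R * (c * R + τ) = c * R ^ 2 + τ * R by ring]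
    exact (pos_iff_pos_of_mul_pos this).1 hR
  have e1 : (c' - c) * r ^ 2 = (R - r) * (c * (R + r) + τ) := by
    linear_combination h - h'
  have key : 3 * r ^ 2 * (2 / 3 * (c' - c) * R ^ 3 -
      (c * R ^ 3 / 3 + w * R - (c' * r ^ 3 / 3 + w * r))) =
      (R - r) ^ 2 * (2 * c * R ^ 2 * r + c * R * r ^ 2 +
        (c * R + τ) * (2 * R ^ 2 + 2 * R * r - r ^ 2)) := by
    have e2 : 3 * r ^ 2 * (2 / 3 * (c' - c) * R ^ 3 -
      (c * R ^ 3 / 3 + w * R - (c' * r ^ 3 / 3 + w * r))) =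
      (2 * R ^ 3 + r ^ 3) * ((c' - c) * r ^ 2) -
        r ^ 2 * (c * R ^ 3 + 3 * w * R - c * r ^ 3 - 3 * w * r) := by
      ring
    rw [e2, e1, ← h']
    ring
  have h0 : 0 ≤ 2 * R ^ 2 + 2 * R * r - r ^ 2 := by nlinarith
  have h1 : 0 ≤ (R - r) ^ 2 * (2 * c * R ^ 2 * r + c * R * r ^ 2 +
        (c * R + τ) * (2 * R ^ 2 + 2 * R * r - r ^ 2)) := by positivity
  rw [← key] at h1
  have h2 := nonneg_of_mul_nonneg_right h1 (by positivity : (0 : ℝ) < 3 * r ^ 2)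
  linarith

lemma alg_c0 (hr : 0 < r) (hrR : r ≤ R) (hw : 0 < w) (hc : 0 ≤ c) (hc' : 0 ≤ c')
    (h : c' * r ^ 2 + τ * r = w) (h' : c * R ^ 2 + τ * R = w) :
    c' * r ^ 3 / 3 + w * r ≤ c * R ^ 3 / 3 + w * R := by
  have hR : 0 < R := hr.trans_le hrR
  have e1 : c * R ^ 3 = w * R - τ * R ^ 2 := by rw [← h']; ring
  have e2 : c' * r ^ 3 = w * r - τ * r ^ 2 := by rw [← h]; ring
  have h1 : τ * R ≤ w := by rw [← h']; nlinarith [mul_nonneg hc (sq_nonneg R)]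
  have h2 : τ * r ≤ w := by rw [← h]; nlinarith [mul_nonneg hc' (sq_nonneg r)]
  have h3 : 0 ≤ (R - r) * (4 * w - τ * (R + r)) := mul_nonneg (by linarith) (by nlinarith)
  rw [e1, e2]
  nlinarith

end alg

/-- Monotonicity of `g` in all parameters. -/
lemma g_mono {c' a' w' : ℝ} (hc' : 0 < c') (hcc : c' ≤ c) (hw : 0 < w) (hww : w ≤ w')
    (haa : a ≤ a') : g c a w T ≤ g c' a' w' T := by
  have hc : 0 < c := hc'.trans_le hcc
  have hw' : 0 < w' := hw.trans_le hww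
  -- step `c`
  have h1 : g c a w T ≤ g c' a w T :=
    alg_c0 (rho_pos hc hw) (rho_mono hc' hcc hw le_rfl le_rfl) hw hc'.le hc.le
      (rho_eq hc hw.le) (rho_eq hc' hw.le)
  -- steps `a`, `w`
  have h2 : g c' a w T ≤ g c' a' w' T := by
    have hm : rho c' a w T ≤ rho c' a' w' T :=
      rho_mono hc' le_rfl hw hww (by linarith)
    have hp := rho_pos (a := a) (T := T) hc' hw
    unfold g
    gcongr
  exact h1.trans h2

/-- The increment of `g` in the parameters. -/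
lemma g_diff {c₁ c₂ a₁ a₂ w₁ w₂ : ℝ} (hc : 0 < c₁) (hcc : c₁ ≤ c₂) (haa : a₂ ≤ a₁)
    (hw : 0 < w₂) (hww : w₂ ≤ w₁) :
    g c₁ a₁ w₁ T - g c₂ a₂ w₂ T ≤ 2 * (w₁ - w₂) * rho c₁ a₁ w₁ T +
      (a₁ - a₂) * rho c₁ a₁ w₁ T ^ 2 + 2 / 3 * (c₂ - c₁) * rho c₁ a₁ w₁ T ^ 3 := by
  have hc2 : 0 < c₂ := hc.trans_le hcc
  have hw1 : 0 < w₁ := hw.trans_le hww
  have m1 : rho c₁ a₁ w₂ T ≤ rho c₁ a₁ w₁ T := rho_mono hc le_rfl hw hww le_rfl
  have m2 : rho c₁ a₂ w₂ T ≤ rho c₁ a₁ w₂ T := rho_mono hc le_rfl hw le_rfl (by linarith)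
  have m3 : rho c₂ a₂ w₂ T ≤ rho c₁ a₂ w₂ T := rho_mono hc hcc hw le_rfl le_rfl
  have p1 := rho_pos (a := a₁) (T := T) hc hw
  have p2 := rho_pos (a := a₂) (T := T) hc hw
  have p3 := rho_pos (a := a₂) (T := T) hc2 hw
  have k1 : g c₁ a₁ w₁ T - g c₁ a₁ w₂ T ≤ 2 * (w₁ - w₂) * rho c₁ a₁ w₁ T :=
    alg_w hc p1 m1 (rho_eq hc hw.le) (rho_eq hc hw1.le) (kap_pos hc hw)
  have k2 : g c₁ a₁ w₂ T - g c₁ a₂ w₂ T ≤ (a₁ - a₂) * rho c₁ a₁ w₂ T ^ 2 := by
    refine alg_a (τ := T - a₁) (δ := a₁ - a₂) hc p2 m2 hw ?_ (rho_eq hc hw.le)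
    have := rho_eq (a := a₂) (T := T) hc hw.le
    rw [show T - a₁ + (a₁ - a₂) = T - a₂ by ring]
    exact this
  have k3 : g c₁ a₂ w₂ T - g c₂ a₂ w₂ T ≤ 2 / 3 * (c₂ - c₁) * rho c₁ a₂ w₂ T ^ 3 :=
    alg_c hc p3 m3 hw (rho_eq hc2 hw.le) (rho_eq hc hw.le)
  have l2 : (a₁ - a₂) * rho c₁ a₁ w₂ T ^ 2 ≤ (a₁ - a₂) * rho c₁ a₁ w₁ T ^ 2 :=
    mul_le_mul_of_nonneg_left (pow_le_pow_left₀ p1.le m1 2) (by linarith)
  have l3 : 2 / 3 * (c₂ - c₁) * rho c₁ a₂ w₂ T ^ 3 ≤ 2 / 3 * (c₂ - c₁) * rho c₁ a₁ w₁ T ^ 3 :=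
    mul_le_mul_of_nonneg_left (pow_le_pow_left₀ p2.le (m2.trans m1) 3) (by linarith)
  linarith

/-- **The difference of the two integrals.** -/
theorem int_diff {c₁ c₂ a₁ a₂ w₁ w₂ T₁ T₂ : ℝ} (hc : 0 < c₁) (hcc : c₁ ≤ c₂) (haa : a₂ ≤ a₁)
    (hw : 0 < w₂) (hww : w₂ ≤ w₁) :
    (∫ T in T₁..T₂, rho c₁ a₁ w₁ T ^ 2) - ∫ T in T₁..T₂, rho c₂ a₂ w₂ T ^ 2 ≤
      2 * (w₁ - w₂) * rho c₁ a₁ w₁ T₁ + (a₁ - a₂) * rho c₁ a₁ w₁ T₁ ^ 2 +
        2 / 3 * (c₂ - c₁) * rho c₁ a₁ w₁ T₁ ^ 3 := by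
  rw [integral_sq hc (hw.trans_le hww), integral_sq (hc.trans_le hcc) hw]
  have h1 := g_diff (T := T₁) hc hcc haa hw hww
  have h2 : g c₂ a₂ w₂ T₂ ≤ g c₁ a₁ w₁ T₂ := g_mono hc hcc hw hww haa
  linarith

/-- The size of one integral. -/
theorem int_le {T₁ T₂ : ℝ} (hc : 0 < c) (hw : 0 < w) :
    ∫ T in T₁..T₂, rho c a w T ^ 2 ≤
      c * rho c a w T₁ ^ 3 / 3 + w * rho c a w T₁ := by
  rw [integral_sq hc hw]
  have := g_nonneg (a := a) (T := T₂) hc hw
  unfold g at this ⊢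
  linarith

end Vale.Agent.P146.H317
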