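import Vale.Agent.P146.H317.C3n
import Vale.Agent.P146.H615.NumU

/-!
# P146: the last square of the tested row equation on the window of the data

`c3_kw`: `C3U φ ≤ (b kp) ^ 2 (n ^ (-7 q) / 2 b y E φ Q ^ 2) + P0 n ^ (-72 q) y ^ 3` for all shares
`T ≥ n ^ (-71 q) y ^ 2`, at the points with the numbers `H615.PtN` and with few big roots.
-/

open MeasureTheory ProbabilityTheory Filter Set

namespace Vale.Agent.P146.H317

open Vale.Agent.P157.Lv hiding Dep
open Vale.Agent.P146.H646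
open Vale.Agent.P146.H325 hiding cb cf
open Vale.Agent.P146.H196 Vale.Agent.P146.H347 Vale.Agent.P146.H475 Vale.Agent.P146.H418
  Vale.Agent.P146.H412 Vale.Agent.P146.H320 Vale.Agent.P146.H529 Vale.Agent.P146.H470
  Vale.Agent.P146.H516 Vale.Agent.P146.H615 Vale.Agent.P146.H620.Low

set_option linter.unusedSectionVars false

lemma log_C3b {b : ℝ} (hb : 0 < b) :
    Real.log (C3b b (3 / (2 * b))) ≤ 10 * |Real.log b| + 100000 := by
  set E := Real.exp |Real.log b| with hE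
  have hE1 : 1 ≤ E := Real.one_le_exp (abs_nonneg _)
  have hbE : b ≤ E := by
    rw [← Real.exp_log hb]
    exact Real.exp_le_exp.2 (le_abs_self _)
  have h2 : b ^ 2 ≤ E ^ 8 := (pow_le_pow_left₀ hb.le hbE 2).trans
    (pow_le_pow_right₀ hE1 (by norm_num))
  have h4 : b ^ 4 ≤ E ^ 8 := (pow_le_pow_left₀ hb.le hbE 4).trans
    (pow_le_pow_right₀ hE1 (by norm_num))
  have h8 : b ^ 8 ≤ E ^ 8 := pow_le_pow_left₀ hb.le hbE 8
  have h1 : 1 ≤ E ^ 8 := one_le_pow₀ hE1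
  have e1 : C3b b (3 / (2 * b)) = 18 * b ^ 2 + 27 +
      6000000 * (9 / 4) * ((2 * b ^ 4 + 8 * b ^ 8) * 70000 + (7 * b ^ 4 + 8 * b ^ 8)) := by
    unfold C3b
    field_simp
    ring
  have h9 : C3b b (3 / (2 * b)) ≤ 10 ^ 14 * E ^ 8 := by
    rw [e1]
    linarith
  have h10 : Real.log (C3b b (3 / (2 * b))) ≤ Real.log (10 ^ 14 * E ^ 8) :=
    Real.log_le_log (C3b_pos hb) h9
  have hE0 : 0 < E := by positivity
  have hE2 : Real.log E = |Real.log b| := by
    rw [hE, Real.log_exp]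
  rw [Real.log_mul (by positivity) (by positivity), Real.log_pow, Real.log_pow, hE2] at h10
  push_cast at h10
  have c := log_c 10 (by norm_num)
  have k := abs_nonneg (Real.log b)
  linarith

lemma log_Ce3 {b : ℝ} (hb : 0 < b) : Real.log (Ce3 b) ≤ 10 * |Real.log b| + 100000 := by
  set E := Real.exp |Real.log b| with hE
  have hE1 : 1 ≤ E := Real.one_le_exp (abs_nonneg _)
  have hbE : b ≤ E := by
    rw [← Real.exp_log hb]
    exact Real.exp_le_exp.2 (le_abs_self _)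
  have h3 : b ^ 3 ≤ E ^ 8 := (pow_le_pow_left₀ hb.le hbE 3).trans
    (pow_le_pow_right₀ hE1 (by norm_num))
  have h7 : b ^ 7 ≤ E ^ 8 := (pow_le_pow_left₀ hb.le hbE 7).trans
    (pow_le_pow_right₀ hE1 (by norm_num))
  have e1 : Ce3 b = 4352 * (6000000 * (9 / 4) * (2 * b ^ 3 + 8 * b ^ 7)) := by
    unfold Ce3
    field_simp
  have h9 : Ce3 b ≤ 10 ^ 14 * E ^ 8 := by
    rw [e1]
    have : 0 < E ^ 8 := by positivity
    linarith
  have hC : 0 < Ce3 b := by
    unfold Ce3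
    positivity
  have h10 : Real.log (Ce3 b) ≤ Real.log (10 ^ 14 * E ^ 8) := Real.log_le_log hC h9
  have hE0 : 0 < E := by positivity
  have hE2 : Real.log E = |Real.log b| := by
    rw [hE, Real.log_exp]
  rw [Real.log_mul (by positivity) (by positivity), Real.log_pow, Real.log_pow, hE2] at h10
  push_cast at h10
  have c := log_c 10 (by norm_num)
  have k := abs_nonneg (Real.log b)
  linarith

section

variable {a0 b₁ q A b D : ℝ} {n : ℕ} {y V al s lam η T u : ℝ}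

/-- the window in the letters of `H620.Low` -/
lemma nw_ln (h : NW a0 b₁ q A b n y V al s lam η) :
    LN q (10 * |Real.log b| + 10 * |Real.log A| + 100000) n y V :=
  LN.of h.env h.a0' h.b1.le

lemma nw_Uq_le (h : NW a0 b₁ q A b n y V al s lam η) (hT : (n : ℝ) ^ (-(71 * q)) * y ^ 2 ≤ T)
    (hT1 : T ≤ 1) : Uq q n y T ≤ Uc q n y := by
  obtain ⟨f1, f2, f3, f4, f5, f6, f7, f8, f9, f10, f11, f12, f13, f14⟩ := h.facts
  obtain ⟨hT0, t1, t2⟩ := logT h hT hT1
  have hn := h.env.n0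
  have hy := h.env.y0
  unfold Uq Uc
  refine le_of_log (by positivity) (by positivity) ?_
  simp (disch := positivity) only [Real.log_div, Real.log_mul, Real.log_rpow, Real.log_pow,
    Real.log_sqrt]
  push_cast
  linarith

lemma nw_rk_tn (h : NW a0 b₁ q A b n y V al s lam η) (hT : (n : ℝ) ^ (-(71 * q)) * y ^ 2 ≤ T)
    (hT1 : T ≤ 1) : (n : ℝ) ^ (106 * q) / (n * y ^ 3 * √T) ≤ tn q n y := by
  obtain ⟨f1, f2, f3, f4, f5, f6, f7, f8, f9, f10, f11, f12, f13, f14⟩ := h.facts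
  obtain ⟨hT0, t1, t2⟩ := logT h hT hT1
  have hn := h.env.n0
  have hy := h.env.y0
  unfold tn
  refine le_of_log (by positivity) (by positivity) ?_
  simp (disch := positivity) only [Real.log_div, Real.log_mul, Real.log_rpow, Real.log_pow,
    Real.log_sqrt]
  push_cast
  linarith

lemma nw_inc_In (h : NW a0 b₁ q A b n y V al s lam η) (hT : (n : ℝ) ^ (-(71 * q)) * y ^ 2 ≤ T)
    (hT1 : T ≤ 1) : (n : ℝ) ^ (112 * q) / √T ≤ In q n y := by
  obtain ⟨f1, f2, f3, f4, f5, f6, f7, f8, f9, f10, f11, f12, f13, f14⟩ := h.facts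
  obtain ⟨hT0, t1, t2⟩ := logT h hT hT1
  have hn := h.env.n0
  have hy := h.env.y0
  unfold In
  refine le_of_log (by positivity) (by positivity) ?_
  simp (disch := positivity) only [Real.log_div, Real.log_rpow, Real.log_sqrt]
  linarith

lemma nw_th_tn (h : NW a0 b₁ q A b n y V al s lam η) :
    (n : ℝ) ^ (-(2900 * q)) * y ^ 2 ≤ tn q n y := by
  obtain ⟨f1, f2, f3, f4, f5, f6, f7, f8, f9, f10, f11, f12, f13, f14⟩ := h.facts
  have hn := h.env.n0
  have hy := h.env.y0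
  unfold tn
  refine le_of_log (by positivity) (by positivity) ?_
  simp (disch := positivity) only [Real.log_mul, Real.log_rpow, Real.log_pow]
  push_cast
  linarith

lemma nw_rb_kn (h : NW a0 b₁ q A b n y V al s lam η) (hT : (n : ℝ) ^ (-(71 * q)) * y ^ 2 ≤ T)
    (hT1 : T ≤ 1) : (n : ℝ) ^ (10 * q) * y ^ 2 / (n * T ^ 2) ≤ kn q n y := by
  obtain ⟨f1, f2, f3, f4, f5, f6, f7, f8, f9, f10, f11, f12, f13, f14⟩ := h.facts
  obtain ⟨hT0, t1, t2⟩ := logT h hT hT1
  have hn := h.env.n0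
  have hy := h.env.y0
  unfold kn
  refine le_of_log (by positivity) (by positivity) ?_
  simp (disch := positivity) only [Real.log_div, Real.log_mul, Real.log_rpow, Real.log_pow]
  push_cast
  linarith

lemma nw_wf_V (h : NW a0 b₁ q A b n y V al s lam η) (hu : u ∈ Icc (0 : ℝ) 1) :
    u * (V - s ^ 2) / b ^ 2 ≤ 1 / b ^ 2 * V := by
  have hV := h.env.V0
  have hb := h.b0
  obtain ⟨hA, a1, a2⟩ := h.adm
  have h1 : u * (V - s ^ 2) ≤ 1 * V := mul_le_mul hu.2 a2 (by linarith) zero_le_one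
  rw [one_mul] at h1
  refine (div_le_div_of_nonneg_right h1 (sq_nonneg b)).trans (le_of_eq ?_)
  ring

lemma cc_rq (hy : y < 1) :
    (lawOf n b y V al s lam η).c = (lawOf n b y V al s lam η).s ^ 2 *
      (lawOf n b y V al s lam η).n * (1 - (1 - (lawOf n b y V al s lam η).x) * rq b y al) := by
  show cc n b s al = s ^ 2 * n * (1 - (1 - y) * rq b y al)
  rw [rq_eq hy]
  unfold cc
  ring

lemma ex_ind_anti {κ : Type} [Fintype κ] [DecidableEq κ] {μ : κ → Measure ℝ} [∀ k, IsProbabilityMeasure (μ k)]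
    {w : (κ → ℝ) → ℝ} (hw : Wt μ w) {f : (κ → ℝ) → ℝ} (hf : Measurable f) {c c' : ℝ}
    (hc : c ≤ c') : ex μ w (ind c' f) ≤ ex μ w (ind c f) := by
  refine ex_mono hw (bm_ind hf c') (bm_ind hf c) fun z => ?_
  unfold ind
  split_ifs with h1 h2 h2
  · exact le_rfl
  · exact absurd (lt_of_le_of_lt hc h1) h2
  · exact zero_le_one
  · exact le_rfl

/-- **The last square on the window.** -/
theorem c3_kw (h : NW a0 b₁ q A b n y V al s lam η) (hD : 2 ≤ D)
    (hT : (n : ℝ) ^ (-(71 * q)) * y ^ 2 ≤ T) (hT1 : T ≤ 1)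
    (hu : u ∈ Icc (1 - 2 * dl q n) (1 - dl q n)) {m : ℕ}
    (hm : m ∈ Finset.Icc (mm q n y) (2 * mm q n y))
    (hp : PtN q D (lawOf n b y V al s lam η) (rq b y al) T u m)
    (hrb : rbL (lawOf n b y V al s lam η) (H418.cb (1 - T)) (H418.cf (V - s ^ 2) u)
      (Sn n (m - 1)) (Kset (Sn n (m - 1)) {true} {true}) / (n : ℝ) ^ 4 ≤
        (n : ℝ) ^ (10 * q) * y ^ 2 / (n * T ^ 2))
    (hB : (lawOf n b y V al s lam η).ex' (1 - T) u (ind ((n : ℝ) ^ (-(8 * q)) * y)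
      ((lawOf n b y V al s lam η).Q (Sn n m) (1 - T) u)) ≤ (n : ℝ) ^ (-(300 * q)))
    {φ : ℝ → ℝ} (hφm : Measurable φ) {P0 : ℝ} (hφ0 : ∀ x, 0 ≤ x → 0 ≤ φ x)
    (hφ1 : ∀ x, 0 ≤ x → φ x ≤ P0) {i0 : Fin n} (hi : i0.1 + m = n) :
    H75.C3U (lawOf n b y V al s lam η) (rq b y al) φ m (1 - T) u i0 ≤
      (b * (1 - (1 - y) * rq b y al)) ^ 2 * (1 / 2 * (n : ℝ) ^ (-(7 * q)) * (b * y) *
        (lawOf n b y V al s lam η).ex' (1 - T) u (fun z =>
          φ ((lawOf n b y V al s lam η).Q (Sn n m) (1 - T) u z) *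
            (lawOf n b y V al s lam η).Q (Sn n m) (1 - T) u z ^ 2)) +
      P0 * ((n : ℝ) ^ (-(72 * q)) * y ^ 3) := by
  obtain ⟨k1, k2, k3, k4, k5, k6, k7, k8⟩ := h.bd
  have hln := (nw_ln h)
  have hT0 := (logT h hT hT1).1
  obtain ⟨v1, v2, v3, v4, v5⟩ := h.u_mem hu
  obtain ⟨m1, m2, m3, m4⟩ := h.mm_facts
  obtain ⟨hA, a1, a2⟩ := h.adm
  have hn := h.env.n0
  have hy := h.env.y0
  have hb := h.b0
  have hal := abs_le.1 h.al_small
  have hmI := Finset.mem_Icc.1 hm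
  have hm2 : (m : ℝ) ≤ n / 2 := by
    have : (m : ℝ) ≤ 2 * (mm q n y : ℝ) := by exact_mod_cast hmI.2
    linarith
  have hmn : m ≤ n := by
    have : (m : ℝ) ≤ n := by linarith
    exact_mod_cast this
  have hm1 : 1 ≤ m := m2.trans hmI.1
  have hy1 : y < 1 := by linarith
  have hkp := rq_eq (b := b) (al := al) hy1
  have hk0 : 0 < (1 + al) / b := div_pos (by linarith) hb
  have hbk : b * (1 - (1 - y) * rq b y al) = 1 + al := b_rq hb hy1
  have hkk : 0 ≤ 1 - (1 - y) * rq b y al := by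
    rw [hkp]
    exact hk0.le
  have hUq0 : 0 < Uq q n y T := hp.U0
  have hUU := nw_Uq_le h hT hT1
  have hU0 := Uc_pos hln
  have hUle := Uc_le_one hln
  have hP0 : 0 ≤ P0 := (hφ0 0 le_rfl).trans (hφ1 0 le_rfl)
  set L := lawOf n b y V al s lam η with hL
  have hw : Wt (g1 (Co L.n Bool Bool))
      (wS L.n L.b (H418.cb (1 - T)) (H418.cf L.vp u) L.s L.η L.lam L.c L.x) :=
    wtA (n := L.n) L.b (H418.cb (1 - T)) (H418.cf L.vp u) L.s hA.lam0 hA.η0 L.c L.x
  have hpT : (n : ℝ) ^ (-D) ≤ (n : ℝ) ^ (-2 : ℝ) :=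
    Real.rpow_le_rpow_of_exponent_le (by exact_mod_cast h.kw.n1.le) (by linarith)
  have hwf : u * (V - s ^ 2) / b ^ 2 ≤ 1 / b ^ 2 * V := nw_wf_V h ⟨by linarith, v2⟩
  have hwf0 : 0 ≤ u * (V - s ^ 2) / b ^ 2 := le_of_lt hp.w0
  have key := c3_sk (L := L) hA (show η ≤ 1 / 2 by linarith) h.kw.s0.ne' hy1
    (r0 := rq b y al) (cc_rq hy1) hkk hm1 hmn hi (t := 1 - T) (by linarith) (by linarith)
    (u := u) (by linarith) hφm hφ0 hφ1 (U := Uc q n y) (θ := tn q n y) (l0 := l0n q n y)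
    (del := dn q n y) (I := In q n y) (rk := tn q n y) (k4 := kn q n y)
    (p0 := (n : ℝ) ^ (-(300 * q))) (pT := (n : ℝ) ^ (-2 : ℝ))
    (hp.wU.trans hUU) hU0 hUle (by
      show 8 * (y ^ 2 * b ^ 2) ≤ 1
      nlinarith [sq_nonneg (y * b)])
    ((hp.ap.m1 _).trans (pow_le_pow_left₀ hUq0.le hUU 2))
    ((hp.ap.m2 _).trans (pow_le_pow_left₀ hUq0.le hUU 4)) ?_ (l0n_pos hln) (l0n_le hln)
    (dn_pos hln) (dn_le hln) ((hp.inc i0 hi).trans (nw_inc_In h hT hT1))
    ((hp.rk _ (Or.inr rfl)).trans (nw_rk_tn h hT hT1)) ?_ hB ?_ ?_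
  · have e3 := e3_ln (b := b) (A := 1 + al) (η := η) hln hb (by linarith) h.kw.η0.le
      (by linarith) ((log_Ce3 hb).trans (by linarith [abs_nonneg (Real.log A)]))
    have e4 := e3c_ln (b := b) (kp := 1 - (1 - y) * rq b y al) (wf := u * (V - s ^ 2) / b ^ 2)
      (η := η) (p0 := (n : ℝ) ^ (-(300 * q))) (pT := (n : ℝ) ^ (-2 : ℝ)) hln hb hkk
      (by rw [hbk]; linarith) (by
        rw [one_div, Real.log_inv, Real.log_pow]
        push_cast
        have z1 := neg_abs_le (Real.log b)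
        have z2 := abs_nonneg (Real.log A)
        have z3 := abs_nonneg (Real.log b)
        linarith) ((log_C3b hb).trans (by linarith [abs_nonneg (Real.log A)])) hwf0 hwf
      h.kw.η0.le (by linarith) h.kw.η1 le_rfl (by positivity) le_rfl
    have hQ0 : ∀ z, 0 ≤ L.Q (Sn n m) (1 - T) u z := fun z =>
      div_nonneg (Finset.sum_nonneg fun _ _ => sq_nonneg _) (Nat.cast_nonneg _)
    have hE0 : 0 ≤ L.ex' (1 - T) u (fun z => φ (L.Q (Sn n m) (1 - T) u z) *
        L.Q (Sn n m) (1 - T) u z ^ 2) :=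
      ex_nonneg hw fun z => mul_nonneg (hφ0 _ (hQ0 z)) (sq_nonneg _)
    refine key.trans (add_le_add ?_ (mul_le_mul_of_nonneg_left e4 hP0))
    refine (mul_le_mul_of_nonneg_right e3 hE0).trans (le_of_eq ?_)
    rw [hbk]
    ring
  · -- the angle
    refine le_trans ?_ (hp.th.trans (nw_th_tn h))
    refine add_le_add le_rfl (div_le_div_of_nonneg_left ?_ (Real.sqrt_pos.2 hUq0)
      (Real.sqrt_le_sqrt hUU))
    have := abs_nonneg (rq b y al)
    positivity
  · -- the pairs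
    have h1 := hrb.trans (nw_rb_kn h hT hT1)
    rw [div_le_iff₀ (by positivity)] at h1
    refine h1.trans (le_of_eq ?_)
    show kn q n y * (n : ℝ) ^ 4 = (n : ℝ) ^ 4 * kn q n y
    ring
  · refine le_trans ?_ ((hp.ap.tC (Sn n (m - 1))).trans hpT)
    exact ex_ind_anti hw (bm_CCv (b := L.b) (cB := H418.cb (1 - T)) (cF := H418.cf L.vp u)
      (s := L.s) (c := L.c) (x := L.x) hA.lam0 hA.η0 (Sn L.n (m - 1)) _).meas
      (pow_le_pow_left₀ hUq0.le hUU 2)
  · refine le_trans ?_ ((hp.ap.tQ (Sn n m)).trans hpT)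
    have bQ : BM (L.Q (Sn L.n m) (1 - T) u) :=
      H615.bm_Qv (b := L.b) (cB := H418.cb (1 - T)) (cF := H418.cf L.vp u) (s := L.s) (c := L.c)
        (x := L.x) hA.lam0 hA.η0 (Sn L.n m) {true} {true}
    exact ex_ind_anti hw bQ.meas hUU

end

end Vale.Agent.P146.H317
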