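import Vale.Agent.P146.H615.Ex

/-!
# P146: the cube of the overlap in the tested equation

`c3_pt`: pointwise bound of `r3 ≤ √(Q2 Q4)` from rank one (`Q2 ≤ 2 Q² + 2 k2`), the fourth moment
(`Q4 ≤ 2 Q2² + k4`), the small root (`Q ≤ lam`) and the tail (`Q2 ≤ U²`).
`c3_ex`: its mean with a test function. `cx_av_cube`: Cauchy-Schwarz `⟨|R|³⟩² ≤ ⟨R²⟩ ⟨R⁴⟩`.
-/

open MeasureTheory

namespace Vale.Agent.P146.H317

open Vale.Agent.P146.H646 Vale.Agent.P146.H615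

set_option linter.unusedSectionVars false

/-! ### the pointwise inequality -/

/-- main part: `r = √Q2 ≤ U`. -/
lemma c3_core {Q k2 k4 r r3 lam U del : ℝ} (hQ : 0 ≤ Q) (hk2 : 0 ≤ k2) (hk4 : 0 ≤ k4)
    (hr : 0 ≤ r) (hU : r ≤ U) (hdel : 0 < del) (hlam : 0 ≤ lam)
    (h2 : r ^ 2 ≤ 2 * Q ^ 2 + 2 * k2) (h3 : r3 ^ 2 ≤ r ^ 2 * (2 * r ^ 4 + k4)) :
    r3 ≤ (16 * lam + del) * Q ^ 2 + (8 * U + del) * k2 + k4 / (2 * del) +
      (if lam < Q then 2 * U ^ 3 else 0) := by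
  have hU0 : 0 ≤ U := hr.trans hU
  -- `r3 ≤ 2 r³ + (del/2) r² + k4/(2 del)`
  have h4 : r3 ≤ 2 * r ^ 3 + (del / 2) * r ^ 2 + k4 / (2 * del) := by
    have hb : 0 ≤ (del / 2) * r ^ 2 + k4 / (2 * del) := by positivity
    have h5 : r3 ^ 2 ≤ (2 * r ^ 3 + ((del / 2) * r ^ 2 + k4 / (2 * del))) ^ 2 := by
      have h6 : r ^ 2 * k4 ≤ ((del / 2) * r ^ 2 + k4 / (2 * del)) ^ 2 := by
        have e : ((del / 2) * r ^ 2 + k4 / (2 * del)) ^ 2 - r ^ 2 * k4 =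
            ((del / 2) * r ^ 2 - k4 / (2 * del)) ^ 2 := by
          field_simp
          ring
        nlinarith [sq_nonneg ((del / 2) * r ^ 2 - k4 / (2 * del))]
      have h7 : 0 ≤ 2 * r ^ 3 * ((del / 2) * r ^ 2 + k4 / (2 * del)) := by positivity
      have h8 : r ^ 2 * (2 * r ^ 4) ≤ (2 * r ^ 3) ^ 2 := by
        have : 0 ≤ r ^ 6 := by positivity
        nlinarith
      nlinarith
    have h6 := abs_le_of_sq_le_sq' h5 (by positivity)
    linarith [h6.2]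
  have h5 : (del / 2) * r ^ 2 ≤ del * Q ^ 2 + del * k2 := by nlinarith
  split_ifs with hQl
  · -- big root
    have h6 : r ^ 3 ≤ U ^ 3 := pow_le_pow_left₀ hr hU 3
    have h7 : 0 ≤ lam * Q ^ 2 := mul_nonneg hlam (sq_nonneg _)
    have h8 : 0 ≤ U * k2 := mul_nonneg hU0 hk2
    nlinarith
  · have hQl' : Q ≤ lam := not_lt.1 hQl
    have h6 : r ^ 3 ≤ 8 * lam * Q ^ 2 + 4 * U * k2 := by
      rcases le_total k2 (Q ^ 2) with hc | hc
      · have h7 : r ≤ 2 * Q := by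
          have : r ^ 2 ≤ (2 * Q) ^ 2 := by nlinarith
          exact (sq_le_sq₀ hr (by linarith)).1 this
        have h8 : r ^ 3 ≤ (2 * Q) ^ 3 := pow_le_pow_left₀ hr h7 3
        have h9 : Q * Q ^ 2 ≤ lam * Q ^ 2 := mul_le_mul_of_nonneg_right hQl' (sq_nonneg _)
        have h10 : 0 ≤ U * k2 := mul_nonneg hU0 hk2
        nlinarith
      · have h7 : r ^ 2 ≤ 4 * k2 := by linarith
        have h8 : r * r ^ 2 ≤ U * (4 * k2) := mul_le_mul hU h7 (sq_nonneg _) hU0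
        have h9 : 0 ≤ lam * Q ^ 2 := mul_nonneg hlam (sq_nonneg _)
        nlinarith
    nlinarith

/-- **The cube term, pointwise.** -/
theorem c3_pt {Q Q2 Q4 k2 k4 r3 lam U del B : ℝ} (hQ : 0 ≤ Q) (hk2 : 0 ≤ k2) (hk4 : 0 ≤ k4)
    (hQ2 : 0 ≤ Q2) (hdel : 0 < del) (hlam : 0 ≤ lam) (hU : 0 ≤ U) (hB : r3 ≤ B)
    (h2 : Q2 ≤ 2 * Q ^ 2 + 2 * k2) (h4 : Q4 ≤ 2 * Q2 ^ 2 + k4) (h3 : r3 ^ 2 ≤ Q2 * Q4) :
    r3 ≤ (16 * lam + del) * Q ^ 2 + (8 * U + del) * k2 + k4 / (2 * del) +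
      2 * U ^ 3 * (if lam < Q then 1 else 0) + B * (if U ^ 2 < Q2 then 1 else 0) := by
  by_cases hT : U ^ 2 < Q2
  · have h5 : 0 ≤ (16 * lam + del) * Q ^ 2 := by positivity
    have h6 : 0 ≤ (8 * U + del) * k2 := by positivity
    have h7 : 0 ≤ k4 / (2 * del) := by positivity
    have h8 : 0 ≤ 2 * U ^ 3 * (if lam < Q then (1 : ℝ) else 0) := by
      refine mul_nonneg (by positivity) ?_
      split_ifs <;> norm_num
    rw [if_pos hT]
    linarith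
  · rw [if_neg hT]
    have hr2 : √Q2 ^ 2 = Q2 := Real.sq_sqrt hQ2
    have hr4 : √Q2 ^ 4 = Q2 ^ 2 := by
      calc √Q2 ^ 4 = (√Q2 ^ 2) ^ 2 := by ring
        _ = Q2 ^ 2 := by rw [hr2]
    have hrU : √Q2 ≤ U := by
      rw [← Real.sqrt_sq hU]
      exact Real.sqrt_le_sqrt (not_lt.1 hT)
    have h5 : r3 ^ 2 ≤ √Q2 ^ 2 * (2 * √Q2 ^ 4 + k4) := by
      rw [hr2, hr4]
      exact h3.trans (mul_le_mul_of_nonneg_left h4 hQ2)
    have h6 := c3_core hQ hk2 hk4 (Real.sqrt_nonneg Q2) hrU hdel hlam (by rw [hr2]; exact h2) h5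
    have h7 : 2 * U ^ 3 * (if lam < Q then (1 : ℝ) else 0) = if lam < Q then 2 * U ^ 3 else 0 := by
      split_ifs <;> ring
    rw [h7]
    linarith

/-! ### the mean -/

variable {κ : Type*} [Fintype κ] [DecidableEq κ] {μ : κ → Measure ℝ}
  [∀ e, IsProbabilityMeasure (μ e)] {w Ψ Φ : (κ → ℝ) → ℝ} {K : Finset κ}

/-- the indicator of `{c < f}`. -/
noncomputable def ind (c : ℝ) (f : (κ → ℝ) → ℝ) (z : κ → ℝ) : ℝ := if c < f z then 1 else 0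

lemma ind_nonneg (c : ℝ) (f : (κ → ℝ) → ℝ) (z : κ → ℝ) : 0 ≤ ind c f z := by
  unfold ind; split_ifs <;> norm_num

lemma ind_le (c : ℝ) (f : (κ → ℝ) → ℝ) (z : κ → ℝ) : ind c f z ≤ 1 := by
  unfold ind; split_ifs <;> norm_num

lemma bm_ind {f : (κ → ℝ) → ℝ} (hf : Measurable f) (c : ℝ) : BM (ind c f) := by
  refine ⟨?_, 1, fun z => ?_⟩
  · exact Measurable.ite (measurableSet_lt measurable_const hf) measurable_const measurable_const
  · rw [abs_of_nonneg (ind_nonneg c f z)]; exact ind_le c f z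

lemma dep_ind {f : (κ → ℝ) → ℝ} (hf : Dep K f) (c : ℝ) : Dep K (ind c f) := by
  intro z z'; unfold ind; rw [hf z z']

/-- the mean of the indicator is at most one. -/
lemma ex_ind_le (hw : Wt μ w) {f : (κ → ℝ) → ℝ} (hf : Measurable f) (c : ℝ) :
    ex μ w (ind c f) ≤ 1 := by
  have := ex_mono hw (bm_ind hf c) (BM.const 1) (ind_le c f)
  rwa [ex_const hw] at this

lemma ex_ind_nonneg (hw : Wt μ w) (f : (κ → ℝ) → ℝ) (c : ℝ) : 0 ≤ ex μ w (ind c f) :=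
  ex_nonneg hw (ind_nonneg c f)

/-- Markov. -/
lemma ex_markov (hw : Wt μ w) {f : (κ → ℝ) → ℝ} (hf : BM f) (h0 : ∀ z, 0 ≤ f z) {c : ℝ}
    (hc : 0 < c) : ex μ w (ind c f) ≤ ex μ w f / c := by
  rw [le_div_iff₀ hc, mul_comm, ← ex_cmul]
  refine ex_mono hw (bcm c (bm_ind hf.meas c)) hf fun z => ?_
  unfold ind
  split_ifs with h
  · linarith
  · have := h0 z; linarith

/-- **The cube term in the tested equation.** -/
theorem c3_ex (hw : Wt μ w) {φ Q Q2 Q4 k2 k4 r3 : (κ → ℝ) → ℝ} {lam U del B P0 : ℝ}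
    (hφ : BM φ) (hQb : BM Q) (hQ2b : BM Q2) (hk2b : BM k2) (hk4b : BM k4) (hr3 : BM r3)
    (hφ0 : ∀ z, 0 ≤ φ z) (hφ1 : ∀ z, φ z ≤ P0)
    (hQ : ∀ z, 0 ≤ Q z) (hk2 : ∀ z, 0 ≤ k2 z) (hk4 : ∀ z, 0 ≤ k4 z) (hQ2 : ∀ z, 0 ≤ Q2 z)
    (hdel : 0 < del) (hlam : 0 ≤ lam) (hU : 0 ≤ U) (hB0 : 0 ≤ B) (hB : ∀ z, r3 z ≤ B)
    (h2 : ∀ z, Q2 z ≤ 2 * Q z ^ 2 + 2 * k2 z) (h4 : ∀ z, Q4 z ≤ 2 * Q2 z ^ 2 + k4 z)
    (h3 : ∀ z, r3 z ^ 2 ≤ Q2 z * Q4 z) :
    ex μ w (fun z => φ z * r3 z) ≤ (16 * lam + del) * ex μ w (fun z => φ z * Q z ^ 2) +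
      P0 * ((8 * U + del) * ex μ w k2 + ex μ w k4 / (2 * del) + 2 * U ^ 3 * ex μ w (ind lam Q) +
        B * ex μ w (ind (U ^ 2) Q2)) := by
  have i1 := bm_ind hQb.meas lam
  have i2 := bm_ind hQ2b.meas (U ^ 2)
  have b1 : BM fun z => (16 * lam + del) * (φ z * Q z ^ 2) := bcm _ (hφ.mul (bsq hQb))
  have b2 : BM fun z => (8 * U + del) * k2 z := bcm _ hk2b
  have b3 : BM fun z => (1 / (2 * del)) * k4 z := bcm _ hk4b
  have b4 : BM fun z => 2 * U ^ 3 * ind lam Q z := bcm _ i1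
  have b5 : BM fun z => B * ind (U ^ 2) Q2 z := bcm _ i2
  have b6 : BM fun z => P0 * ((8 * U + del) * k2 z + (1 / (2 * del)) * k4 z +
      2 * U ^ 3 * ind lam Q z + B * ind (U ^ 2) Q2 z) := bcm _ (((b2.add b3).add b4).add b5)
  have hmain : ∀ z, φ z * r3 z ≤ (16 * lam + del) * (φ z * Q z ^ 2) +
      P0 * ((8 * U + del) * k2 z + (1 / (2 * del)) * k4 z +
      2 * U ^ 3 * ind lam Q z + B * ind (U ^ 2) Q2 z) := by
    intro z
    have h := c3_pt (hQ z) (hk2 z) (hk4 z) (hQ2 z) hdel hlam hU (hB z) (h2 z) (h4 z) (h3 z)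
    have h5 := mul_le_mul_of_nonneg_left h (hφ0 z)
    have n2 : 0 ≤ (8 * U + del) * k2 z := mul_nonneg (by positivity) (hk2 z)
    have n3 : 0 ≤ (1 / (2 * del)) * k4 z := mul_nonneg (by positivity) (hk4 z)
    have n4 : 0 ≤ 2 * U ^ 3 * ind lam Q z := mul_nonneg (by positivity) (ind_nonneg _ _ _)
    have n5 : 0 ≤ B * ind (U ^ 2) Q2 z := mul_nonneg hB0 (ind_nonneg _ _ _)
    have n6 : φ z * ((8 * U + del) * k2 z + (1 / (2 * del)) * k4 z +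
      2 * U ^ 3 * ind lam Q z + B * ind (U ^ 2) Q2 z) ≤ P0 * ((8 * U + del) * k2 z +
      (1 / (2 * del)) * k4 z + 2 * U ^ 3 * ind lam Q z + B * ind (U ^ 2) Q2 z) :=
      mul_le_mul_of_nonneg_right (hφ1 z) (by linarith)
    have e1 : k4 z / (2 * del) = (1 / (2 * del)) * k4 z := by ring
    rw [e1] at h5
    unfold ind at n6 ⊢
    linarith
  have h6 := ex_mono hw (hφ.mul hr3) (b1.add b6) hmain
  rw [ex_add hw b1 b6, ex_cmul, ex_cmul, ex_add hw ((b2.add b3).add b4) b5,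
    ex_add hw (b2.add b3) b4, ex_add hw b2 b3, ex_cmul, ex_cmul, ex_cmul, ex_cmul] at h6
  have e2 : ex μ w k4 / (2 * del) = 1 / (2 * del) * ex μ w k4 := by ring
  rw [e2]
  exact h6

/-! ### Cauchy-Schwarz for `cx` of a thermal average -/

/-- Cauchy-Schwarz for a positive linear functional on two functions with bounded products. -/
lemma cs_of_quad {a b c : ℝ} (h : ∀ t : ℝ, 0 ≤ a * (t * t) + 2 * b * t + c) : b ^ 2 ≤ a * c := by
  have h2 := discrim_le_zero h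
  unfold discrim at h2
  nlinarith

/-- Cauchy-Schwarz for the conditional mean of a thermal average. -/
theorem cx_av_cs (hw : Wt μ w) {Ω : Type*} [MeasurableSpace Ω] {av : (Ω → ℝ) → (κ → ℝ) → ℝ}
    (hA : Av av) {h g : Ω → ℝ} (hh : Bd h) (hg : Bd g) (z : κ → ℝ) :
    cx μ K w (av (fun ω => h ω * g ω)) z ^ 2 ≤
      cx μ K w (av (fun ω => h ω ^ 2)) z * cx μ K w (av (fun ω => g ω ^ 2)) z := by
  have bhh := hA.bm hh.sq
  have bgg := hA.bm hg.sq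
  have bhg := hA.bm (hh.mul hg)
  refine cs_of_quad fun t => ?_
  have h1 : ∀ z, 0 ≤ av (fun ω => (t * h ω + g ω) ^ 2) z := fun z =>
    hA.nonneg ((hh.cmul t).add hg).sq (fun ω => sq_nonneg _) z
  have e1 : ∀ z, av (fun ω => (t * h ω + g ω) ^ 2) z = (t * t) * av (fun ω => h ω ^ 2) z +
      (2 * t) * av (fun ω => h ω * g ω) z + av (fun ω => g ω ^ 2) z := by
    intro z
    have e : (fun ω => (t * h ω + g ω) ^ 2) = fun ω =>
        ((t * t) * h ω ^ 2 + (2 * t) * (h ω * g ω)) + g ω ^ 2 := by funext ω; ring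
    rw [e, hA.add ((hh.sq.cmul _).add ((hh.mul hg).cmul _)) hg.sq,
      hA.add (hh.sq.cmul _) ((hh.mul hg).cmul _), hA.smul, hA.smul]
  have h2 : 0 ≤ cx μ K w (fun z => (t * t) * av (fun ω => h ω ^ 2) z +
      (2 * t) * av (fun ω => h ω * g ω) z + av (fun ω => g ω ^ 2) z) z := by
    have h3 := cx_mono hw (K := K) (BM.const 0)
      (((bcm (t * t) bhh).add (bcm (2 * t) bhg)).add bgg) (fun z => by
        rw [← e1 z]; exact h1 z) z
    have h4 : cx μ K w (fun _ => (0 : ℝ)) z = 0 :=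
      cx_dep hw (Q := fun _ => 0) (fun _ _ => rfl) z
    rwa [h4] at h3
  rw [cx_add hw ((bcm (t * t) bhh).add (bcm (2 * t) bhg)) bgg,
    cx_add hw (bcm (t * t) bhh) (bcm (2 * t) bhg), cx_const_mul hw, cx_const_mul hw] at h2
  linarith

/-- `E⟨|R|³⟩² ≤ E⟨R²⟩ E⟨R⁴⟩`, conditionally. -/
theorem cx_av_cube (hw : Wt μ w) {Ω : Type*} [MeasurableSpace Ω] {av : (Ω → ℝ) → (κ → ℝ) → ℝ}
    (hA : Av av) {h : Ω → ℝ} (hh : Bd h) (z : κ → ℝ) :
    cx μ K w (av (fun ω => |h ω| ^ 3)) z ^ 2 ≤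
      cx μ K w (av (fun ω => h ω ^ 2)) z * cx μ K w (av (fun ω => h ω ^ 4)) z := by
  have h1 := cx_av_cs (K := K) hw hA hh.abs hh.sq z
  have e1 : (fun ω => |h ω| * h ω ^ 2) = fun ω => |h ω| ^ 3 := by
    funext ω
    rw [← sq_abs (h ω)]; ring
  have e2 : (fun ω => |h ω| ^ 2) = fun ω => h ω ^ 2 := by
    funext ω
    rw [sq_abs]
  have e3 : (fun ω => (h ω ^ 2) ^ 2) = fun ω => h ω ^ 4 := by
    funext ω
    ring
  rw [e1, e2, e3] at h1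
  exact h1

end Vale.Agent.P146.H317
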