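import Vale.Agent.P146.H317.C3v
import Vale.Agent.P146.H615.ErSk

/-!
# P146: the last square of the tested row equation, all sizes put in

`c3_num`: `C3v φ ≤ CB (528 l0 + 16 del) E φ Q^2 + P0 E3c`, any levels.
`c3_sk`: the same on the names of `H418.Skel`, at the canonical sets.
-/

open MeasureTheory ProbabilityTheory

namespace Vale.Agent.P146.H317

open Vale.Agent.P157.Lv hiding Dep
open Vale.Agent.P146.H646
open Vale.Agent.P146.H325 hiding cb cf
open Vale.Agent.P146.H196 Vale.Agent.P146.H347 Vale.Agent.P146.H475 Vale.Agent.P146.H418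
  Vale.Agent.P146.H412 Vale.Agent.P146.H320 Vale.Agent.P146.H615

set_option linter.unusedSectionVars false

/-- the constant in front of the absorbed term -/
noncomputable def CBc (b η : ℝ) : ℝ := 6000000 * (1 + η) ^ 2 * (2 * b ^ 4 + 8 * b ^ 8)

/-- the size of the last square per unit of the test function -/
noncomputable def E3c (b kp η U θ wf l0 del I rk k4 p0 pT : ℝ) : ℝ :=
  6 * (b ^ 2 * (U * θ ^ 2 + wf * (θ + kp * η) ^ 2)) +
  6000000 * (1 + η) ^ 2 * ((2 * b ^ 4 + 8 * b ^ 8) * NC3 U l0 del η I rk k4 p0 pT pT +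
    (2 * b ^ 4 * wf ^ 2 * (9 / 4 * U + del) + 8 * b ^ 8 * wf ^ 4 / del))

lemma NC3_mono {U l0 del η I I' rk rk' k4 k4' p0 p0' p1 p1' p2 p2' : ℝ} (hU : 0 ≤ U)
    (hl0 : 0 < l0) (hdel : 0 < del) (hI : I ≤ I') (hrk : rk ≤ rk') (hk4 : k4 ≤ k4')
    (hp0 : p0 ≤ p0') (hp1 : p1 ≤ p1') (hp2 : p2 ≤ p2') :
    NC3 U l0 del η I rk k4 p0 p1 p2 ≤ NC3 U l0 del η I' rk' k4' p0' p1' p2' := by
  unfold NC3
  have h1 : 4 * U * (2 * η ^ 2 * (U + p1) + 2 * I) ≤ 4 * U * (2 * η ^ 2 * (U + p1') + 2 * I') :=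
    mul_le_mul_of_nonneg_left (add_le_add (mul_le_mul_of_nonneg_left (by linarith)
      (by positivity)) (by linarith)) (by positivity)
  have h2 : 16 * (4 * U * (2 * η ^ 2 * (U + p1) + 2 * I) + 49 * (p1 + p2)) + 2 * rk ≤
      16 * (4 * U * (2 * η ^ 2 * (U + p1') + 2 * I') + 49 * (p1' + p2')) + 2 * rk' := by
    linarith
  have h3 := mul_le_mul_of_nonneg_left h2 (show 0 ≤ 36 * (U ^ 2 / del) by positivity)
  have h4 : 8 * k4 / del ≤ 8 * k4' / del := div_le_div_of_nonneg_right (by linarith) hdel.le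
  have h5 : (2 * U ^ 3 + 2 * U ^ 4 / l0) * p0 ≤ (2 * U ^ 3 + 2 * U ^ 4 / l0) * p0' :=
    mul_le_mul_of_nonneg_left hp0 (by positivity)
  have h6 : 5 / del * (p1 + p2) ≤ 5 / del * (p1' + p2') :=
    mul_le_mul_of_nonneg_left (by linarith) (by positivity)
  linarith

section main

variable {n : ℕ} {LB LF : Type} [Fintype LB] [DecidableEq LB] [Fintype LF] [DecidableEq LF]
variable {b s η lam c x r0 : ℝ} {cB : LB → ℝ} {cF : LF → ℝ} {BL : Finset LB} {FL : Finset LF}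

/-- **The last square, all sizes put in.** -/
theorem c3_num (hl : 0 < lam) (hη : 0 ≤ η) (hη1 : η ≤ 1 / 2) (hs : s ≠ 0) (hx0 : 0 ≤ x)
    (hx1 : x < 1) (hn : 0 < n) (hc : c = s ^ 2 * n * (1 - (1 - x) * r0))
    (hk : 0 ≤ 1 - (1 - x) * r0) {S S1 : Finset (Fin n)} (hS : S ⊆ S1) {i0 : Fin n}
    (hi0 : i0 ∉ S) (hne : (S1 \ S).Nonempty)
    {φ : (Co n LB LF → ℝ) → ℝ} (hφ : H646.Dep (Kset S BL FL) φ) (hφb : BM φ)
    (hφ0 : ∀ z, 0 ≤ φ z) {P0 : ℝ} (hφ1 : ∀ z, φ z ≤ P0) {t wf : ℝ}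
    (ht : ∑ l ∈ BL, cB l ^ 2 = t) (ht1 : t ≤ 1) (hwf : ∑ l ∈ FL, cF l ^ 2 = b ^ 2 * wf)
    (hwf0 : 0 ≤ wf) {U θ l0 del I rk k4 p0 pT : ℝ} (hwU : wf ≤ U) (hU0 : 0 < U) (hU1 : U ≤ 1)
    (hxb : 8 * (x ^ 2 * b ^ 2) ≤ 1)
    (hUu : exS n b cB cF s η lam c x
      (CCz n b cB cF s η lam c x (Kset Finset.univ BL FL) Finset.univ) ≤ U ^ 2)
    (hUS : exS n b cB cF s η lam c x
      (fun z => CCz n b cB cF s η lam c x (Kset S BL FL) S z ^ 2) ≤ U ^ 4)
    (hθ : 5 / √((S1 \ S).card) + 2 * |lam / ((1 - x) * (s ^ 2 * n))| +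
      3 * ((|r0| + 1) * √(Pst n b cB cF s η lam c x)) / √U ≤ θ)
    (hl0 : 0 < l0) (hlU : l0 ≤ U) (hdel : 0 < del) (hdelU : del ≤ U)
    (hI : exS n b cB cF s η lam c x (Qk n b cB cF s η lam c x S (Kset (insert i0 S) BL FL)) -
          exS n b cB cF s η lam c x (Qk n b cB cF s η lam c x S (Kset S BL FL)) ≤ I)
    (hrk : exS n b cB cF s η lam c x (RKk n b cB cF s η lam c x S (Kset (insert i0 S) BL FL)) ≤
      rk)
    (hk4 : exS n b cB cF s η lam c x (K4v n b cB cF s η lam c x S (Kset (insert i0 S) BL FL)) ≤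
      k4)
    (hp0 : exS n b cB cF s η lam c x (ind l0 (Qk n b cB cF s η lam c x S (Kset S BL FL))) ≤ p0)
    (hp1 : exS n b cB cF s η lam c x
          (ind (U ^ 2) (CCv n b cB cF s η lam c x S (Kset (insert i0 S) BL FL))) ≤ pT)
    (hp2 : exS n b cB cF s η lam c x (ind U (Qk n b cB cF s η lam c x S (Kset S BL FL))) ≤ pT) :
    C3v n b cB cF s η lam c x (1 - (1 - x) * r0) S BL FL i0 φ ≤
      CBc b η * (528 * l0 + 16 * del) * exS n b cB cF s η lam c x
          (fun z => φ z * Qv n b cB cF s η lam c x S BL FL z ^ 2) +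
        P0 * E3c b (1 - (1 - x) * r0) η U θ wf l0 del I rk k4 p0 pT := by
  have hw : Wt (g1 (Co n LB LF)) (wS n b cB cF s η lam c x) := wtA b cB cF s hl hη c x
  have hn0 : (0 : ℝ) < n := by exact_mod_cast hn
  have ht0 : 0 ≤ t := by rw [← ht]; exact Finset.sum_nonneg fun _ _ => sq_nonneg _
  have hPP : 0 ≤ P0 := (hφ0 0).trans (hφ1 0)
  have hdel1 : del ≤ 1 := hdelU.trans hU1
  have hL : x ^ 2 * (b ^ 2 * (t + wf)) ≤ 1 / 4 := by
    have h1 : x ^ 2 * b ^ 2 * (t + wf) ≤ x ^ 2 * b ^ 2 * 2 :=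
      mul_le_mul_of_nonneg_left (by linarith) (by positivity)
    nlinarith
  have key := c3v_le (BL := BL) (FL := FL) (cB := cB) (cF := cF) (b := b) hl hη hη1 hs hx0 hx1
    hn hc hS hi0 hne hφ hφb hφ0 hφ1 ht hwf hL hl0 hlU hdel hdelU hdel1
  obtain ⟨m1, -, -, -⟩ := Q_moms (b := b) (cB := cB) (cF := cF) (s := s) (c := c) (x := x)
    hl hη hη1 hn S BL FL hU0.le hUS
  have hP0 := Pst_nonneg (n := n) (b := b) (cB := cB) (cF := cF) (s := s) (c := c) (x := x) hl hη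
  have hD0 : (0 : ℝ) ≤ ((S1 \ S).card : ℝ) := Nat.cast_nonneg _
  have hθ0 : 0 ≤ θ := le_trans (by positivity) hθ
  have hR2S := sqrt_le_num (by positivity) (R2_le (b := b) (cB := cB) (cF := cF) (s := s)
    (c := c) (x := x) hl hη BL FL hn S hUu)
  have hR2S1 := sqrt_le_num (by positivity) (R2_le (b := b) (cB := cB) (cF := cF) (s := s)
    (c := c) (x := x) hl hη BL FL hn S1 hUu)
  have hd : d0 n b cB cF s η lam c x r0 (Kset S BL FL) (Kset S1 BL FL) (S1 \ S).card / √n ≤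
      √U * θ := d0_core hη hη1 hx0 hn0 hP0 hD0 hU0 hR2S1 hR2S hθ
  have hd' : 0 ≤ d0 n b cB cF s η lam c x r0 (Kset S BL FL) (Kset S1 BL FL) (S1 \ S).card /
      √n := by
    refine div_nonneg ?_ (Real.sqrt_nonneg _)
    unfold d0
    exact add_nonneg (Real.sqrt_nonneg _) (mul_nonneg (by linarith) (Real.sqrt_nonneg _))
  have hdf : H646.d0f n b cB cF s η lam c x r0 (S1 \ S).card ≤
      θ + (1 - (1 - x) * r0) * η := by
    unfold H646.d0f
    rw [abs_of_nonneg hk]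
    exact add_le_add (df_core hη hη1 hx0 hP0 hD0 hU0 hU1 hθ) le_rfl
  have hdf' : 0 ≤ H646.d0f n b cB cF s η lam c x r0 (S1 \ S).card := by
    unfold H646.d0f
    exact add_nonneg (add_nonneg (Real.sqrt_nonneg _)
      (mul_nonneg (by linarith) (Real.sqrt_nonneg _))) (mul_nonneg (abs_nonneg _) hη)
  set dd := d0 n b cB cF s η lam c x r0 (Kset S BL FL) (Kset S1 BL FL) (S1 \ S).card / √n
  set df := H646.d0f n b cB cF s η lam c x r0 (S1 \ S).card
  set q2 := exS n b cB cF s η lam c x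
    (fun z => φ z * Qv n b cB cF s η lam c x S BL FL z ^ 2) with hq2
  have hq20 : 0 ≤ q2 := ex_nonneg hw fun z => mul_nonneg (hφ0 z) (sq_nonneg _)
  have hQ : exS n b cB cF s η lam c x (Qk n b cB cF s η lam c x S (Kset S BL FL)) ≤
      9 / 4 * U := m1
  have hNC := NC3_mono (η := η) hU0.le hl0 hdel hI hrk hk4 hp0 hp1 hp2
  set NN := NC3 U l0 del η
        (exS n b cB cF s η lam c x (Qk n b cB cF s η lam c x S (Kset (insert i0 S) BL FL)) -
          exS n b cB cF s η lam c x (Qk n b cB cF s η lam c x S (Kset S BL FL)))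
        (exS n b cB cF s η lam c x (RKk n b cB cF s η lam c x S (Kset (insert i0 S) BL FL)))
        (exS n b cB cF s η lam c x (K4v n b cB cF s η lam c x S (Kset (insert i0 S) BL FL)))
        (exS n b cB cF s η lam c x (ind l0 (Qk n b cB cF s η lam c x S (Kset S BL FL))))
        (exS n b cB cF s η lam c x
          (ind (U ^ 2) (CCv n b cB cF s η lam c x S (Kset (insert i0 S) BL FL))))
        (exS n b cB cF s η lam c x (ind U (Qk n b cB cF s η lam c x S (Kset S BL FL)))) with hNN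
  have hNN0 : 0 ≤ NN := by
    have hKK : Kset S BL FL ⊆ Kset (LB := LB) (LF := LF) (insert i0 S) BL FL :=
      Kset_mono (Finset.subset_insert i0 S) (Finset.Subset.refl _) (Finset.Subset.refl _)
    have a1 : 0 ≤ exS n b cB cF s η lam c x
        (Qk n b cB cF s η lam c x S (Kset (insert i0 S) BL FL)) -
          exS n b cB cF s η lam c x (Qk n b cB cF s η lam c x S (Kset S BL FL)) := by
      rw [sub_nonneg]
      have e2 : ∀ K : Finset (Co n LB LF), exS n b cB cF s η lam c x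
          (Qk n b cB cF s η lam c x S K) = (n : ℝ)⁻¹ * ∑ j ∈ S, exS n b cB cF s η lam c x
          (fun z => cxS n b cB cF s η lam c x K
          (avS b cB cF s η lam c (fun w => al η w.1 * H325.sp w.2 j)) z ^ 2) := by
        intro K
        have e2 : Qk n b cB cF s η lam c x S K = fun z => (n : ℝ)⁻¹ * ∑ j ∈ S,
            cxS n b cB cF s η lam c x K
            (avS b cB cF s η lam c (fun w => al η w.1 * H325.sp w.2 j)) z ^ 2 := by
          funext z
          unfold Qk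
          rw [div_eq_inv_mul]
        rw [e2]
        show ex _ _ _ = _
        rw [ex_cmul, ex_sum hw S fun j _ => bsq (bm_M (b := b) (cB := cB) (cF := cF) (s := s)
          (c := c) (x := x) hl hη K j)]
      rw [e2, e2]
      refine mul_le_mul_of_nonneg_left (Finset.sum_le_sum fun j _ => ?_) (by positivity)
      exact ex_cx_sq_mono hw hKK (H615.bm_as hl hη j)
    have a2 : ∀ {f : (Co n LB LF → ℝ) → ℝ}, (∀ z, 0 ≤ f z) → 0 ≤ exS n b cB cF s η lam c x f :=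
      fun hf => ex_nonneg hw hf
    have b1 := a2 (RKk_nonneg (b := b) (cB := cB) (cF := cF) (s := s) (η := η) (lam := lam)
      (c := c) (x := x) S (Kset (insert i0 S) BL FL))
    have b2 := a2 (K4v_nonneg (b := b) (cB := cB) (cF := cF) (s := s) (η := η) (lam := lam)
      (c := c) (x := x) S (Kset (insert i0 S) BL FL))
    have b3 := a2 (ind_nonneg l0 (Qk n b cB cF s η lam c x S (Kset S BL FL)))
    have b4 := a2 (ind_nonneg (U ^ 2) (CCv n b cB cF s η lam c x S (Kset (insert i0 S) BL FL)))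
    have b5 := a2 (ind_nonneg U (Qk n b cB cF s η lam c x S (Kset S BL FL)))
    rw [hNN]
    unfold NC3
    positivity
  have hg : 0 ≤ 6000000 * (1 + η) ^ 2 := by positivity
  -- the direction of the row
  have z1 : b ^ 2 * (t * dd ^ 2 + wf * df ^ 2) ≤
      b ^ 2 * (U * θ ^ 2 + wf * (θ + (1 - (1 - x) * r0) * η) ^ 2) := by
    have y1 : dd ^ 2 ≤ U * θ ^ 2 := by
      have := pow_le_pow_left₀ hd' hd 2
      rwa [mul_pow, Real.sq_sqrt hU0.le] at this
    have y2 : df ^ 2 ≤ (θ + (1 - (1 - x) * r0) * η) ^ 2 := pow_le_pow_left₀ hdf' hdf 2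
    have y3 : t * dd ^ 2 ≤ 1 * (U * θ ^ 2) := mul_le_mul ht1 y1 (sq_nonneg _) zero_le_one
    have y4 := mul_le_mul_of_nonneg_left y2 hwf0
    exact mul_le_mul_of_nonneg_left (by linarith) (sq_nonneg b)
  have ht2 : t ^ 2 ≤ 1 := pow_le_one₀ ht0 ht1
  have ht4 : t ^ 4 ≤ 1 := pow_le_one₀ ht0 ht1
  have z2 : 2 * b ^ 4 * t ^ 2 + 8 * b ^ 8 * t ^ 4 ≤ 2 * b ^ 4 + 8 * b ^ 8 := by
    have y1 : 2 * b ^ 4 * t ^ 2 ≤ 2 * b ^ 4 * 1 := mul_le_mul_of_nonneg_left ht2 (by positivity)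
    have y2 : 8 * b ^ 8 * t ^ 4 ≤ 8 * b ^ 8 * 1 := mul_le_mul_of_nonneg_left ht4 (by positivity)
    linarith
  have z3 : (2 * b ^ 4 * t ^ 2 + 8 * b ^ 8 * t ^ 4) * ((528 * l0 + 16 * del) * q2 + P0 * NN) ≤
      (2 * b ^ 4 + 8 * b ^ 8) * ((528 * l0 + 16 * del) * q2 +
        P0 * NC3 U l0 del η I rk k4 p0 pT pT) := by
    have y1 : P0 * NN ≤ P0 * NC3 U l0 del η I rk k4 p0 pT pT :=
      mul_le_mul_of_nonneg_left hNC hPP
    have y2 : 0 ≤ (528 * l0 + 16 * del) * q2 + P0 * NN := by positivity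
    exact mul_le_mul z2 (by linarith) y2 (by positivity)
  have z4 : 2 * b ^ 4 * wf ^ 2 * (exS n b cB cF s η lam c x
      (Qk n b cB cF s η lam c x S (Kset S BL FL)) + del) ≤
      2 * b ^ 4 * wf ^ 2 * (9 / 4 * U + del) :=
    mul_le_mul_of_nonneg_left (by linarith) (by positivity)
  refine key.trans ?_
  have z5 := mul_le_mul_of_nonneg_left (add_le_add z3 (mul_le_mul_of_nonneg_left
    (add_le_add z4 (le_refl (8 * b ^ 8 * wf ^ 4 / del))) hPP)) hg
  have z6 := mul_le_mul_of_nonneg_left (mul_le_mul_of_nonneg_left z1 hPP)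
    (show (0 : ℝ) ≤ 6 by norm_num)
  refine (add_le_add z6 z5).trans (le_of_eq ?_)
  unfold E3c CBc
  ring

/-- monotonicity of the second moment in the set of sites -/
lemma CCv_mono {S S' : Finset (Fin n)} (h : S ⊆ S') (K : Finset (Co n LB LF))
    (z : Co n LB LF → ℝ) :
    CCv n b cB cF s η lam c x S K z ≤ CCv n b cB cF s η lam c x S' K z := by
  unfold CCv m2L
  refine div_le_div_of_nonneg_right ?_ (by positivity)
  refine (Finset.sum_le_sum fun i _ => Finset.sum_le_sum_of_subset_of_nonneg h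
    fun _ _ _ => sq_nonneg _).trans ?_
  exact Finset.sum_le_sum_of_subset_of_nonneg h fun _ _ _ =>
    Finset.sum_nonneg fun _ _ => sq_nonneg _

lemma RKk_mono {S S' : Finset (Fin n)} (h : S ⊆ S') (K : Finset (Co n LB LF))
    (z : Co n LB LF → ℝ) :
    RKk n b cB cF s η lam c x S K z ≤ RKk n b cB cF s η lam c x S' K z := by
  unfold RKk RKg
  refine div_le_div_of_nonneg_right ?_ (by positivity)
  refine (Finset.sum_le_sum fun i _ => Finset.sum_le_sum_of_subset_of_nonneg h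
    fun _ _ _ => sq_nonneg _).trans ?_
  exact Finset.sum_le_sum_of_subset_of_nonneg h fun _ _ _ =>
    Finset.sum_nonneg fun _ _ => sq_nonneg _

lemma K4v_mono {S S' : Finset (Fin n)} (h : S ⊆ S') (K : Finset (Co n LB LF))
    (z : Co n LB LF → ℝ) :
    K4v n b cB cF s η lam c x S K z ≤ K4v n b cB cF s η lam c x S' K z := by
  have hP : Pin S ⊆ Pin S' := fun p hp => by
    rw [mem_Pin] at hp ⊢
    exact ⟨h hp.1, h hp.2⟩
  unfold K4v k4L
  refine div_le_div_of_nonneg_right ?_ (by positivity)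
  refine (Finset.sum_le_sum fun i _ => Finset.sum_le_sum_of_subset_of_nonneg hP
    fun _ _ _ => sq_nonneg _).trans ?_
  exact Finset.sum_le_sum_of_subset_of_nonneg hP fun _ _ _ =>
    Finset.sum_nonneg fun _ _ => sq_nonneg _

lemma ind_mono {κ : Type*} {f g : (κ → ℝ) → ℝ} (r : ℝ) {z : κ → ℝ} (h : f z ≤ g z) :
    ind r f z ≤ ind r g z := by
  unfold ind
  split_ifs with h1 h2 h2
  · exact le_rfl
  · exact absurd (h1.trans_le h) h2
  · exact zero_le_one
  · exact le_rfl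

end main

section law

variable {L : Law} {t u : ℝ}

lemma Sn_ins {n m : ℕ} (h1 : 1 ≤ m) {i0 : Fin n} (hi : i0.1 + m = n) :
    insert i0 (Sn n m) = Sn n (m - 1) := by
  ext i
  simp only [Sn, Finset.mem_insert, Finset.mem_filter, Finset.mem_univ, true_and, Fin.ext_iff]
  omega

/-- **The last square on the names of Skel**, test function `φ (Q)`. -/
theorem c3_sk (hA : Adm L) (hη1 : L.η ≤ 1 / 2) (hs : L.s ≠ 0) (hx1 : L.x < 1) {r0 : ℝ}
    (hc : L.c = L.s ^ 2 * L.n * (1 - (1 - L.x) * r0)) (hk : 0 ≤ 1 - (1 - L.x) * r0) {m : ℕ}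
    (hm1 : 1 ≤ m) (hm : m ≤ L.n) {i0 : Fin L.n} (hi : i0.1 + m = L.n) (ht : 0 ≤ t)
    (ht1 : t ≤ 1) (hu : 0 ≤ u) {φ : ℝ → ℝ} (hφm : Measurable φ) {P0 : ℝ}
    (hφ0 : ∀ q, 0 ≤ q → 0 ≤ φ q) (hφ1 : ∀ q, 0 ≤ q → φ q ≤ P0)
    {U θ l0 del I rk k4 p0 pT : ℝ} (hwU : u * L.vp / L.b ^ 2 ≤ U) (hU0 : 0 < U) (hU1 : U ≤ 1)
    (hxb : 8 * (L.x ^ 2 * L.b ^ 2) ≤ 1)
    (hUu : L.ex' t u (H412.CC L Finset.univ t u) ≤ U ^ 2)
    (hUS : L.ex' t u (fun z => H412.CC L (Sn L.n m) t u z ^ 2) ≤ U ^ 4)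
    (hθ : 5 / √m + 2 * |L.lam / ((1 - L.x) * (L.s ^ 2 * L.n))| +
      3 * ((|r0| + 1) * √(PstL L t u)) / √U ≤ θ)
    (hl0 : 0 < l0) (hlU : l0 ≤ U) (hdel : 0 < del) (hdelU : del ≤ U)
    (hI : incL L (H418.cb t) (H418.cf L.vp u) (Sn L.n m) (Kset (Sn L.n m) {true} {true})
      (Kset (insert i0 (Sn L.n m)) {true} {true}) ≤ I)
    (hrk : L.rk (Sn L.n (m - 1)) t u ≤ rk)
    (hk4 : rbL L (H418.cb t) (H418.cf L.vp u) (Sn L.n (m - 1))
      (Kset (Sn L.n (m - 1)) {true} {true}) ≤ (L.n : ℝ) ^ 4 * k4)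
    (hp0 : L.ex' t u (ind l0 (L.Q (Sn L.n m) t u)) ≤ p0)
    (hp1 : L.ex' t u (ind (U ^ 2) (H412.CC L (Sn L.n (m - 1)) t u)) ≤ pT)
    (hp2 : L.ex' t u (ind U (L.Q (Sn L.n m) t u)) ≤ pT) :
    H615.C3v L.n L.b (H418.cb t) (H418.cf L.vp u) L.s L.η L.lam L.c L.x
        (1 - (1 - L.x) * r0) (Sn L.n m) {true} {true} i0
        (fun z => φ (L.Q (Sn L.n m) t u z)) ≤
      CBc L.b L.η * (528 * l0 + 16 * del) *
        L.ex' t u (fun z => φ (L.Q (Sn L.n m) t u z) * L.Q (Sn L.n m) t u z ^ 2) +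
      P0 * E3c L.b (1 - (1 - L.x) * r0) L.η U θ (u * L.vp / L.b ^ 2) l0 del (I / L.n) rk k4
        p0 pT := by
  have hn0 : (0 : ℝ) < L.n := by exact_mod_cast hA.n0
  have hw : Wt (g1 (Co L.n Bool Bool))
      (wS L.n L.b (H418.cb t) (H418.cf L.vp u) L.s L.η L.lam L.c L.x) :=
    wtA (n := L.n) L.b (H418.cb t) (H418.cf L.vp u) L.s hA.lam0 hA.η0 L.c L.x
  have hi1 : i0 ∉ Sn L.n m := by
    simp only [Sn, Finset.mem_filter, Finset.mem_univ, true_and]
    omega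
  have hne : ((Finset.univ : Finset (Fin L.n)) \ Sn L.n m).Nonempty :=
    ⟨i0, Finset.mem_sdiff.2 ⟨Finset.mem_univ _, hi1⟩⟩
  have hins : insert i0 (Sn L.n m) = Sn L.n (m - 1) := Sn_ins hm1 hi
  have hsub : Sn L.n m ⊆ Sn L.n (m - 1) := by
    rw [← hins]
    exact Finset.subset_insert _ _
  have bQ : BM (L.Q (Sn L.n m) t u) :=
    H615.bm_Qv (b := L.b) (cB := H418.cb t) (cF := H418.cf L.vp u) (s := L.s) (c := L.c)
      (x := L.x) hA.lam0 hA.η0 (Sn L.n m) {true} {true}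
  have dQ : H646.Dep (Kset (Sn L.n m) {true} {true}) (L.Q (Sn L.n m) t u) :=
    H615.dep_Qv (b := L.b) (cB := H418.cb t) (cF := H418.cf L.vp u) (s := L.s) (c := L.c)
      (x := L.x) (Sn L.n m) {true} {true}
  have hQ0 : ∀ z, 0 ≤ L.Q (Sn L.n m) t u z := fun z =>
    div_nonneg (Finset.sum_nonneg fun _ _ => sq_nonneg _) (Nat.cast_nonneg _)
  have bφ : BM fun z => φ (L.Q (Sn L.n m) t u z) := ⟨hφm.comp bQ.meas, P0, fun z => by
    rw [abs_of_nonneg (hφ0 _ (hQ0 z))]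
    exact hφ1 _ (hQ0 z)⟩
  have dφ : H646.Dep (Kset (Sn L.n m) {true} {true}) fun z => φ (L.Q (Sn L.n m) t u z) := by
    intro z z'
    simp only [dQ z z']
  have key := c3_num (n := L.n) (b := L.b) (cB := H418.cb t) (cF := H418.cf L.vp u) (s := L.s)
    (η := L.η) (lam := L.lam) (c := L.c) (x := L.x) (r0 := r0) (S := Sn L.n m)
    (S1 := Finset.univ) (i0 := i0) (BL := {true}) (FL := {true})
    (U := U) (θ := θ) (l0 := l0) (del := del) (I := I / L.n) (rk := rk) (k4 := k4) (p0 := p0)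
    (pT := pT) (P0 := P0) hA.lam0 hA.η0 hη1 hs hA.x0 hx1 hA.n0 hc hk (Finset.subset_univ _) hi1
    hne dφ bφ (fun z => hφ0 _ (hQ0 z)) (fun z => hφ1 _ (hQ0 z)) (cb_true ht) ht1
    (cf_true hA.vp0.le hu hA.b0.ne') (by
      have := hA.vp0
      have := hA.b0
      positivity) hwU hU0 hU1 hxb (by rw [ex_CC hA.lam0 hA.η0]; exact hUu)
    (by rw [ex_CC2 hA.lam0 hA.η0]; exact hUS) (by rw [card_hidden hm]; exact hθ) hl0 hlU hdel
    hdelU ?_ ?_ ?_ ?_ ?_ ?_
  · exact key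
  · -- the increment
    have e1 : ∀ K : Finset (Co L.n Bool Bool),
        exS L.n L.b (H418.cb t) (H418.cf L.vp u) L.s L.η L.lam L.c L.x
          (Qk L.n L.b (H418.cb t) (H418.cf L.vp u) L.s L.η L.lam L.c L.x (Sn L.n m) K) =
        (L.n : ℝ)⁻¹ * ∑ j ∈ Sn L.n m, exL L (H418.cb t) (H418.cf L.vp u)
          (fun z => cxL L (H418.cb t) (H418.cf L.vp u) K
            (fun w => al L.η w.1 * H325.sp w.2 j) z ^ 2) := by
      intro K
      have e2 : Qk L.n L.b (H418.cb t) (H418.cf L.vp u) L.s L.η L.lam L.c L.x (Sn L.n m) K =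
          fun z => (L.n : ℝ)⁻¹ * ∑ j ∈ Sn L.n m, cxS L.n L.b (H418.cb t) (H418.cf L.vp u) L.s
            L.η L.lam L.c L.x K (avS L.b (H418.cb t) (H418.cf L.vp u) L.s L.η L.lam L.c
              (fun w => al L.η w.1 * H325.sp w.2 j)) z ^ 2 := by
        funext z
        unfold Qk
        rw [div_eq_inv_mul]
      rw [e2]
      show ex _ _ _ = _
      rw [ex_cmul, ex_sum hw _ fun j _ => bsq (bm_M (b := L.b) (cB := H418.cb t)
        (cF := H418.cf L.vp u) (s := L.s) (c := L.c) (x := L.x) hA.lam0 hA.η0 K j)]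
    rw [e1, e1, ← mul_sub, ← Finset.sum_sub_distrib, div_eq_inv_mul]
    exact mul_le_mul_of_nonneg_left hI (by positivity)
  · -- rank one
    have h1 := ex_mono hw (bm_RKk (b := L.b) (cB := H418.cb t) (cF := H418.cf L.vp u)
      (s := L.s) (c := L.c) (x := L.x) hA.lam0 hA.η0 (Sn L.n m)
      (Kset (insert i0 (Sn L.n m)) {true} {true}))
      (bm_RKk (b := L.b) (cB := H418.cb t) (cF := H418.cf L.vp u)
      (s := L.s) (c := L.c) (x := L.x) hA.lam0 hA.η0 (Sn L.n (m - 1))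
      (Kset (insert i0 (Sn L.n m)) {true} {true})) fun z => RKk_mono hsub _ z
    refine le_trans h1 ?_
    rw [hins]
    refine le_trans (le_of_eq ?_) hrk
    exact RKv_rk (L := L) (t := t) (u := u) (Sn L.n (m - 1))
  · -- pairs
    have h1 := ex_mono hw (bm_K4v (b := L.b) (cB := H418.cb t) (cF := H418.cf L.vp u)
      (s := L.s) (c := L.c) (x := L.x) hA.lam0 hA.η0 (Sn L.n m)
      (Kset (insert i0 (Sn L.n m)) {true} {true}))
      (bm_K4v (b := L.b) (cB := H418.cb t) (cF := H418.cf L.vp u)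
      (s := L.s) (c := L.c) (x := L.x) hA.lam0 hA.η0 (Sn L.n (m - 1))
      (Kset (insert i0 (Sn L.n m)) {true} {true})) fun z => K4v_mono hsub _ z
    refine le_trans h1 ?_
    rw [hins]
    have e2 : K4v L.n L.b (H418.cb t) (H418.cf L.vp u) L.s L.η L.lam L.c L.x (Sn L.n (m - 1))
        (Kset (Sn L.n (m - 1)) {true} {true}) = fun z => ((L.n : ℝ) ^ 4)⁻¹ *
        ∑ q ∈ H119.ps (Sn L.n (m - 1)), ∑ r ∈ H119.ps (Sn L.n (m - 1)),
        (cxL L (H418.cb t) (H418.cf L.vp u) (Kset (Sn L.n (m - 1)) {true} {true})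
          (fun w => SkS q w.2 * SkS r w.2) z -
        cxL L (H418.cb t) (H418.cf L.vp u) (Kset (Sn L.n (m - 1)) {true} {true})
          (fun w => SkS q w.2) z *
        cxL L (H418.cb t) (H418.cf L.vp u) (Kset (Sn L.n (m - 1)) {true} {true})
          (fun w => SkS r w.2) z) ^ 2 := by
      funext z
      unfold K4v k4L
      rw [div_eq_inv_mul]
      rfl
    rw [e2]
    show ex _ _ _ ≤ _
    rw [ex_cmul, inv_mul_le_iff₀ (by positivity)]
    exact hk4
  · exact hp0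
  · refine le_trans (ex_mono hw (bm_ind (bm_CCv (b := L.b) (cB := H418.cb t)
      (cF := H418.cf L.vp u) (s := L.s) (c := L.c) (x := L.x) hA.lam0 hA.η0 _ _).meas _)
      (bm_ind (bm_CCv (b := L.b) (cB := H418.cb t)
      (cF := H418.cf L.vp u) (s := L.s) (c := L.c) (x := L.x) hA.lam0 hA.η0
        (Sn L.n (m - 1)) _).meas _) fun z => ind_mono _ (CCv_mono hsub _ z)) ?_
    rw [hins]
    exact hp1
  · exact hp2

end law

end Vale.Agent.P146.H317
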