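import Vale.Agent.P146.H317.C3Inst
import Vale.Agent.P146.H615.PointUL

/-!
# P146: the last square of the tested row equation

`c3v_le`: for a test function `0 ≤ φ ≤ P0` of the frozen coordinates `K = Kset S BL FL`, the last
square `C3v` of `H615.point_eq` is at most `small * E φ Q^2 + P0 * number`, the numbers being
the gap of the row in full norm, the increment of `E Q`, the rank one numbers at
`K' = Kset (insert i0 S) BL FL` on `S`, and tail probabilities.
-/

open MeasureTheory ProbabilityTheory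

namespace Vale.Agent.P146.H317

open Vale.Agent.P157.Lv Vale.Agent.P146.H196 Vale.Agent.P146.H646 Vale.Agent.P146.H615
  Vale.Agent.P146.H347 Vale.Agent.P146.H475 Vale.Agent.P146.H816 Vale.Agent.P146.H325
  Vale.Agent.P146.H161 Vale.Agent.P146.H412

set_option linter.unusedSectionVars false

/-! ### the last square is bounded and measurable -/

section generic

variable {ι : Type} [Fintype ι] [DecidableEq ι] {Ω : Type} [MeasurableSpace Ω] {m : Measure Ω}
  {S : ι → Ω → ℝ} {M0 : ℝ} {K K' R : Finset ι} {I : Type*} {T : Finset I}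
  {M : I → (ι → ℝ) → ℝ} {s : I → Ω → ℝ} {s0 a : Ω → ℝ}

theorem bm_last (hG : GM m S M0) (x : ℝ) (hKR : Disjoint K R) (hK : K ⊆ K') (hR : R ⊆ K')
    (hs : ∀ j, Bd (s j)) (hs0 : Bd s0) (hs1 : ∀ ω, s0 ω ^ 2 = 1) (ha : Bd a)
    (hM : ∀ j, BM (M j)) (hMd : ∀ j, H646.Dep K (M j)) (τ v kp : ℝ)
    (cf : (ι → ℝ) → ι → ℝ)
    (hY : ∀ z ω, YS R (cf z) S ω = kp * (s0 ω * (τ * ms T M s z ω + v)))
    (hc : ∀ z, ∑ e ∈ R, cf z e ^ 2 = kp ^ 2 * Yf T M τ v z) :
    BM (fun z => cx (gg ι) K (Zxm m 1 S x) (fun y =>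
        (cx (gg ι) K' (Zxm m 1 S x) (avm m 1 S (fun ω => a ω * s0 ω)) y -
          lc R (cf z) y) ^ 2) z) := by
  set w := Zxm m 1 S x with hwdef
  have hw : Wt (gg ι) w := hG.wt 1 x
  have hA := av_avm hG 1
  have bN : BM (cx (gg ι) K' w (avm m 1 S (fun ω => a ω * s0 ω))) :=
    hw.bm_cx K' (hG.bm_avm 1 (ha.mul hs0))
  set N := cx (gg ι) K' w (avm m 1 S (fun ω => a ω * s0 ω)) with hN
  set F : (ι → ℝ) → ℝ := fun y => τ * (∑ j ∈ T, M j y * H615.Th (avm m 1 S) x a s0 s j y) +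
    v * Tf (avm m 1 S) x a s0 y with hF
  set Qf : (ι → ℝ) → ℝ := fun y => Pt (avm m 1 S) T M s τ v y -
    (1 - x) * Rt (avm m 1 S) T M s0 s τ v y ^ 2 with hQf
  have bTh : BM fun y => ∑ j ∈ T, M j y * H615.Th (avm m 1 S) x a s0 s j y :=
    BM.sum T fun j _ => (hM j).mul (bm_Th hA hs hM ha hs0 x j)
  have bTf : BM (Tf (avm m 1 S) x a s0) := bm_Tf hA ha hs0 x
  have bF : BM F := (bcm τ bTh).add (bcm v bTf)
  have bP : BM (Pt (avm m 1 S) T M s τ v) := bm_Pt hA hs hM τ v
  have bR : BM (fun y => Rt (avm m 1 S) T M s0 s τ v y ^ 2) := bsq (bm_Rt hA hs hM hs0 τ v)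
  have bQ : BM Qf := bP.sub (bcm (1 - x) bR)
  have bYf : BM (Yf T M τ v) := bm_Y hA hs hM τ v
  have key : ∀ z, cx (gg ι) K w (fun y => N y ^ 2) z
      = 2 * (kp * cx (gg ι) K w F z) - kp ^ 2 * Yf T M τ v z
        - x * kp ^ 2 * cx (gg ι) K w Qf z
        + cx (gg ι) K w (fun y => (N y - lc R (cf z) y) ^ 2) z := by
    intro z
    have h0 := row_star (K := K) (K' := K') (R := R) hG 1 x hKR hK hR
      (h := fun ω => a ω * s0 ω) (ha.mul hs0) (cf z) z
    have h1 : cx (gg ι) K w (rsg m 1 S x (fun ω => a ω * s0 ω) (YS R (cf z) S)) z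
        = kp * cx (gg ι) K w F z := by
      rw [← cx_const_mul hw]
      refine cx_congr_glue w fun y => ?_
      exact rsg_eq hG hs hs0 hs1 ha x τ v kp z (glue K z y) (hY z)
        (fun ω => ms_glue hMd z y ω) (fun j => hMd j z y)
    have h2 : cx (gg ι) K w (qdg m 1 S x (YS R (cf z) S)) z
        = kp ^ 2 * cx (gg ι) K w Qf z := by
      rw [← cx_const_mul hw]
      refine cx_congr_glue w fun y => ?_
      exact qdg_eq hG hs1 x τ v kp z (glue K z y) (hY z) (fun ω => ms_glue hMd z y ω)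
    rw [← hwdef, ← hN, h1, h2, hc] at h0
    rw [h0]
    ring
  have eLT : (fun z => cx (gg ι) K w (fun y => (N y - lc R (cf z) y) ^ 2) z) =
      fun z => (cx (gg ι) K w (fun y => N y ^ 2) z
      - (2 * kp) * cx (gg ι) K w F z) + kp ^ 2 * Yf T M τ v z
        + (x * kp ^ 2) * cx (gg ι) K w Qf z := by
    funext z
    rw [key z]
    ring
  rw [eLT]
  exact (((hw.bm_cx K (bsq bN)).sub (bcm _ (hw.bm_cx K bF))).add (bcm _ bYf)).add
    (bcm _ (hw.bm_cx K bQ))

end generic

variable {n : ℕ} {LB LF : Type} [Fintype LB] [DecidableEq LB] [Fintype LF] [DecidableEq LF]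

/-- the overlap on `S` at the set `K`, without the amplitude -/
noncomputable def Q0k (n : ℕ) (b : ℝ) (cB : LB → ℝ) (cF : LF → ℝ) (s η lam c x : ℝ)
    (S : Finset (Fin n)) (K : Finset (Co n LB LF)) (z : Co n LB LF → ℝ) : ℝ :=
  (∑ j ∈ S, cxS n b cB cF s η lam c x K
    (avS b cB cF s η lam c (fun w => sp w.2 j)) z ^ 2) / n

/-- the overlap on `S` at the set `K` -/
noncomputable def Qk (n : ℕ) (b : ℝ) (cB : LB → ℝ) (cF : LF → ℝ) (s η lam c x : ℝ)
    (S : Finset (Fin n)) (K : Finset (Co n LB LF)) (z : Co n LB LF → ℝ) : ℝ :=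
  (∑ j ∈ S, cxS n b cB cF s η lam c x K
    (avS b cB cF s η lam c (fun w => al η w.1 * sp w.2 j)) z ^ 2) / n

/-- the rank one defect on `S` at the set `K` -/
noncomputable def RKk (n : ℕ) (b : ℝ) (cB : LB → ℝ) (cF : LF → ℝ) (s η lam c x : ℝ)
    (S : Finset (Fin n)) (K : Finset (Co n LB LF)) (z : Co n LB LF → ℝ) : ℝ :=
  RKg (muA (Xs n) lam η c) (Sm b cB cF s η) x K (fun (j : Fin n) w => sp w.2 j) S z
    / (n : ℝ) ^ 2

/-- the distance of the two magnetisations -/
noncomputable def qkk (n : ℕ) (b : ℝ) (cB : LB → ℝ) (cF : LF → ℝ) (s η lam c x : ℝ)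
    (S : Finset (Fin n)) (K K' : Finset (Co n LB LF)) (z : Co n LB LF → ℝ) : ℝ :=
  (∑ j ∈ S, (cxS n b cB cF s η lam c x K' (avS b cB cF s η lam c (fun w => sp w.2 j)) z -
    cxS n b cB cF s η lam c x K (avS b cB cF s η lam c (fun w => al η w.1 * sp w.2 j)) z) ^ 2)
      / n

variable {b s η lam c x : ℝ} {cB : LB → ℝ} {cF : LF → ℝ} {BL : Finset LB} {FL : Finset LF}
  {i0 : Fin n} {S : Finset (Fin n)}

lemma Qv_eq (S : Finset (Fin n)) (BL : Finset LB) (FL : Finset LF) :
    Qv n b cB cF s η lam c x S BL FL = Qk n b cB cF s η lam c x S (Kset S BL FL) := rfl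

lemma RKv_eq (S : Finset (Fin n)) (BL : Finset LB) (FL : Finset LF) :
    RKv n b cB cF s η lam c x S BL FL = RKk n b cB cF s η lam c x S (Kset S BL FL) := rfl

lemma Qk_nonneg (S : Finset (Fin n)) (K : Finset (Co n LB LF)) (z : Co n LB LF → ℝ) :
    0 ≤ Qk n b cB cF s η lam c x S K z :=
  div_nonneg (Finset.sum_nonneg fun _ _ => sq_nonneg _) (Nat.cast_nonneg n)

lemma Q0k_nonneg (S : Finset (Fin n)) (K : Finset (Co n LB LF)) (z : Co n LB LF → ℝ) :
    0 ≤ Q0k n b cB cF s η lam c x S K z :=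
  div_nonneg (Finset.sum_nonneg fun _ _ => sq_nonneg _) (Nat.cast_nonneg n)

lemma RKk_nonneg (S : Finset (Fin n)) (K : Finset (Co n LB LF)) (z : Co n LB LF → ℝ) :
    0 ≤ RKk n b cB cF s η lam c x S K z :=
  div_nonneg (Finset.sum_nonneg fun _ _ => Finset.sum_nonneg fun _ _ => sq_nonneg _)
    (by positivity)

lemma qkk_nonneg (S : Finset (Fin n)) (K K' : Finset (Co n LB LF)) (z : Co n LB LF → ℝ) :
    0 ≤ qkk n b cB cF s η lam c x S K K' z :=
  div_nonneg (Finset.sum_nonneg fun _ _ => sq_nonneg _) (Nat.cast_nonneg n)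

/-- `Q0' ≤ 2 Q + 2 q` -/
lemma Q0k_le (S : Finset (Fin n)) (K K' : Finset (Co n LB LF)) (z : Co n LB LF → ℝ) :
    Q0k n b cB cF s η lam c x S K' z ≤ 2 * Qk n b cB cF s η lam c x S K z +
      2 * qkk n b cB cF s η lam c x S K K' z := by
  unfold Q0k Qk qkk
  rw [← mul_div_assoc, ← mul_div_assoc, ← add_div]
  refine div_le_div_of_nonneg_right ?_ (Nat.cast_nonneg n)
  rw [Finset.mul_sum, Finset.mul_sum, ← Finset.sum_add_distrib]
  refine Finset.sum_le_sum fun j _ => ?_
  set p := cxS n b cB cF s η lam c x K' (avS b cB cF s η lam c (fun w => sp w.2 j)) z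
  set q := cxS n b cB cF s η lam c x K
    (avS b cB cF s η lam c (fun w => al η w.1 * sp w.2 j)) z
  nlinarith [sq_nonneg (p - 2 * q)]

/-- `q ≤ 2 Q0' + 2 Q` -/
lemma qkk_le (S : Finset (Fin n)) (K K' : Finset (Co n LB LF)) (z : Co n LB LF → ℝ) :
    qkk n b cB cF s η lam c x S K K' z ≤ 2 * Q0k n b cB cF s η lam c x S K' z +
      2 * Qk n b cB cF s η lam c x S K z := by
  unfold Q0k Qk qkk
  rw [← mul_div_assoc, ← mul_div_assoc, ← add_div]
  refine div_le_div_of_nonneg_right ?_ (Nat.cast_nonneg n)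
  rw [Finset.mul_sum, Finset.mul_sum, ← Finset.sum_add_distrib]
  refine Finset.sum_le_sum fun j _ => ?_
  set p := cxS n b cB cF s η lam c x K' (avS b cB cF s η lam c (fun w => sp w.2 j)) z
  set q := cxS n b cB cF s η lam c x K
    (avS b cB cF s η lam c (fun w => al η w.1 * sp w.2 j)) z
  nlinarith [sq_nonneg (p + q)]

section

variable (hl : 0 < lam) (hη : 0 ≤ η)
include hl hη

lemma bm_m (K : Finset (Co n LB LF)) (j : Fin n) :
    BM (cxS n b cB cF s η lam c x K (avS b cB cF s η lam c (fun w => sp w.2 j))) := by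
  have hG := gmA (n := n) b cB cF s hl hη c
  exact (H347.wt hG 1 x).bm_cx K (H347.bm hG 1 (bm_sp j))

lemma bm_M (K : Finset (Co n LB LF)) (j : Fin n) :
    BM (cxS n b cB cF s η lam c x K
      (avS b cB cF s η lam c (fun w => al η w.1 * sp w.2 j))) := by
  have hG := gmA (n := n) b cB cF s hl hη c
  exact (H347.wt hG 1 x).bm_cx K (H347.bm hG 1 ((bm_of_al (n := n) hη).mul (bm_sp j)))

lemma bdiv {f : (Co n LB LF → ℝ) → ℝ} (hf : BM f) (a : ℝ) : BM (fun z => f z / a) := by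
  have e : (fun z => f z / a) = fun z => a⁻¹ * f z := by
    funext z; rw [div_eq_inv_mul]
  rw [e]
  exact bcm _ hf

lemma bm_Qk (S : Finset (Fin n)) (K : Finset (Co n LB LF)) :
    BM (Qk n b cB cF s η lam c x S K) :=
  bdiv hl hη (BM.sum S fun j _ => bsq (bm_M hl hη K j)) _

lemma bm_Q0k (S : Finset (Fin n)) (K : Finset (Co n LB LF)) :
    BM (Q0k n b cB cF s η lam c x S K) :=
  bdiv hl hη (BM.sum S fun j _ => bsq (bm_m hl hη K j)) _

lemma bm_qkk (S : Finset (Fin n)) (K K' : Finset (Co n LB LF)) :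
    BM (qkk n b cB cF s η lam c x S K K') :=
  bdiv hl hη (BM.sum S fun j _ => bsq ((bm_m hl hη K' j).sub (bm_M hl hη K j))) _

lemma bm_RKk (S : Finset (Fin n)) (K : Finset (Co n LB LF)) :
    BM (RKk n b cB cF s η lam c x S K) := by
  have hG := gmA (n := n) b cB cF s hl hη c
  refine bdiv hl hη (BM.sum S fun j _ => BM.sum S fun l _ => bsq (BM.sub ?_ ?_)) _
  · exact (H347.wt hG 1 x).bm_cx K (H347.bm hG 1 ((bm_sp j).mul (bm_sp l)))
  · exact (bm_m hl hη K j).mul (bm_m hl hη K l)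

lemma card_le_real (S : Finset (Fin n)) : (S.card : ℝ) ≤ n := by
  have := Finset.card_le_univ S
  rw [Fintype.card_fin] at this
  exact_mod_cast this

lemma abs_m_le (K : Finset (Co n LB LF)) (j : Fin n) (z : Co n LB LF → ℝ) :
    |cxS n b cB cF s η lam c x K (avS b cB cF s η lam c (fun w => sp w.2 j)) z| ≤ 1 := by
  have hG := gmA (n := n) b cB cF s hl hη c
  refine (H347.wt hG 1 x).abs_cx_le K (H347.bm hG 1 (bm_sp j)) (fun y => ?_) z
  exact hG.abs_av_le 1 (bm_sp j).1 (fun w => H646.abs_sp_le w.2 j) y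

lemma abs_M_le (K : Finset (Co n LB LF)) (j : Fin n) (z : Co n LB LF → ℝ) :
    |cxS n b cB cF s η lam c x K (avS b cB cF s η lam c (fun w => al η w.1 * sp w.2 j)) z| ≤
      1 + η := by
  have hG := gmA (n := n) b cB cF s hl hη c
  have bh := (bm_of_al (n := n) hη).mul (bm_sp j)
  refine (H347.wt hG 1 x).abs_cx_le K (H347.bm hG 1 bh) (fun y => ?_) z
  refine hG.abs_av_le 1 bh.1 (fun w => ?_) y
  have h1 := al_mem hη w.1
  have h2 := H646.abs_sp_le w.2 j
  have h3 : |al η w.1| ≤ 1 + η := by rw [abs_le]; constructor <;> linarith [h1.1, h1.2]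
  rw [abs_mul]
  calc |al η w.1| * |sp w.2 j| ≤ (1 + η) * 1 :=
        mul_le_mul h3 h2 (abs_nonneg _) (by linarith)
    _ = 1 + η := mul_one _

/-- `Q ≤ (1+η)²` -/
lemma Qk_le (hn : 0 < n) (S : Finset (Fin n)) (K : Finset (Co n LB LF)) (z : Co n LB LF → ℝ) :
    Qk n b cB cF s η lam c x S K z ≤ (1 + η) ^ 2 := by
  have hn' : (0 : ℝ) < n := Nat.cast_pos.2 hn
  unfold Qk
  rw [div_le_iff₀ hn']
  calc _ ≤ ∑ _j ∈ S, (1 + η) ^ 2 := Finset.sum_le_sum fun j _ => by
        have h := abs_M_le (b := b) (cB := cB) (cF := cF) (s := s) (c := c) (x := x) hl hη K j z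
        calc _ = |cxS n b cB cF s η lam c x K
              (avS b cB cF s η lam c (fun w => al η w.1 * sp w.2 j)) z| ^ 2 := (sq_abs _).symm
          _ ≤ (1 + η) ^ 2 := pow_le_pow_left₀ (abs_nonneg _) h 2
    _ = (1 + η) ^ 2 * S.card := by rw [Finset.sum_const, nsmul_eq_mul, mul_comm]
    _ ≤ (1 + η) ^ 2 * n := mul_le_mul_of_nonneg_left (card_le_real hl hη S) (by positivity)

/-- `q ≤ 7` -/
lemma qkk_le_seven (hη1 : η ≤ 1 / 2) (hn : 0 < n) (S : Finset (Fin n))
    (K K' : Finset (Co n LB LF)) (z : Co n LB LF → ℝ) :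
    qkk n b cB cF s η lam c x S K K' z ≤ 7 := by
  have hn' : (0 : ℝ) < n := Nat.cast_pos.2 hn
  unfold qkk
  rw [div_le_iff₀ hn']
  calc _ ≤ ∑ _j ∈ S, (7 : ℝ) := Finset.sum_le_sum fun j _ => by
        have h1 := abs_M_le (b := b) (cB := cB) (cF := cF) (s := s) (c := c) (x := x) hl hη K j z
        have h2 := abs_m_le (b := b) (cB := cB) (cF := cF) (s := s) (c := c) (x := x) hl hη K' j z
        have h3 := abs_sub (cxS n b cB cF s η lam c x K'
          (avS b cB cF s η lam c (fun w => sp w.2 j)) z) (cxS n b cB cF s η lam c x K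
            (avS b cB cF s η lam c (fun w => al η w.1 * sp w.2 j)) z)
        rw [← sq_abs]
        have h4 : |cxS n b cB cF s η lam c x K'
          (avS b cB cF s η lam c (fun w => sp w.2 j)) z - cxS n b cB cF s η lam c x K
            (avS b cB cF s η lam c (fun w => al η w.1 * sp w.2 j)) z| ≤ 5 / 2 := by linarith
        calc _ ≤ (5 / 2 : ℝ) ^ 2 := pow_le_pow_left₀ (abs_nonneg _) h4 2
          _ ≤ 7 := by norm_num
    _ = 7 * S.card := by rw [Finset.sum_const, nsmul_eq_mul, mul_comm]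
    _ ≤ 7 * n := mul_le_mul_of_nonneg_left (card_le_real hl hη S) (by norm_num)

/-- `Q0 ≤ √CC` -/
lemma Q0k_le_sqrt (hn : 0 < n) (S : Finset (Fin n)) (K : Finset (Co n LB LF))
    (z : Co n LB LF → ℝ) :
    Q0k n b cB cF s η lam c x S K z ≤ √(CCv n b cB cF s η lam c x S K z) := by
  have hn' : (0 : ℝ) < n := Nat.cast_pos.2 hn
  have h1 := H347.amp_sq_le (b := b) (cB := cB) (cF := cF) (s := s) hl hη c x K S
    (h := fun _ => 1) (Bm.const 1) (C := 1) (fun _ => by simp) zero_le_one z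
  simp only [one_mul, one_pow] at h1
  unfold Q0k CCv
  rw [m2_eq hl hη, Real.sqrt_div' _ (by positivity), Real.sqrt_sq hn'.le]
  exact div_le_div_of_nonneg_right h1 hn'.le

/-- the two magnetisations at one set differ by `η² √CC` -/
lemma amp_diff (hn : 0 < n) (S : Finset (Fin n)) (K : Finset (Co n LB LF))
    (z : Co n LB LF → ℝ) :
    (∑ j ∈ S, (cxS n b cB cF s η lam c x K (avS b cB cF s η lam c (fun w => sp w.2 j)) z -
      cxS n b cB cF s η lam c x K
        (avS b cB cF s η lam c (fun w => al η w.1 * sp w.2 j)) z) ^ 2) / n ≤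
      η ^ 2 * √(CCv n b cB cF s η lam c x S K z) := by
  have hn' : (0 : ℝ) < n := Nat.cast_pos.2 hn
  have hG := gmA (n := n) b cB cF s hl hη c
  have hw := H347.wt hG 1 x
  have ba : Bm (fun w : ℝ × Xs n => al η w.1) := bm_of_al (n := n) hη
  have bh : Bm (fun w : ℝ × Xs n => 1 - al η w.1) := (Bm.const 1).sub ba
  have hC : ∀ w : ℝ × Xs n, |1 - al η w.1| ≤ η := fun w => by
    have h1 := al_mem hη w.1
    rw [abs_le]; constructor <;> linarith [h1.1, h1.2]
  have h1 := H347.amp_sq_le (b := b) (cB := cB) (cF := cF) (s := s) hl hη c x K S bh hC hη z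
  have e : ∀ j : Fin n, cxS n b cB cF s η lam c x K
      (avS b cB cF s η lam c (fun w => sp w.2 j)) z - cxS n b cB cF s η lam c x K
        (avS b cB cF s η lam c (fun w => al η w.1 * sp w.2 j)) z =
      cx (g1 _) K (Zxm (muA (Xs n) lam η c) 1 (Sm b cB cF s η) x)
      (avm (muA (Xs n) lam η c) 1 (Sm b cB cF s η) (fun w => (1 - al η w.1) * sp w.2 j)) z := by
    intro j
    have b1 : BM (avS (LB := LB) (LF := LF) b cB cF s η lam c
      (fun w : ℝ × Xs n => sp w.2 j)) := H347.bm hG 1 (bm_sp j)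
    have b2 : BM (avS (LB := LB) (LF := LF) b cB cF s η lam c
      (fun w : ℝ × Xs n => al η w.1 * sp w.2 j)) := H347.bm hG 1 (ba.mul (bm_sp j))
    have e1 : avm (muA (Xs n) lam η c) 1 (Sm (LB := LB) (LF := LF) b cB cF s η)
        (fun w => (1 - al η w.1) * sp w.2 j) =
        fun y => avS b cB cF s η lam c (fun w : ℝ × Xs n => sp w.2 j) y +
          (-1) * avS b cB cF s η lam c (fun w : ℝ × Xs n => al η w.1 * sp w.2 j) y := by
      funext y
      have e2 : (fun w : ℝ × Xs n => (1 - al η w.1) * sp w.2 j) =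
          fun w => sp w.2 j + (-1) * (al η w.1 * sp w.2 j) := by funext w; ring
      rw [e2, hG.av_add 1 (bm_sp j) (Bm.const_mul (-1) (ba.mul (bm_sp j))), H196.av_mul]
    rw [e1, cx_add hw b1 (bcm (-1) b2), cx_const_mul hw]
    ring
  unfold CCv
  rw [m2_eq hl hη, Real.sqrt_div' _ (by positivity), Real.sqrt_sq hn'.le, ← mul_div_assoc]
  refine div_le_div_of_nonneg_right ?_ hn'.le
  simp only [e]
  exact h1

/-- `CC ≤ 2 Q0² + 2 RK` -/
lemma CCv_le_two (hn : 0 < n) (S : Finset (Fin n)) (K : Finset (Co n LB LF))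
    (z : Co n LB LF → ℝ) :
    CCv n b cB cF s η lam c x S K z ≤ 2 * Q0k n b cB cF s η lam c x S K z ^ 2 +
      2 * RKk n b cB cF s η lam c x S K z := by
  have hn' : (0 : ℝ) < n := Nat.cast_pos.2 hn
  have h := m2L_le (S := S) (L := LA n b cB cF s η lam c x K z) (fun j =>
    cxS n b cB cF s η lam c x K (avS b cB cF s η lam c (fun w => sp w.2 j)) z)
    (θ := 1) one_pos
  norm_num at h
  unfold CCv Q0k RKk RKg
  rw [div_le_iff₀ (by positivity)]
  refine h.trans (le_of_eq ?_)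
  have e1 : ∀ i j : Fin n, LA n b cB cF s η lam c x K z (fun σ => sp σ i * sp σ j) =
      Cg (muA (Xs n) lam η c) (Sm b cB cF s η) x K
        (fun (j : Fin n) (w : ℝ × Xs n) => sp w.2 j) i j z := fun i j => rfl
  simp only [e1]
  field_simp

/-- `q² ≤ 4 U q` off the tails -/
lemma qkk_sq_le (hη1 : η ≤ 1 / 2) (hn : 0 < n) (S : Finset (Fin n))
    (K K' : Finset (Co n LB LF)) {U : ℝ} (hU : 0 ≤ U) (z : Co n LB LF → ℝ) :
    qkk n b cB cF s η lam c x S K K' z ^ 2 ≤
      4 * U * qkk n b cB cF s η lam c x S K K' z +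
      49 * (ind (U ^ 2) (CCv n b cB cF s η lam c x S K') z +
        ind U (Qk n b cB cF s η lam c x S K) z) := by
  have h0 := qkk_nonneg (b := b) (cB := cB) (cF := cF) (s := s) (η := η) (lam := lam) (c := c)
    (x := x) S K K' z
  have h7 := qkk_le_seven (b := b) (cB := cB) (cF := cF) (s := s) (c := c) (x := x) hl hη hη1 hn
    S K K' z
  have h1 := qkk_le (b := b) (cB := cB) (cF := cF) (s := s) (η := η) (lam := lam) (c := c)
    (x := x) S K K' z
  have h2 := Q0k_le_sqrt (b := b) (cB := cB) (cF := cF) (s := s) (c := c) (x := x) hl hη hn S K' z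
  set q := qkk n b cB cF s η lam c x S K K' z
  set Q := Qk n b cB cF s η lam c x S K z
  set CC := CCv n b cB cF s η lam c x S K' z
  have hq2 : q ^ 2 ≤ 49 := by nlinarith
  have i1 : ind (U ^ 2) (CCv n b cB cF s η lam c x S K') z = if U ^ 2 < CC then 1 else 0 := rfl
  have i2 : ind U (Qk n b cB cF s η lam c x S K) z = if U < Q then 1 else 0 := rfl
  rw [i1, i2]
  have h4U : 0 ≤ 4 * U * q := by positivity
  by_cases h3 : U ^ 2 < CC
  · rw [if_pos h3]
    split_ifs <;> nlinarith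
  · by_cases h4 : U < Q
    · rw [if_pos h4, if_neg h3]
      nlinarith
    · rw [if_neg h3, if_neg h4]
      have h5 : √CC ≤ U := by
        rw [← Real.sqrt_sq hU]
        exact Real.sqrt_le_sqrt (not_lt.1 h3)
      have h6 : q ≤ 4 * U := by linarith [not_lt.1 h4]
      nlinarith

/-- the mean of `q` -/
lemma ex_qkk_le (hn : 0 < n) (S : Finset (Fin n)) {K K' : Finset (Co n LB LF)}
    (hK : K ⊆ K') {U : ℝ} (hU : 0 ≤ U) :
    exS n b cB cF s η lam c x (qkk n b cB cF s η lam c x S K K') ≤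
      2 * η ^ 2 * (U + exS n b cB cF s η lam c x
        (ind (U ^ 2) (CCv n b cB cF s η lam c x S K'))) +
      2 * (exS n b cB cF s η lam c x (Qk n b cB cF s η lam c x S K') -
        exS n b cB cF s η lam c x (Qk n b cB cF s η lam c x S K)) := by
  have hn' : (0 : ℝ) < n := Nat.cast_pos.2 hn
  have hw : Wt (g1 (Co n LB LF)) (wS n b cB cF s η lam c x) := wtA b cB cF s hl hη c x
  have hG := gmA (n := n) b cB cF s hl hη c
  have bA : ∀ j : Fin n, BM (avS (LB := LB) (LF := LF) b cB cF s η lam c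
      (fun w : ℝ × Xs n => al η w.1 * sp w.2 j)) := fun j =>
    H347.bm hG 1 ((bm_of_al (n := n) hη).mul (bm_sp j))
  have bM := fun (K : Finset (Co n LB LF)) (j : Fin n) =>
    bm_M (b := b) (cB := cB) (cF := cF) (s := s) (c := c) (x := x) hl hη K j
  have bC := bm_CCv (b := b) (cB := cB) (cF := cF) (s := s) (c := c) (x := x) hl hη S K'
  set D : (Co n LB LF → ℝ) → ℝ := fun z => ∑ j ∈ S, (cxS n b cB cF s η lam c x K'
        (avS b cB cF s η lam c (fun w => al η w.1 * sp w.2 j)) z -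
      cxS n b cB cF s η lam c x K
        (avS b cB cF s η lam c (fun w => al η w.1 * sp w.2 j)) z) ^ 2 with hD
  have bD : BM D := BM.sum S fun j _ => bsq ((bM K' j).sub (bM K j))
  have bI := bm_ind bC.meas (U ^ 2)
  have pt : ∀ z, qkk n b cB cF s η lam c x S K K' z ≤
      (2 * η ^ 2 * (U + ind (U ^ 2) (CCv n b cB cF s η lam c x S K') z)) +
        (2 / n) * D z := by
    intro z
    have h1 := amp_diff (b := b) (cB := cB) (cF := cF) (s := s) (c := c) (x := x) hl hη hn S K' z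
    have h2 : √(CCv n b cB cF s η lam c x S K' z) ≤
        U + ind (U ^ 2) (CCv n b cB cF s η lam c x S K') z := by
      unfold ind
      split_ifs with h3
      · have h4 := CCv_le_one (b := b) (cB := cB) (cF := cF) (s := s) (c := c) (x := x) hl hη hn
          S K' z
        have h5 : √(CCv n b cB cF s η lam c x S K' z) ≤ 1 := by
          rw [← Real.sqrt_one]; exact Real.sqrt_le_sqrt h4
        linarith
      · have h5 : √(CCv n b cB cF s η lam c x S K' z) ≤ √(U ^ 2) :=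
          Real.sqrt_le_sqrt (not_lt.1 h3)
        rw [Real.sqrt_sq hU] at h5
        linarith
    have h3 := h1.trans (mul_le_mul_of_nonneg_left h2 (sq_nonneg η))
    have h4 : qkk n b cB cF s η lam c x S K K' z ≤ 2 * ((∑ j ∈ S, (cxS n b cB cF s η lam c x K'
        (avS b cB cF s η lam c (fun w => sp w.2 j)) z - cxS n b cB cF s η lam c x K'
        (avS b cB cF s η lam c (fun w => al η w.1 * sp w.2 j)) z) ^ 2) / n) +
        (2 / n) * D z := by
      have e : (2 / (n : ℝ)) * D z = (2 * D z) / n := by ring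
      unfold qkk
      rw [e, ← mul_div_assoc, ← add_div]
      refine div_le_div_of_nonneg_right ?_ hn'.le
      rw [hD, Finset.mul_sum, Finset.mul_sum, ← Finset.sum_add_distrib]
      refine Finset.sum_le_sum fun j _ => ?_
      set p := cxS n b cB cF s η lam c x K' (avS b cB cF s η lam c (fun w => sp w.2 j)) z
      set p1 := cxS n b cB cF s η lam c x K'
        (avS b cB cF s η lam c (fun w => al η w.1 * sp w.2 j)) z
      set q := cxS n b cB cF s η lam c x K
        (avS b cB cF s η lam c (fun w => al η w.1 * sp w.2 j)) z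
      nlinarith [sq_nonneg (p - p1 - (p1 - q))]
    linarith
  have h1 := ex_mono hw (bm_qkk (b := b) (cB := cB) (cF := cF) (s := s) (c := c) (x := x) hl hη
    S K K') ((bcm (2 * η ^ 2) ((BM.const U).add bI)).add (bcm (2 / n) bD)) pt
  rw [ex_add hw (bcm (2 * η ^ 2) ((BM.const U).add bI)) (bcm (2 / n) bD), ex_cmul, ex_cmul,
    ex_add hw (BM.const U) bI, ex_const hw] at h1
  have h2 : ex (g1 (Co n LB LF)) (wS n b cB cF s η lam c x) D = n *
      (exS n b cB cF s η lam c x (Qk n b cB cF s η lam c x S K') -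
        exS n b cB cF s η lam c x (Qk n b cB cF s η lam c x S K)) := by
    have e1 : ∀ K : Finset (Co n LB LF), exS n b cB cF s η lam c x
        (Qk n b cB cF s η lam c x S K) = (n : ℝ)⁻¹ * ∑ j ∈ S, exS n b cB cF s η lam c x
        (fun z => cxS n b cB cF s η lam c x K
        (avS b cB cF s η lam c (fun w => al η w.1 * sp w.2 j)) z ^ 2) := by
      intro K
      have e2 : Qk n b cB cF s η lam c x S K = fun z => (n : ℝ)⁻¹ * ∑ j ∈ S,
          cxS n b cB cF s η lam c x K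
          (avS b cB cF s η lam c (fun w => al η w.1 * sp w.2 j)) z ^ 2 := by
        funext z; unfold Qk; rw [div_eq_inv_mul]
      rw [e2]
      show ex _ _ _ = _
      rw [ex_cmul, ex_sum hw S fun j _ => bsq (bM K j)]
    rw [e1, e1, hD, ex_sum hw S fun j _ => bsq ((bM K' j).sub (bM K j))]
    have e3 : ∀ j : Fin n, ex (g1 (Co n LB LF)) (wS n b cB cF s η lam c x) (fun z =>
        (cxS n b cB cF s η lam c x K'
        (avS b cB cF s η lam c (fun w => al η w.1 * sp w.2 j)) z -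
      cxS n b cB cF s η lam c x K
        (avS b cB cF s η lam c (fun w => al η w.1 * sp w.2 j)) z) ^ 2) =
        exS n b cB cF s η lam c x (fun z => cxS n b cB cF s η lam c x K'
        (avS b cB cF s η lam c (fun w => al η w.1 * sp w.2 j)) z ^ 2) -
        exS n b cB cF s η lam c x (fun z => cxS n b cB cF s η lam c x K
        (avS b cB cF s η lam c (fun w => al η w.1 * sp w.2 j)) z ^ 2) := fun j =>
      ex_sub_sq hw hK (bA j)
    simp only [e3]
    rw [Finset.sum_sub_distrib]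
    field_simp
  rw [h2] at h1
  refine h1.trans (le_of_eq ?_)
  field_simp

end

/-- the number of the cube term -/
noncomputable def NC3 (U l0 del η inc ek2 ek4 p0 p1 p2 : ℝ) : ℝ :=
  36 * (U ^ 2 / del) * (16 * (4 * U * (2 * η ^ 2 * (U + p1) + 2 * inc) + 49 * (p1 + p2)) +
    2 * ek2) + 8 * ek4 / del + (2 * U ^ 3 + 2 * U ^ 4 / l0) * p0 + 5 / del * (p1 + p2)

section cube

variable (hl : 0 < lam) (hη : 0 ≤ η) (hη1 : η ≤ 1 / 2) (hn : 0 < n)
include hl hη hη1 hn

/-- **The cube term with the overlaps at `K'`.** -/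
theorem cube_le (S : Finset (Fin n)) {K K' : Finset (Co n LB LF)} (hK : K ⊆ K')
    {φ : (Co n LB LF → ℝ) → ℝ} (hφ : BM φ) (hφ0 : ∀ z, 0 ≤ φ z) {P0 : ℝ}
    (hφ1 : ∀ z, φ z ≤ P0) {l0 U del : ℝ} (hl0 : 0 < l0) (hlU : l0 ≤ U) (hdel : 0 < del)
    (hdelU : del ≤ U) (hdel1 : del ≤ 1) :
    exS n b cB cF s η lam c x (fun z => φ z * ((Qk n b cB cF s η lam c x S K z + del) *
        CCv n b cB cF s η lam c x S K' z + M4v n b cB cF s η lam c x S K' z /
          (Qk n b cB cF s η lam c x S K z + del))) ≤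
      (528 * l0 + 16 * del) *
        exS n b cB cF s η lam c x (fun z => φ z * Qk n b cB cF s η lam c x S K z ^ 2) +
      P0 * NC3 U l0 del η
        (exS n b cB cF s η lam c x (Qk n b cB cF s η lam c x S K') -
          exS n b cB cF s η lam c x (Qk n b cB cF s η lam c x S K))
        (exS n b cB cF s η lam c x (RKk n b cB cF s η lam c x S K'))
        (exS n b cB cF s η lam c x (K4v n b cB cF s η lam c x S K'))
        (exS n b cB cF s η lam c x (ind l0 (Qk n b cB cF s η lam c x S K)))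
        (exS n b cB cF s η lam c x (ind (U ^ 2) (CCv n b cB cF s η lam c x S K')))
        (exS n b cB cF s η lam c x (ind U (Qk n b cB cF s η lam c x S K))) := by
  have hw : Wt (g1 (Co n LB LF)) (wS n b cB cF s η lam c x) := wtA b cB cF s hl hη c x
  have hU : 0 < U := by linarith
  have hP0 : 0 ≤ P0 := (hφ0 0).trans (hφ1 0)
  have bQ := bm_Qk (b := b) (cB := cB) (cF := cF) (s := s) (c := c) (x := x) hl hη S K
  have bC := bm_CCv (b := b) (cB := cB) (cF := cF) (s := s) (c := c) (x := x) hl hη S K'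
  have bM4 := bm_M4v (b := b) (cB := cB) (cF := cF) (s := s) (c := c) (x := x) hl hη S K'
  have bR := bm_RKk (b := b) (cB := cB) (cF := cF) (s := s) (c := c) (x := x) hl hη S K'
  have bK4 := bm_K4v (b := b) (cB := cB) (cF := cF) (s := s) (c := c) (x := x) hl hη S K'
  have bq := bm_qkk (b := b) (cB := cB) (cF := cF) (s := s) (c := c) (x := x) hl hη S K K'
  have hB : ∀ z, (Qk n b cB cF s η lam c x S K z + del) * CCv n b cB cF s η lam c x S K' z +
      M4v n b cB cF s η lam c x S K' z / (Qk n b cB cF s η lam c x S K z + del) ≤ 5 / del := by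
    intro z
    have h1 := Qk_le (b := b) (cB := cB) (cF := cF) (s := s) (c := c) (x := x) hl hη hn S K z
    have h2 := CCv_le_one (b := b) (cB := cB) (cF := cF) (s := s) (c := c) (x := x) hl hη hn
      S K' z
    have h3 := M4v_le_one (b := b) (cB := cB) (cF := cF) (s := s) (c := c) (x := x) hl hη hn
      S K' z
    have h4 := Qk_nonneg (b := b) (cB := cB) (cF := cF) (s := s) (η := η) (lam := lam) (c := c)
      (x := x) S K z
    have h5 := CCv_nonneg (b := b) (cB := cB) (cF := cF) (s := s) (η := η) (lam := lam) (c := c)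
      (x := x) S K' z
    have h6 := M4v_nonneg (b := b) (cB := cB) (cF := cF) (s := s) (η := η) (lam := lam) (c := c)
      (x := x) S K' z
    set Q := Qk n b cB cF s η lam c x S K z
    set CC := CCv n b cB cF s η lam c x S K' z
    set M4 := M4v n b cB cF s η lam c x S K' z
    have h7 : Q ≤ 9 / 4 := by nlinarith
    have h8 : (Q + del) * CC ≤ (9 / 4 + 1) * 1 :=
      mul_le_mul (by linarith) h2 h5 (by norm_num)
    have h9 : M4 / (Q + del) ≤ 1 / del := by
      rw [div_le_div_iff₀ (by linarith) hdel]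
      nlinarith
    have h10 : (13 / 4 : ℝ) ≤ (13 / 4) / del := by
      rw [le_div_iff₀ hdel]; nlinarith
    have h11 : 5 / del = (13 / 4) / del + 1 / del + (3 / 4) / del := by ring
    have h12 : 0 ≤ (3 / 4 : ℝ) / del := by positivity
    rw [h11]
    linarith
  have key := c3_two (μ := g1 (Co n LB LF)) hw (φ := φ) (Q := Qk n b cB cF s η lam c x S K)
    (Q' := Q0k n b cB cF s η lam c x S K') (CC := CCv n b cB cF s η lam c x S K')
    (M4 := M4v n b cB cF s η lam c x S K') (k2 := RKk n b cB cF s η lam c x S K')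
    (k4 := fun z => 8 * K4v n b cB cF s η lam c x S K' z)
    (q := qkk n b cB cF s η lam c x S K K') (lam := l0) (U := U) (del0 := del) (B := 5 / del)
    (P0 := P0) hφ bQ bC bM4 bR (bcm 8 bK4) bq hφ0 hφ1 (Qk_nonneg S K) (Q0k_nonneg S K')
    (CCv_nonneg S K') (RKk_nonneg S K') (fun z => mul_nonneg (by norm_num) (K4v_nonneg S K' z))
    hl0 hlU hdel hdelU (CCv_le_two hl hη hn S K') (M4v_le hl hη hn S K') (Q0k_le S K K')
    (by positivity) hB
  rw [ex_cmul] at key
  refine key.trans (add_le_add le_rfl (mul_le_mul_of_nonneg_left ?_ hP0))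
  have e1 := ex_qkk_le (b := b) (cB := cB) (cF := cF) (s := s) (c := c) (x := x) hl hη hn S hK
    hU.le
  have i1 := bm_ind bC.meas (U ^ 2)
  have i2 := bm_ind bQ.meas U
  have e2 : exS n b cB cF s η lam c x (fun z => qkk n b cB cF s η lam c x S K K' z ^ 2) ≤
      4 * U * exS n b cB cF s η lam c x (qkk n b cB cF s η lam c x S K K') +
      49 * (exS n b cB cF s η lam c x (ind (U ^ 2) (CCv n b cB cF s η lam c x S K')) +
        exS n b cB cF s η lam c x (ind U (Qk n b cB cF s η lam c x S K))) := by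
    have h := ex_mono hw (bsq bq) ((bcm (4 * U) bq).add (bcm 49 (i1.add i2)))
      (qkk_sq_le (b := b) (cB := cB) (cF := cF) (s := s) (c := c) (x := x) hl hη hη1 hn S K K'
        hU.le)
    rw [ex_add hw (bcm (4 * U) bq) (bcm 49 (i1.add i2)), ex_cmul, ex_cmul,
      ex_add hw i1 i2] at h
    exact h
  unfold NC3
  have e3 := e2.trans (add_le_add (mul_le_mul_of_nonneg_left e1 (show 0 ≤ 4 * U by positivity))
    le_rfl)
  have hc0 : 0 ≤ 36 * (U ^ 2 / del) := by positivity
  have e4 := mul_le_mul_of_nonneg_left (add_le_add (mul_le_mul_of_nonneg_left e3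
    (show (0 : ℝ) ≤ 16 by norm_num)) (le_refl (2 * ex (g1 (Co n LB LF))
      (wS n b cB cF s η lam c x) (RKk n b cB cF s η lam c x S K')))) hc0
  set X1 := exS n b cB cF s η lam c x (fun z => qkk n b cB cF s η lam c x S K K' z ^ 2)
  linarith

end cube

section final

variable {r0 : ℝ} (hl : 0 < lam) (hη : 0 ≤ η) (hη1 : η ≤ 1 / 2) (hs : s ≠ 0) (hx0 : 0 ≤ x)
  (hx1 : x < 1) (hn : 0 < n) (hc : c = s ^ 2 * n * (1 - (1 - x) * r0))
include hl hη hη1 hs hx0 hx1 hn hc

/-- **The last square, tested.** -/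
theorem c3v_le {S1 : Finset (Fin n)} (hS : S ⊆ S1) (hi0 : i0 ∉ S) (hne : (S1 \ S).Nonempty)
    {φ : (Co n LB LF → ℝ) → ℝ} (hφ : H646.Dep (Kset S BL FL) φ) (hφb : BM φ)
    (hφ0 : ∀ z, 0 ≤ φ z) {P0 : ℝ} (hφ1 : ∀ z, φ z ≤ P0) {t wf : ℝ}
    (ht : ∑ l ∈ BL, cB l ^ 2 = t) (hwf : ∑ l ∈ FL, cF l ^ 2 = b ^ 2 * wf)
    (hL : x ^ 2 * (b ^ 2 * (t + wf)) ≤ 1 / 4) {l0 U del : ℝ} (hl0 : 0 < l0) (hlU : l0 ≤ U)
    (hdel : 0 < del) (hdelU : del ≤ U) (hdel1 : del ≤ 1) :
    C3v n b cB cF s η lam c x (1 - (1 - x) * r0) S BL FL i0 φ ≤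
      6 * (P0 * (b ^ 2 * (t * (d0 n b cB cF s η lam c x r0 (Kset S BL FL) (Kset S1 BL FL)
        (S1 \ S).card / √n) ^ 2 +
          wf * H646.d0f n b cB cF s η lam c x r0 (S1 \ S).card ^ 2))) +
      6000000 * (1 + η) ^ 2 * ((2 * b ^ 4 * t ^ 2 + 8 * b ^ 8 * t ^ 4) *
        ((528 * l0 + 16 * del) * exS n b cB cF s η lam c x
          (fun z => φ z * Qv n b cB cF s η lam c x S BL FL z ^ 2) +
        P0 * NC3 U l0 del η
        (exS n b cB cF s η lam c x (Qk n b cB cF s η lam c x S (Kset (insert i0 S) BL FL)) -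
          exS n b cB cF s η lam c x (Qk n b cB cF s η lam c x S (Kset S BL FL)))
        (exS n b cB cF s η lam c x (RKk n b cB cF s η lam c x S (Kset (insert i0 S) BL FL)))
        (exS n b cB cF s η lam c x (K4v n b cB cF s η lam c x S (Kset (insert i0 S) BL FL)))
        (exS n b cB cF s η lam c x (ind l0 (Qk n b cB cF s η lam c x S (Kset S BL FL))))
        (exS n b cB cF s η lam c x
          (ind (U ^ 2) (CCv n b cB cF s η lam c x S (Kset (insert i0 S) BL FL))))
        (exS n b cB cF s η lam c x (ind U (Qk n b cB cF s η lam c x S (Kset S BL FL))))) +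
        P0 * (2 * b ^ 4 * wf ^ 2 * (exS n b cB cF s η lam c x
          (Qk n b cB cF s η lam c x S (Kset S BL FL)) + del) + 8 * b ^ 8 * wf ^ 4 / del)) := by
  have hw : Wt (g1 (Co n LB LF)) (wS n b cB cF s η lam c x) := wtA b cB cF s hl hη c x
  have hG := gmA (n := n) b cB cF s hl hη c
  have hn' : (0 : ℝ) < n := Nat.cast_pos.2 hn
  have hP0 : 0 ≤ P0 := (hφ0 0).trans (hφ1 0)
  have ht0 : 0 ≤ t := by rw [← ht]; exact Finset.sum_nonneg fun _ _ => sq_nonneg _
  set K : Finset (Co n LB LF) := Kset S BL FL with hK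
  set K' : Finset (Co n LB LF) := Kset (insert i0 S) BL FL with hK'
  have hKK : K ⊆ K' := Kset_mono (Finset.subset_insert i0 S) (Finset.Subset.refl _)
    (Finset.Subset.refl _)
  set Q := Qk n b cB cF s η lam c x S K with hQ
  set CC := CCv n b cB cF s η lam c x S K' with hCC
  set M4 := M4v n b cB cF s η lam c x S K' with hM4
  have eQv : Qv n b cB cF s η lam c x S BL FL = Q := rfl
  rw [eQv]
  have bQ : BM Q := bm_Qk hl hη S K
  have dQ : H646.Dep K Q := dep_Qv S BL FL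
  have bC : BM CC := bm_CCv hl hη S K'
  have bM4 : BM M4 := bm_M4v hl hη S K'
  have hQ0 : ∀ z, 0 ≤ Q z := Qk_nonneg S K
  have hM : ∀ j, BM (Mv n b cB cF s η lam c x S BL FL j) := fun j => bm_M hl hη K j
  have hMd : ∀ j, H646.Dep K (Mv n b cB cF s η lam c x S BL FL j) := fun j => dep_cx K
  -- the last square
  set kp := 1 - (1 - x) * r0 with hkp
  set LT : (Co n LB LF → ℝ) → ℝ := fun z => cxS n b cB cF s η lam c x K (fun y =>
      (cxS n b cB cF s η lam c x K' (avS b cB cF s η lam c (fun w => al η w.1 * sp w.2 i0)) y -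
        lc (Rw i0 S BL FL) (cfr i0 b cB cF kp (Mv n b cB cF s η lam c x S BL FL) z) y) ^ 2) z
    with hLT
  have bLT : BM LT := by
    have hR : Rw i0 S BL FL ⊆ K' := by
      rw [hK', ← Rw_union hi0]
      exact Finset.subset_union_right
    have h1 : ∀ j : Fin n, Bd fun ω : ℝ × Xs n => sp ω.2 j := fun j => bm_sp j
    have h2 : Bd fun ω : ℝ × Xs n => al η ω.1 := bm_of_al (n := n) hη
    have h3 : ∀ ω : ℝ × Xs n, (fun ω : ℝ × Xs n => sp ω.2 i0) ω ^ 2 = 1 := fun ω => by
      show sp ω.2 i0 ^ 2 = 1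
      rw [sq]
      exact sp_mul_self ω.2 i0
    exact bm_last (T := S) (M := Mv n b cB cF s η lam c x S BL FL)
      (s := fun j (ω : ℝ × Xs n) => sp ω.2 j)
      (s0 := fun ω : ℝ × Xs n => sp ω.2 i0) (a := fun ω : ℝ × Xs n => al η ω.1)
      hG x (Rw_disj hi0) hKK hR h1 (h1 i0) h3 h2 hM hMd
      (b ^ 2 / n * ∑ l ∈ BL, cB l ^ 2) (∑ l ∈ FL, cF l ^ 2) kp
      (cfr i0 b cB cF kp (Mv n b cB cF s η lam c x S BL FL))
      (fun z ω => ys_cfr b cB cF s η BL FL hi0 kp _ z ω)
      (fun z => sq_cfr b cB cF BL FL hi0 kp _ z)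
  -- the vector of the row
  set DV : (Co n LB LF → ℝ) → ℝ := fun z => ∑ e ∈ Rw i0 S BL FL,
      (cxS n b cB cF s η lam c x K (fun y =>
        cxS n b cB cF s η lam c x K'
          (avS b cB cF s η lam c (fun w => al η w.1 * sp w.2 i0)) y * y e) z -
        cfr i0 b cB cF kp (Mv n b cB cF s η lam c x S BL FL) z e) ^ 2 with hDV
  have bDV : BM DV := by
    have e1 : DV = fun z => b ^ 2 / n * (∑ l ∈ BL, cB l ^ 2) * ∑ j ∈ S,
      (cxS n b cB cF s η lam c x K
        (H615.Th (avS b cB cF s η lam c) x (fun w => al η w.1) (fun w => sp w.2 i0)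
          (fun j w => sp w.2 j) j) z - kp * cxS n b cB cF s η lam c x K
          (avS b cB cF s η lam c (fun w => al η w.1 * sp w.2 j)) z) ^ 2 +
      (∑ l ∈ FL, cF l ^ 2) * (cxS n b cB cF s η lam c x K
        (H615.Tf (avS b cB cF s η lam c) x (fun w => al η w.1) (fun w => sp w.2 i0)) z - kp) ^ 2
      := by
      funext z
      exact dvec_id hl hη hi0 kp z
    have hA : Av (avS (n := n) (LB := LB) (LF := LF) b cB cF s η lam c) := H615.av_gm hG 1
    have h1 : ∀ j : Fin n, Bd fun ω : ℝ × Xs n => sp ω.2 j := fun j => bm_sp j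
    have h2 : Bd fun ω : ℝ × Xs n => al η ω.1 := bm_of_al (n := n) hη
    rw [e1]
    refine BM.add (bcm _ (BM.sum S fun j _ => bsq ((hw.bm_cx K ?_).sub (bcm kp (hM j)))))
      (bcm _ (bsq ((hw.bm_cx K ?_).sub (BM.const kp))))
    · exact bm_Th (s := fun j (ω : ℝ × Xs n) => sp ω.2 j) hA h1 hM h2 (h1 i0) x j
    · exact bm_Tf hA h2 (h1 i0) x
  have hdv := dvec_sk (r0 := r0) hl hη hs hx0 hx1 hc b cB cF BL FL hS hi0 hne hφ hφb hφ0 hφ1
  -- the weights
  set wd : (Co n LB LF → ℝ) → ℝ := fun z => Q z + del with hwd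
  have bwd : BM wd := bQ.add (BM.const del)
  have hwd0 : ∀ z, del ≤ wd z := fun z => by
    have := hQ0 z
    show del ≤ Q z + del
    linarith
  have binv : BM fun z => 1 / wd z := bm_inv bwd.meas hdel hwd0
  have dwd : H646.Dep K wd := fun z z' => by
    show Q (glue K z z') + del = Q z + del
    rw [dQ z z']
  have d1 : H646.Dep K (fun z => φ z * wd z) := H615.Dep.mul hφ dwd
  have d2 : H646.Dep K (fun z => φ z * (1 / wd z)) := H615.Dep.mul hφ (fun z z' => by
    show 1 / wd (glue K z z') = 1 / wd z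
    rw [dwd z z'])
  -- pointwise
  set G : ℝ := 6000000 * (1 + η) ^ 2 with hGd
  have hG0 : 0 ≤ G := by positivity
  have pt : ∀ z, φ z * LT z ≤ 6 * (φ z * DV z) +
      G * ((2 * b ^ 4 * t ^ 2) * (φ z * wd z * cxS n b cB cF s η lam c x K CC z) +
        (8 * b ^ 8 * t ^ 4) * (φ z * (1 / wd z) * cxS n b cB cF s η lam c x K M4 z) +
        ((2 * b ^ 4 * wf ^ 2) * (P0 * wd z) + P0 * (8 * b ^ 8 * wf ^ 4 / del))) := by
    intro z
    have hz : 0 < wd z := lt_of_lt_of_le hdel (hwd0 z)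
    have h := c3z_le (b := b) (s := s) (c := c) (x := x) (cB := cB) (cF := cF) (BL := BL)
      (FL := FL) (i0 := i0) (S := S) hl hη hn hx0 hx1.le hi0 ht hwf hL
      (cfr i0 b cB cF kp (Mv n b cB cF s η lam c x S BL FL) z) hz z
    have h2 := mul_le_mul_of_nonneg_left h (hφ0 z)
    have h3 : φ z * (2 * b ^ 4 * wf ^ 2 * wd z) ≤ P0 * (2 * b ^ 4 * wf ^ 2 * wd z) :=
      mul_le_mul_of_nonneg_right (hφ1 z) (by positivity)
    have h4 : φ z * (8 * b ^ 8 * wf ^ 4 / wd z) ≤ P0 * (8 * b ^ 8 * wf ^ 4 / del) :=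
      mul_le_mul (hφ1 z) (div_le_div_of_nonneg_left (by positivity) hdel (hwd0 z))
        (by positivity) hP0
    have h5 := mul_le_mul_of_nonneg_left (add_le_add h3 h4) hG0
    refine h2.trans ?_
    have e : φ z * (6 * DV z + G * (wd z * (2 * b ^ 4 * t ^ 2 *
          cxS n b cB cF s η lam c x K CC z + 2 * b ^ 4 * wf ^ 2) +
        (8 * b ^ 8 * t ^ 4 * cxS n b cB cF s η lam c x K M4 z +
              8 * b ^ 8 * wf ^ 4) / wd z)) =
        6 * (φ z * DV z) + G * ((2 * b ^ 4 * t ^ 2) *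
          (φ z * wd z * cxS n b cB cF s η lam c x K CC z) +
        (8 * b ^ 8 * t ^ 4) * (φ z * (1 / wd z) * cxS n b cB cF s η lam c x K M4 z)) +
        G * (φ z * (2 * b ^ 4 * wf ^ 2 * wd z) + φ z * (8 * b ^ 8 * wf ^ 4 / wd z)) := by
      field_simp
      ring
    refine (le_of_eq e).trans ?_
    linarith
  -- integrate
  have bcC := hw.bm_cx K bC
  have bcM := hw.bm_cx K bM4
  have b1 : BM fun z => φ z * wd z * cxS n b cB cF s η lam c x K CC z :=
    (hφb.mul bwd).mul bcC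
  have b2 : BM fun z => φ z * (1 / wd z) * cxS n b cB cF s η lam c x K M4 z :=
    (hφb.mul binv).mul bcM
  have b3 : BM fun z => (2 * b ^ 4 * wf ^ 2) * (P0 * wd z) + P0 * (8 * b ^ 8 * wf ^ 4 / del) :=
    (bcm _ (bcm P0 bwd)).add (BM.const _)
  have b4 := ((bcm (2 * b ^ 4 * t ^ 2) b1).add (bcm (8 * b ^ 8 * t ^ 4) b2)).add b3
  have key := ex_mono hw (hφb.mul bLT) ((bcm 6 (hφb.mul bDV)).add (bcm G b4)) pt
  rw [ex_add hw (bcm 6 (hφb.mul bDV)) (bcm G b4), ex_cmul, ex_cmul,
    ex_add hw ((bcm (2 * b ^ 4 * t ^ 2) b1).add (bcm (8 * b ^ 8 * t ^ 4) b2)) b3,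
    ex_add hw (bcm (2 * b ^ 4 * t ^ 2) b1) (bcm (8 * b ^ 8 * t ^ 4) b2), ex_cmul, ex_cmul,
    ex_add hw (bcm _ (bcm P0 bwd)) (BM.const _), ex_cmul, ex_cmul, ex_const hw,
    ex_add hw bQ (BM.const del), ex_const hw] at key
  have s1 : ex (g1 (Co n LB LF)) (wS n b cB cF s η lam c x)
      (fun z => φ z * wd z * cxS n b cB cF s η lam c x K CC z) =
      ex (g1 (Co n LB LF)) (wS n b cB cF s η lam c x) (fun z => φ z * (wd z * CC z)) := by
    have h1 := ex_cx hw d1 (hφb.mul bwd) bC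
    refine h1.trans ?_
    congr 1
    funext z
    ring
  have s2 : ex (g1 (Co n LB LF)) (wS n b cB cF s η lam c x)
      (fun z => φ z * (1 / wd z) * cxS n b cB cF s η lam c x K M4 z) =
      ex (g1 (Co n LB LF)) (wS n b cB cF s η lam c x) (fun z => φ z * (M4 z / wd z)) := by
    have h1 := ex_cx hw d2 (hφb.mul binv) bM4
    refine h1.trans ?_
    congr 1
    funext z
    ring
  have hcube := cube_le (b := b) (cB := cB) (cF := cF) (s := s) (c := c) (x := x) hl hη hη1 hn S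
    hKK hφb hφ0 hφ1 hl0 hlU hdel hdelU hdel1
  have bX1 : BM fun z => φ z * (wd z * CC z) := hφb.mul (bwd.mul bC)
  have bX2 : BM fun z => φ z * (M4 z / wd z) := by
    have e : (fun z => φ z * (M4 z / wd z)) = fun z => φ z * (M4 z * (1 / wd z)) := by
      funext z; ring
    rw [e]
    exact hφb.mul (bM4.mul binv)
  have s3 : ex (g1 (Co n LB LF)) (wS n b cB cF s η lam c x)
      (fun z => φ z * (wd z * CC z)) + ex (g1 (Co n LB LF)) (wS n b cB cF s η lam c x)
      (fun z => φ z * (M4 z / wd z)) = exS n b cB cF s η lam c x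
      (fun z => φ z * ((Q z + del) * CC z + M4 z / (Q z + del))) := by
    rw [← ex_add hw bX1 bX2]
    congr 1
    funext z
    show φ z * ((Q z + del) * CC z) + φ z * (M4 z / (Q z + del)) = _
    ring
  have x1 : 0 ≤ ex (g1 (Co n LB LF)) (wS n b cB cF s η lam c x)
      (fun z => φ z * (wd z * CC z)) := ex_nonneg hw fun z =>
    mul_nonneg (hφ0 z) (mul_nonneg (hdel.le.trans (hwd0 z)) (CCv_nonneg S K' z))
  have x2 : 0 ≤ ex (g1 (Co n LB LF)) (wS n b cB cF s η lam c x)
      (fun z => φ z * (M4 z / wd z)) := ex_nonneg hw fun z =>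
    mul_nonneg (hφ0 z) (div_nonneg (M4v_nonneg S K' z) (hdel.le.trans (hwd0 z)))
  rw [s1, s2] at key
  rw [← s3] at hcube
  set X1 := ex (g1 (Co n LB LF)) (wS n b cB cF s η lam c x) (fun z => φ z * (wd z * CC z))
  set X2 := ex (g1 (Co n LB LF)) (wS n b cB cF s η lam c x) (fun z => φ z * (M4 z / wd z))
  have y1 : 2 * b ^ 4 * t ^ 2 * X1 + 8 * b ^ 8 * t ^ 4 * X2 ≤
      (2 * b ^ 4 * t ^ 2 + 8 * b ^ 8 * t ^ 4) * (X1 + X2) := by
    have z1 : 0 ≤ 2 * b ^ 4 * t ^ 2 * X2 := by positivity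
    have z2 : 0 ≤ 8 * b ^ 8 * t ^ 4 * X1 := by positivity
    nlinarith
  have y2 := y1.trans (mul_le_mul_of_nonneg_left hcube
    (show 0 ≤ 2 * b ^ 4 * t ^ 2 + 8 * b ^ 8 * t ^ 4 by positivity))
  have y3 : 6 * ex (g1 (Co n LB LF)) (wS n b cB cF s η lam c x) (fun z => φ z * DV z) ≤
      6 * (P0 * (b ^ 2 * (t * (d0 n b cB cF s η lam c x r0 K (Kset S1 BL FL)
        (S1 \ S).card / √n) ^ 2 +
          wf * H646.d0f n b cB cF s η lam c x r0 (S1 \ S).card ^ 2))) := by
    refine mul_le_mul_of_nonneg_left (hdv.trans (le_of_eq ?_)) (by norm_num)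
    rw [ht, hwf, div_pow, Real.sq_sqrt hn'.le]
    ring
  have y4 := mul_le_mul_of_nonneg_left (add_le_add y2 (le_refl
    (2 * b ^ 4 * wf ^ 2 * (P0 * (ex (g1 (Co n LB LF)) (wS n b cB cF s η lam c x) Q + del)) +
      P0 * (8 * b ^ 8 * wf ^ 4 / del)))) hG0
  refine key.trans ?_
  refine (add_le_add y3 y4).trans (le_of_eq ?_)
  ring

end final

end Vale.Agent.P146.H317
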