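import Vale.Agent.P146.H317.C3kw
import Vale.Agent.P146.H122.RowUp1

/-!
# P146: the third order number at the typical points, and the first regime

* `c3E`: `H122.C3E`;
* `rowUp1_BR`: the first regime of the upper bound from the number of the big overlaps only.
-/

open MeasureTheory ProbabilityTheory Filter Set

namespace Vale.Agent.P146.H317

open Vale.Agent.P146.H325 hiding cb cf
open Vale.Agent.P146.H347 Vale.Agent.P146.H475 Vale.Agent.P146.H418 Vale.Agent.P146.H320
  Vale.Agent.P146.H470 Vale.Agent.P146.H615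

/-- **The third order number.** -/
theorem c3E {a0 b₁ q A b D : ℝ} (hD : 2 ≤ D) : H122.C3E a0 b₁ q A b D := by
  refine Eventually.of_forall fun n y V al s lam η h T hT u hu m hm hp hrb hbr i0 hi φ P0 hφm
    hφ => ?_
  obtain ⟨f1, f2, f3, f4, f5, f6, f7, f8, f9, f10, f11, f12, f13, f14⟩ := h.facts
  have hn := h.env.n0
  have hy := h.env.y0
  have c4 := log_c 4 (by norm_num)
  have k1 : (n : ℝ) ^ (-(71 * q)) * y ^ 2 ≤ H122.T1 q n y / 4 := by
    unfold H122.T1
    refine le_of_log (by positivity) (by positivity) ?_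
    simp (disch := positivity) only [Real.log_mul, Real.log_rpow, Real.log_pow, Real.log_div]
    push_cast
    linarith
  have k2 : H122.T2 q n y ≤ 1 := by
    unfold H122.T2
    refine le_of_log (by positivity) (by positivity) ?_
    simp (disch := positivity) only [Real.log_mul, Real.log_rpow, Real.log_pow, Real.log_one]
    push_cast
    linarith
  have h4 : (n : ℝ) ^ (-(400 * q)) ≤ (n : ℝ) ^ (-(300 * q)) := by
    refine le_of_log (by positivity) (by positivity) ?_
    simp (disch := positivity) only [Real.log_rpow]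
    linarith
  exact c3_kw h hD (k1.trans hT.1) (hT.2.trans k2) hu hm hp (hrb _ (Or.inr rfl))
    ((hbr _ (Or.inl rfl)).trans h4) hφm (fun x hx => (hφ x hx).1) (fun x hx => (hφ x hx).2) hi

/-- **The first regime of the upper bound**, from the number of the big overlaps. -/
theorem rowUp1_BR {a0 b₁ q A b : ℝ} (hq : 0 < q) (hb : 0 < b) (hA : 1 ≤ A) (ha0 : a0 ≤ 1 / 6)
    (hb₁ : 100 * q < b₁) (hBR : H122.BRnE a0 b₁ q A b) : H122.RowUp1E a0 b₁ q A b :=
  H122.rowUp1E (D := 2) hq hb hA ha0 hb₁ (by norm_num) hBR (c3E le_rfl)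

end Vale.Agent.P146.H317
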