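import Vale.Agent.P146.H317.C3Abs

/-!
# P146: the cube term with the test function at `K` and the overlaps at `K'`

`c3_two_pt`: pointwise bound of `delta CC + M4/delta`, `delta = Q + del0`, where `Q` lives at the
coarser set and `CC, M4, Q', k2, k4, q` at the finer one. `c3_two`: its mean with a test function.
-/

open MeasureTheory

namespace Vale.Agent.P146.H317

open Vale.Agent.P146.H646 Vale.Agent.P146.H615

set_option linter.unusedSectionVars false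

/-- small root, good event. -/
lemma two_small {Q Q' CC M4 k2 k4 q lam U del0 : ℝ} (hQ : 0 ≤ Q) (hQ' : 0 ≤ Q') (hCC : 0 ≤ CC)
    (hk2 : 0 ≤ k2) (hk4 : 0 ≤ k4) (hlamU : lam ≤ U) (hQl : Q ≤ lam)
    (hdel : 0 < del0) (hdelU : del0 ≤ U)
    (h1 : CC ≤ 2 * Q' ^ 2 + 2 * k2) (h2 : M4 ≤ 2 * CC ^ 2 + k4) (h3 : Q' ≤ 2 * Q + 2 * q)
    (hg : CC ≤ U ^ 2) :
    (Q + del0) * CC + M4 / (Q + del0) ≤ (528 * lam + 16 * del0) * Q ^ 2 +
      36 * (U ^ 2 / del0) * (16 * q ^ 2 + 2 * k2) + k4 / del0 := by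
  have hlam : 0 ≤ lam := hQ.trans hQl
  have hU : 0 ≤ U := hlam.trans hlamU
  set E := 16 * q ^ 2 + 2 * k2 with hE
  have hE0 : 0 ≤ E := by positivity
  have hδ : 0 < Q + del0 := by linarith
  -- `CC ≤ 16 Q² + E`
  have h4 : CC ≤ 16 * Q ^ 2 + E := by
    have h5 : Q' ^ 2 ≤ (2 * Q + 2 * q) ^ 2 := pow_le_pow_left₀ hQ' h3 2
    have h6 : (2 * Q + 2 * q) ^ 2 ≤ 8 * Q ^ 2 + 8 * q ^ 2 := by nlinarith [sq_nonneg (Q - q)]
    linarith
  -- `CC² ≤ 256 Q⁴ + 17 U² E`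
  have hQU : Q ^ 2 ≤ U ^ 2 := pow_le_pow_left₀ hQ (hQl.trans hlamU) 2
  have h5 : CC ^ 2 ≤ 256 * Q ^ 4 + 17 * (U ^ 2 * E) := by
    have a1 : CC * CC ≤ CC * (16 * Q ^ 2 + E) := mul_le_mul_of_nonneg_left h4 hCC
    have a2 : CC * (16 * Q ^ 2) ≤ (16 * Q ^ 2 + E) * (16 * Q ^ 2) :=
      mul_le_mul_of_nonneg_right h4 (by positivity)
    have a3 : CC * E ≤ U ^ 2 * E := mul_le_mul_of_nonneg_right hg hE0
    have a4 : Q ^ 2 * E ≤ U ^ 2 * E := mul_le_mul_of_nonneg_right hQU hE0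
    nlinarith
  have e1 : U ^ 2 * E * (1 / del0) = U ^ 2 / del0 * E := by ring
  -- first part
  have p1 : (Q + del0) * CC ≤ (16 * lam + 16 * del0) * Q ^ 2 + 2 * (U ^ 2 / del0 * E) := by
    have a1 : (Q + del0) * CC ≤ (Q + del0) * (16 * Q ^ 2 + E) :=
      mul_le_mul_of_nonneg_left h4 hδ.le
    have a2 : (Q + del0) * (16 * Q ^ 2) ≤ (lam + del0) * (16 * Q ^ 2) :=
      mul_le_mul_of_nonneg_right (by linarith) (by positivity)
    have a3 : (Q + del0) ≤ 2 * (U ^ 2 / del0) := by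
      have b1 : U * del0 ≤ U * U := mul_le_mul_of_nonneg_left hdelU hU
      have b2 : U ≤ U ^ 2 / del0 := by
        rw [le_div_iff₀ hdel]; nlinarith
      linarith
    have a4 : (Q + del0) * E ≤ 2 * (U ^ 2 / del0) * E := mul_le_mul_of_nonneg_right a3 hE0
    nlinarith
  -- second part
  have p2 : M4 / (Q + del0) ≤ 512 * lam * Q ^ 2 + 34 * (U ^ 2 / del0 * E) + k4 / del0 := by
    have a0 : M4 ≤ 512 * Q ^ 4 + (34 * (U ^ 2 * E) + k4) := by linarith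
    have a1 : M4 / (Q + del0) ≤ (512 * Q ^ 4 + (34 * (U ^ 2 * E) + k4)) / (Q + del0) :=
      div_le_div_of_nonneg_right a0 hδ.le
    have a2 : 512 * Q ^ 4 / (Q + del0) ≤ 512 * lam * Q ^ 2 := by
      rw [div_le_iff₀ hδ]
      have b1 : Q ^ 2 * Q ≤ Q ^ 2 * lam := mul_le_mul_of_nonneg_left hQl (sq_nonneg _)
      have b2 : Q ^ 2 * Q * Q ≤ Q ^ 2 * lam * Q := mul_le_mul_of_nonneg_right b1 hQ
      have b3 : 0 ≤ lam * Q ^ 2 * del0 := by positivity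
      nlinarith
    have a3 : (34 * (U ^ 2 * E) + k4) / (Q + del0) ≤ (34 * (U ^ 2 * E) + k4) / del0 :=
      div_le_div_of_nonneg_left (by positivity) hdel (by linarith)
    have a4 : (34 * (U ^ 2 * E) + k4) / del0 = 34 * (U ^ 2 / del0 * E) + k4 / del0 := by
      field_simp
    rw [add_div] at a1
    rw [a4] at a3
    linarith
  have e2 : 36 * (U ^ 2 / del0) * E = 2 * (U ^ 2 / del0 * E) + 34 * (U ^ 2 / del0 * E) := by ring
  rw [e2]
  nlinarith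

/-- big root, good event. -/
lemma two_big {Q CC M4 k4 lam U del0 : ℝ} (hCC : 0 ≤ CC) (hk4 : 0 ≤ k4)
    (hlam : 0 < lam) (hQl : lam < Q) (hQU : Q ≤ U) (hdel : 0 < del0) (hdelU : del0 ≤ U)
    (h2 : M4 ≤ 2 * CC ^ 2 + k4) (hg : CC ≤ U ^ 2) :
    (Q + del0) * CC + M4 / (Q + del0) ≤ 2 * U ^ 3 + 2 * U ^ 4 / lam + k4 / del0 := by
  have hU : 0 ≤ U := by linarith
  have hδ : 0 < Q + del0 := by linarith
  have a1 : (Q + del0) * CC ≤ (2 * U) * U ^ 2 :=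
    mul_le_mul (by linarith) hg hCC (by linarith)
  have a2 : CC ^ 2 ≤ (U ^ 2) ^ 2 := pow_le_pow_left₀ hCC hg 2
  have a3 : M4 / (Q + del0) ≤ (2 * U ^ 4 + k4) / (Q + del0) := by
    refine div_le_div_of_nonneg_right ?_ hδ.le
    nlinarith
  have a4 : 2 * U ^ 4 / (Q + del0) ≤ 2 * U ^ 4 / lam :=
    div_le_div_of_nonneg_left (by positivity) hlam (by linarith)
  have a5 : k4 / (Q + del0) ≤ k4 / del0 := div_le_div_of_nonneg_left hk4 hdel (by linarith)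
  rw [add_div] at a3
  nlinarith

/-- **Pointwise.** -/
theorem c3_two_pt {Q Q' CC M4 k2 k4 q lam U del0 B : ℝ} (hQ : 0 ≤ Q) (hQ' : 0 ≤ Q')
    (hCC : 0 ≤ CC) (hk2 : 0 ≤ k2) (hk4 : 0 ≤ k4) (hlam : 0 < lam) (hlamU : lam ≤ U)
    (hdel : 0 < del0) (hdelU : del0 ≤ U)
    (h1 : CC ≤ 2 * Q' ^ 2 + 2 * k2) (h2 : M4 ≤ 2 * CC ^ 2 + k4) (h3 : Q' ≤ 2 * Q + 2 * q)
    (hB : (Q + del0) * CC + M4 / (Q + del0) ≤ B) :
    (Q + del0) * CC + M4 / (Q + del0) ≤ (528 * lam + 16 * del0) * Q ^ 2 +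
      (36 * (U ^ 2 / del0) * (16 * q ^ 2 + 2 * k2) + k4 / del0 +
      (2 * U ^ 3 + 2 * U ^ 4 / lam) * (if lam < Q then 1 else 0) +
      |B| * (if U ^ 2 < CC then 1 else 0) + |B| * (if U < Q then 1 else 0)) := by
  have hU : 0 < U := by linarith
  have n1 : 0 ≤ (528 * lam + 16 * del0) * Q ^ 2 := by positivity
  have n2 : 0 ≤ 36 * (U ^ 2 / del0) * (16 * q ^ 2 + 2 * k2) := by positivity
  have n3 : 0 ≤ k4 / del0 := by positivity
  have n4 : 0 ≤ (2 * U ^ 3 + 2 * U ^ 4 / lam) * (if lam < Q then (1 : ℝ) else 0) := by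
    refine mul_nonneg (by positivity) ?_
    split_ifs <;> norm_num
  have n5 : ∀ p : Prop, ∀ [Decidable p], 0 ≤ |B| * (if p then (1 : ℝ) else 0) := by
    intro p _
    refine mul_nonneg (abs_nonneg _) ?_
    split_ifs <;> norm_num
  have n6 := n5 (U ^ 2 < CC)
  have n7 := n5 (U < Q)
  by_cases hT : U ^ 2 < CC
  · rw [if_pos hT] at n6 ⊢
    linarith [le_abs_self B]
  by_cases hT' : U < Q
  · rw [if_pos hT'] at n7 ⊢
    linarith [le_abs_self B]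
  by_cases hL : lam < Q
  · have h5 := two_big hCC hk4 hlam hL (not_lt.1 hT') hdel hdelU h2 (not_lt.1 hT)
    rw [if_pos hL] at n4 ⊢
    linarith
  · have h5 := two_small hQ hQ' hCC hk2 hk4 hlamU (not_lt.1 hL) hdel hdelU h1 h2 h3
      (not_lt.1 hT)
    linarith

variable {κ : Type*} [Fintype κ] [DecidableEq κ] {μ : κ → Measure ℝ}
  [∀ e, IsProbabilityMeasure (μ e)] {w Ψ Φ : (κ → ℝ) → ℝ} {K : Finset κ}

lemma bm_inv {f : (κ → ℝ) → ℝ} (hf : Measurable f) {c : ℝ} (hc : 0 < c) (h : ∀ z, c ≤ f z) :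
    BM (fun z => 1 / f z) := by
  refine ⟨measurable_const.div hf, 1 / c, fun z => ?_⟩
  have h1 : 0 < f z := lt_of_lt_of_le hc (h z)
  rw [abs_of_nonneg (by positivity)]
  exact one_div_le_one_div_of_le hc (h z)

/-- **The cube term, test function at `K`, overlaps at `K'`.** -/
theorem c3_two (hw : Wt μ w) {φ Q Q' CC M4 k2 k4 q : (κ → ℝ) → ℝ} {lam U del0 B P0 : ℝ}
    (hφ : BM φ) (hQb : BM Q) (hCCb : BM CC) (hM4b : BM M4) (hk2b : BM k2) (hk4b : BM k4)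
    (hqb : BM q) (hφ0 : ∀ z, 0 ≤ φ z) (hφ1 : ∀ z, φ z ≤ P0)
    (hQ : ∀ z, 0 ≤ Q z) (hQ' : ∀ z, 0 ≤ Q' z) (hCC : ∀ z, 0 ≤ CC z) (hk2 : ∀ z, 0 ≤ k2 z)
    (hk4 : ∀ z, 0 ≤ k4 z) (hlam : 0 < lam) (hlamU : lam ≤ U)
    (hdel : 0 < del0) (hdelU : del0 ≤ U)
    (h1 : ∀ z, CC z ≤ 2 * Q' z ^ 2 + 2 * k2 z) (h2 : ∀ z, M4 z ≤ 2 * CC z ^ 2 + k4 z)
    (h3 : ∀ z, Q' z ≤ 2 * Q z + 2 * q z) (hB0 : 0 ≤ B)
    (hB : ∀ z, (Q z + del0) * CC z + M4 z / (Q z + del0) ≤ B) :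
    ex μ w (fun z => φ z * ((Q z + del0) * CC z + M4 z / (Q z + del0))) ≤
      (528 * lam + 16 * del0) * ex μ w (fun z => φ z * Q z ^ 2) +
      P0 * (36 * (U ^ 2 / del0) * (16 * ex μ w (fun z => q z ^ 2) + 2 * ex μ w k2) +
        ex μ w k4 / del0 + (2 * U ^ 3 + 2 * U ^ 4 / lam) * ex μ w (ind lam Q) +
        B * ex μ w (ind (U ^ 2) CC) + B * ex μ w (ind U Q)) := by
  have i1 := bm_ind hQb.meas lam
  have i2 := bm_ind hCCb.meas (U ^ 2)
  have i3 := bm_ind hQb.meas U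
  have hinv : BM fun z => 1 / (Q z + del0) :=
    bm_inv (hQb.add (BM.const del0)).meas hdel fun z => by have := hQ z; linarith
  have bL : BM fun z => φ z * ((Q z + del0) * CC z + M4 z / (Q z + del0)) := by
    have e : (fun z => φ z * ((Q z + del0) * CC z + M4 z / (Q z + del0))) =
        fun z => φ z * ((Q z + del0) * CC z + M4 z * (1 / (Q z + del0))) := by
      funext z; ring
    rw [e]
    exact hφ.mul (((hQb.add (BM.const del0)).mul hCCb).add (hM4b.mul hinv))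
  have b1 : BM fun z => (528 * lam + 16 * del0) * (φ z * Q z ^ 2) :=
    bcm _ (hφ.mul (bsq hQb))
  have b2 : BM fun z => (576 * (U ^ 2 / del0)) * q z ^ 2 := bcm _ (bsq hqb)
  have b2' : BM fun z => (72 * (U ^ 2 / del0)) * k2 z := bcm _ hk2b
  have b3 : BM fun z => (1 / del0) * k4 z := bcm _ hk4b
  have b4 : BM fun z => (2 * U ^ 3 + 2 * U ^ 4 / lam) * ind lam Q z := bcm _ i1
  have b5 : BM fun z => B * ind (U ^ 2) CC z := bcm _ i2
  have b6 : BM fun z => B * ind U Q z := bcm _ i3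
  have c1 := b2.add b2'
  have c2 := c1.add b3
  have c3 := c2.add b4
  have c4 := c3.add b5
  have c5 := c4.add b6
  have hmain : ∀ z, φ z * ((Q z + del0) * CC z + M4 z / (Q z + del0)) ≤
      (528 * lam + 16 * del0) * (φ z * Q z ^ 2) +
      P0 * ((576 * (U ^ 2 / del0)) * q z ^ 2 + (72 * (U ^ 2 / del0)) * k2 z +
        (1 / del0) * k4 z + (2 * U ^ 3 + 2 * U ^ 4 / lam) * ind lam Q z +
        B * ind (U ^ 2) CC z + B * ind U Q z) := by
    intro z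
    have h := c3_two_pt (hQ z) (hQ' z) (hCC z) (hk2 z) (hk4 z) hlam hlamU hdel hdelU
      (h1 z) (h2 z) (h3 z) (hB z)
    rw [abs_of_nonneg hB0] at h
    have h5 := mul_le_mul_of_nonneg_left h (hφ0 z)
    have hU : 0 < U := by linarith
    have n1 : 0 ≤ (576 * (U ^ 2 / del0)) * q z ^ 2 := by positivity
    have n2 : 0 ≤ (72 * (U ^ 2 / del0)) * k2 z := mul_nonneg (by positivity) (hk2 z)
    have n3 : 0 ≤ (1 / del0) * k4 z := mul_nonneg (by positivity) (hk4 z)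
    have n4 : 0 ≤ (2 * U ^ 3 + 2 * U ^ 4 / lam) * ind lam Q z :=
      mul_nonneg (by positivity) (ind_nonneg _ _ _)
    have n5 : 0 ≤ B * ind (U ^ 2) CC z := mul_nonneg hB0 (ind_nonneg _ _ _)
    have n6 : 0 ≤ B * ind U Q z := mul_nonneg hB0 (ind_nonneg _ _ _)
    have n7 := mul_le_mul_of_nonneg_right (hφ1 z) (show 0 ≤ (576 * (U ^ 2 / del0)) * q z ^ 2 +
      (72 * (U ^ 2 / del0)) * k2 z + (1 / del0) * k4 z +
      (2 * U ^ 3 + 2 * U ^ 4 / lam) * ind lam Q z + B * ind (U ^ 2) CC z + B * ind U Q z by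
        linarith)
    have e1 : 36 * (U ^ 2 / del0) * (16 * q z ^ 2 + 2 * k2 z) + k4 z / del0 =
        (576 * (U ^ 2 / del0)) * q z ^ 2 + (72 * (U ^ 2 / del0)) * k2 z + (1 / del0) * k4 z := by
      ring
    rw [e1] at h5
    unfold ind at n7 ⊢
    linarith
  have h6 := ex_mono hw bL (b1.add (bcm P0 c5)) hmain
  rw [ex_add hw b1 (bcm P0 c5), ex_cmul, ex_cmul P0, ex_add hw c4 b6, ex_add hw c3 b5,
    ex_add hw c2 b4, ex_add hw c1 b3, ex_add hw b2 b2', ex_cmul, ex_cmul, ex_cmul, ex_cmul,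
    ex_cmul, ex_cmul] at h6
  have e2 : P0 * (36 * (U ^ 2 / del0) * (16 * ex μ w (fun z => q z ^ 2) + 2 * ex μ w k2) +
        ex μ w k4 / del0 + (2 * U ^ 3 + 2 * U ^ 4 / lam) * ex μ w (ind lam Q) +
        B * ex μ w (ind (U ^ 2) CC) + B * ex μ w (ind U Q)) =
      P0 * (576 * (U ^ 2 / del0) * ex μ w (fun z => q z ^ 2) +
        72 * (U ^ 2 / del0) * ex μ w k2 + 1 / del0 * ex μ w k4 +
        (2 * U ^ 3 + 2 * U ^ 4 / lam) * ex μ w (ind lam Q) +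
        B * ex μ w (ind (U ^ 2) CC) + B * ex μ w (ind U Q)) := by ring
  rw [e2]
  exact h6

end Vale.Agent.P146.H317
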