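import Vale.Agent.P146.H980.C3Main
import Vale.Agent.P146.H347.Mod6
import Vale.Agent.P146.H412.K4
import Vale.Agent.P146.H615.Point
import Vale.Agent.P146.H317.Dvec
import Vale.Agent.P146.H317.C3Two

/-!
# P146: the last square at the modulated SK system

`c3z_le`: pointwise in the frozen coordinates, the conditional mean of the last square is at most
`6 |D - u|² + 6000000 (1+η)² (δ E r2 + E r4 / δ)`, with the moments of the row written through
the second and fourth moments of the overlap on `S`.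
-/

open MeasureTheory ProbabilityTheory

namespace Vale.Agent.P146.H317

open Vale.Agent.P157.Lv Vale.Agent.P146.H196 Vale.Agent.P146.H646 Vale.Agent.P146.H615
  Vale.Agent.P146.H347 Vale.Agent.P146.H475 Vale.Agent.P146.H816 Vale.Agent.P146.H325
  Vale.Agent.P146.H161 Vale.Agent.P146.H412

set_option linter.unusedSectionVars false

variable {n : ℕ} {LB LF : Type} [Fintype LB] [DecidableEq LB] [Fintype LF] [DecidableEq LF]

/-- the root functional on functions of the spins -/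
noncomputable def LA (n : ℕ) (b : ℝ) (cB : LB → ℝ) (cF : LF → ℝ) (s η lam c x : ℝ)
    (K : Finset (Co n LB LF)) (z : Co n LB LF → ℝ) (f : Xs n → ℝ) : ℝ :=
  cxS n b cB cF s η lam c x K (avS b cB cF s η lam c (fun w => f w.2)) z

/-- the second moment of the overlap on `S` -/
noncomputable def CCv (n : ℕ) (b : ℝ) (cB : LB → ℝ) (cF : LF → ℝ) (s η lam c x : ℝ)
    (S : Finset (Fin n)) (K : Finset (Co n LB LF)) (z : Co n LB LF → ℝ) : ℝ :=
  m2L S (LA n b cB cF s η lam c x K z) / (n : ℝ) ^ 2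

/-- the fourth moment of the overlap on `S` -/
noncomputable def M4v (n : ℕ) (b : ℝ) (cB : LB → ℝ) (cF : LF → ℝ) (s η lam c x : ℝ)
    (S : Finset (Fin n)) (K : Finset (Co n LB LF)) (z : Co n LB LF → ℝ) : ℝ :=
  m4L S (LA n b cB cF s η lam c x K z) / (n : ℝ) ^ 4

/-- the covariances of the pairs inside `S` -/
noncomputable def K4v (n : ℕ) (b : ℝ) (cB : LB → ℝ) (cF : LF → ℝ) (s η lam c x : ℝ)
    (S : Finset (Fin n)) (K : Finset (Co n LB LF)) (z : Co n LB LF → ℝ) : ℝ :=
  k4L S (LA n b cB cF s η lam c x K z) / (n : ℝ) ^ 4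

variable {b s η lam c x : ℝ} {cB : LB → ℝ} {cF : LF → ℝ} {BL : Finset LB} {FL : Finset LF}
  {i0 : Fin n} {S : Finset (Fin n)}

section

variable (hl : 0 < lam) (hη : 0 ≤ η)
include hl hη

lemma LA_one (K : Finset (Co n LB LF)) (z : Co n LB LF → ℝ) :
    LA n b cB cF s η lam c x K z (fun _ => 1) = 1 := by
  have hG := gmA (n := n) b cB cF s hl hη c
  have hw := H347.wt hG 1 x
  have e : avS b cB cF s η lam c (fun _ : ℝ × Xs n => (1 : ℝ)) = fun _ => 1 := by
    funext u; exact hG.av_one 1 u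
  show cxS n b cB cF s η lam c x K (avS b cB cF s η lam c (fun _ : ℝ × Xs n => (1 : ℝ))) z = 1
  rw [e]
  exact H646.cx_one hw z

lemma bm_LA (K : Finset (Co n LB LF)) (f : Xs n → ℝ) :
    BM (fun z => LA n b cB cF s η lam c x K z f) := by
  have := dmx n
  have hG := gmA (n := n) b cB cF s hl hη c
  have hw := H347.wt hG 1 x
  have hf : Bm (fun w : ℝ × Xs n => f w.2) := by
    refine Bm.of (C := ∑ σ, |f σ|) ((measurable_of_finite f).comp measurable_snd) fun w => ?_
    exact Finset.single_le_sum (f := fun σ => |f σ|) (fun _ _ => abs_nonneg _)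
      (Finset.mem_univ w.2)
  exact hw.bm_cx K (H347.bm hG 1 hf)

lemma m2_eq (K : Finset (Co n LB LF)) (z : Co n LB LF → ℝ) :
    m2L S (LA n b cB cF s η lam c x K z) = mo S 2 (rA b cB cF s η lam c x K z) := by
  rw [← mo_two_cx b cB cF s hl hη c x K S z]
  rfl

lemma m4_eq (K : Finset (Co n LB LF)) (z : Co n LB LF → ℝ) :
    m4L S (LA n b cB cF s η lam c x K z) = mo S 4 (rA b cB cF s η lam c x K z) := by
  rw [← mo_four_cx b cB cF s hl hη c x K S z]
  unfold m4L LA
  refine Finset.sum_congr rfl fun i _ => Finset.sum_congr rfl fun j _ =>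
    Finset.sum_congr rfl fun k _ => Finset.sum_congr rfl fun l _ => ?_
  have e : (fun w : ℝ × Xs n => (fun σ : Xs n => sp σ i * sp σ j * (sp σ k * sp σ l)) w.2) =
      fun w => sp w.2 i * sp w.2 j * sp w.2 k * sp w.2 l := by
    funext w
    ring
  rw [e]

lemma bm_CCv (S : Finset (Fin n)) (K : Finset (Co n LB LF)) :
    BM (CCv n b cB cF s η lam c x S K) := by
  have h : BM (fun z => ((n : ℝ) ^ 2)⁻¹ * m2L S (LA n b cB cF s η lam c x K z)) :=
    bcm _ (BM.sum S fun i _ => BM.sum S fun j _ => bsq (bm_LA hl hη K _))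
  have e : (fun z => ((n : ℝ) ^ 2)⁻¹ * m2L S (LA n b cB cF s η lam c x K z)) =
      CCv n b cB cF s η lam c x S K := by
    funext z
    unfold CCv
    rw [div_eq_inv_mul]
  rwa [e] at h

lemma bm_M4v (S : Finset (Fin n)) (K : Finset (Co n LB LF)) :
    BM (M4v n b cB cF s η lam c x S K) := by
  have h : BM (fun z => ((n : ℝ) ^ 4)⁻¹ * m4L S (LA n b cB cF s η lam c x K z)) :=
    bcm _ (BM.sum S fun i _ => BM.sum S fun j _ => BM.sum S fun k _ => BM.sum S fun l _ =>
      bsq (bm_LA hl hη K _))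
  have e : (fun z => ((n : ℝ) ^ 4)⁻¹ * m4L S (LA n b cB cF s η lam c x K z)) =
      M4v n b cB cF s η lam c x S K := by
    funext z
    unfold M4v
    rw [div_eq_inv_mul]
  rwa [e] at h

lemma bm_K4v (S : Finset (Fin n)) (K : Finset (Co n LB LF)) :
    BM (K4v n b cB cF s η lam c x S K) := by
  have h : BM (fun z => ((n : ℝ) ^ 4)⁻¹ * k4L S (LA n b cB cF s η lam c x K z)) :=
    bcm _ (BM.sum (Pin S) fun p _ => BM.sum (Pin S) fun q _ =>
      bsq ((bm_LA hl hη K _).sub ((bm_LA hl hη K _).mul (bm_LA hl hη K _))))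
  have e : (fun z => ((n : ℝ) ^ 4)⁻¹ * k4L S (LA n b cB cF s η lam c x K z)) =
      K4v n b cB cF s η lam c x S K := by
    funext z
    unfold K4v
    rw [div_eq_inv_mul]
  rwa [e] at h

omit hl hη in
lemma CCv_nonneg (S : Finset (Fin n)) (K : Finset (Co n LB LF)) (z : Co n LB LF → ℝ) :
    0 ≤ CCv n b cB cF s η lam c x S K z := div_nonneg m2L_nonneg (by positivity)

omit hl hη in
lemma M4v_nonneg (S : Finset (Fin n)) (K : Finset (Co n LB LF)) (z : Co n LB LF → ℝ) :
    0 ≤ M4v n b cB cF s η lam c x S K z := div_nonneg m4L_nonneg (by positivity)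

omit hl hη in
lemma K4v_nonneg (S : Finset (Fin n)) (K : Finset (Co n LB LF)) (z : Co n LB LF → ℝ) :
    0 ≤ K4v n b cB cF s η lam c x S K z := div_nonneg k4L_nonneg (by positivity)

/-- the overlap is at most one -/
lemma mo_le (S : Finset (Fin n)) (r : ℕ) (hr : Even r) (K : Finset (Co n LB LF))
    (z : Co n LB LF → ℝ) : mo S r (rA b cB cF s η lam c x K z) ≤ (n : ℝ) ^ r := by
  have h0 := rA_nonneg (s := s) b cB cF hl hη c x K z
  have h1 := rA_sum (s := s) b cB cF hl hη c x K z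
  have h2 : mo S r (rA b cB cF s η lam c x K z) ≤
      E2 (rA b cB cF s η lam c x K z) (fun _ _ => (n : ℝ) ^ r * 1) := by
    refine E2_mono h0 fun σ σ' => ?_
    rw [mul_one]
    have h3 := abs_ov_le S σ σ'
    have h4 : (S.card : ℝ) ≤ n := by
      have := Finset.card_le_univ S
      rw [Fintype.card_fin] at this
      exact_mod_cast this
    calc ov S σ σ' ^ r = |ov S σ σ'| ^ r := (hr.pow_abs _).symm
      _ ≤ (n : ℝ) ^ r := pow_le_pow_left₀ (abs_nonneg _) (h3.trans h4) r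
  rw [E2_cmul, E2_one h1, mul_one] at h2
  exact h2

lemma CCv_le_one (hn : 0 < n) (S : Finset (Fin n)) (K : Finset (Co n LB LF))
    (z : Co n LB LF → ℝ) : CCv n b cB cF s η lam c x S K z ≤ 1 := by
  have hn' : (0 : ℝ) < n := Nat.cast_pos.2 hn
  unfold CCv
  rw [div_le_one (by positivity), m2_eq hl hη]
  exact mo_le hl hη S 2 (by decide) K z

lemma M4v_le_one (hn : 0 < n) (S : Finset (Fin n)) (K : Finset (Co n LB LF))
    (z : Co n LB LF → ℝ) : M4v n b cB cF s η lam c x S K z ≤ 1 := by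
  have hn' : (0 : ℝ) < n := Nat.cast_pos.2 hn
  unfold M4v
  rw [div_le_one (by positivity), m4_eq hl hη]
  exact mo_le hl hη S 4 (by decide) K z

lemma M4v_le (hn : 0 < n) (S : Finset (Fin n)) (K : Finset (Co n LB LF))
    (z : Co n LB LF → ℝ) : M4v n b cB cF s η lam c x S K z ≤
      2 * CCv n b cB cF s η lam c x S K z ^ 2 + 8 * K4v n b cB cF s η lam c x S K z := by
  have hn' : (0 : ℝ) < n := Nat.cast_pos.2 hn
  have h := m4L_le_two (S := S) (L := LA n b cB cF s η lam c x K z) (LA_one hl hη K z)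
  unfold M4v CCv K4v
  rw [div_le_iff₀ (by positivity)]
  have e : (2 * (m2L S (LA n b cB cF s η lam c x K z) / (n : ℝ) ^ 2) ^ 2 +
      8 * (k4L S (LA n b cB cF s η lam c x K z) / (n : ℝ) ^ 4)) * (n : ℝ) ^ 4 =
      2 * m2L S (LA n b cB cF s η lam c x K z) ^ 2 +
        8 * k4L S (LA n b cB cF s η lam c x K z) := by
    field_simp
  rw [e]
  exact h

/-- the sum over all coordinates of the second moments of `H980` is the sum over the row -/
lemma q2_eq (K : Finset (Co n LB LF)) (z : Co n LB LF → ℝ) :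
    H980.q2 (muA (Xs n) lam η c) 1 x (Sm b cB cF s η) K (Rw i0 S BL FL) z =
    ∑ e ∈ Rw i0 S BL FL, ∑ f ∈ Rw i0 S BL FL,
      cx (g1 _) K (Zxm (muA (Xs n) lam η c) 1 (Sm b cB cF s η) x)
      (avm (muA (Xs n) lam η c) 1 (Sm b cB cF s η)
        (fun w => Sm b cB cF s η e w * Sm b cB cF s η f w)) z ^ 2 := by
  have hG := gmA (n := n) b cB cF s hl hη c
  have hw := H347.wt hG 1 x
  set R := Rw i0 S BL FL with hR
  have h0 : ∀ h : ℝ × Xs n → ℝ, (∀ w, h w = 0) →
      cx (H487.gs (Co n LB LF)) K (Zxm (muA (Xs n) lam η c) 1 (Sm b cB cF s η) x)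
        (avm (muA (Xs n) lam η c) 1 (Sm b cB cF s η) h) z = 0 := by
    intro h hh
    have e1 : h = fun _ => (0 : ℝ) * 1 := by funext w; rw [hh w, zero_mul]
    have e2 : avm (muA (Xs n) lam η c) 1 (Sm b cB cF s η) (fun w => (0 : ℝ) * 1) =
        fun _ => (0 : ℝ) := by
      funext u
      rw [H196.av_mul]
      simp
    rw [e1, e2]
    exact cx_dep hw (Q := fun _ => 0) (fun _ _ => rfl) z
  unfold H980.q2
  rw [← Finset.sum_subset (Finset.subset_univ R)]
  · refine Finset.sum_congr rfl fun e he => ?_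
    rw [← Finset.sum_subset (Finset.subset_univ R)]
    · refine Finset.sum_congr rfl fun f hf => ?_
      have e1 : (fun s' : ℝ × Xs n => H980.Sr R 1 (Sm b cB cF s η) e s' *
          H980.Sr R 1 (Sm b cB cF s η) f s') =
          fun w => Sm b cB cF s η e w * Sm b cB cF s η f w := by
        funext w
        unfold H980.Sr
        rw [if_pos he, if_pos hf, one_mul, one_mul]
      rw [e1]
    · intro f _ hf
      rw [h0 _ fun w => by unfold H980.Sr; rw [if_neg hf, mul_zero]]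
      norm_num
  · intro e _ he
    refine Finset.sum_eq_zero fun f _ => ?_
    rw [h0 _ fun w => by unfold H980.Sr; rw [if_neg he, zero_mul]]
    norm_num

lemma q4_eq (K : Finset (Co n LB LF)) (z : Co n LB LF → ℝ) :
    H980.q4 (muA (Xs n) lam η c) 1 x (Sm b cB cF s η) K (Rw i0 S BL FL) z =
    ∑ e ∈ Rw i0 S BL FL, ∑ f ∈ Rw i0 S BL FL, ∑ g ∈ Rw i0 S BL FL, ∑ h ∈ Rw i0 S BL FL,
      cx (g1 _) K (Zxm (muA (Xs n) lam η c) 1 (Sm b cB cF s η) x)
      (avm (muA (Xs n) lam η c) 1 (Sm b cB cF s η)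
        (fun w => Sm b cB cF s η e w * Sm b cB cF s η f w * Sm b cB cF s η g w *
          Sm b cB cF s η h w)) z ^ 2 := by
  have hG := gmA (n := n) b cB cF s hl hη c
  have hw := H347.wt hG 1 x
  set R := Rw i0 S BL FL with hR
  have h0 : ∀ h : ℝ × Xs n → ℝ, (∀ w, h w = 0) →
      cx (H487.gs (Co n LB LF)) K (Zxm (muA (Xs n) lam η c) 1 (Sm b cB cF s η) x)
        (avm (muA (Xs n) lam η c) 1 (Sm b cB cF s η) h) z ^ 2 = 0 := by
    intro h hh
    have e1 : h = fun _ => (0 : ℝ) * 1 := by funext w; rw [hh w, zero_mul]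
    have e2 : avm (muA (Xs n) lam η c) 1 (Sm b cB cF s η) (fun w => (0 : ℝ) * 1) =
        fun _ => (0 : ℝ) := by
      funext u
      rw [H196.av_mul]
      simp
    have e3 := cx_dep hw (K := K) (Q := fun _ => 0) (fun _ _ => rfl) z
    rw [e1, e2]
    have e4 : cx (H487.gs (Co n LB LF)) K (Zxm (muA (Xs n) lam η c) 1 (Sm b cB cF s η) x)
      (fun _ => (0 : ℝ)) z = 0 := e3
    rw [e4]
    norm_num
  unfold H980.q4
  rw [← Finset.sum_subset (Finset.subset_univ R)]
  · refine Finset.sum_congr rfl fun e he => ?_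
    rw [← Finset.sum_subset (Finset.subset_univ R)]
    · refine Finset.sum_congr rfl fun f hf => ?_
      rw [← Finset.sum_subset (Finset.subset_univ R)]
      · refine Finset.sum_congr rfl fun g hg => ?_
        rw [← Finset.sum_subset (Finset.subset_univ R)]
        · refine Finset.sum_congr rfl fun h hh => ?_
          have e1 : (fun s' : ℝ × Xs n => H980.Sr R 1 (Sm b cB cF s η) e s' *
              H980.Sr R 1 (Sm b cB cF s η) f s' * H980.Sr R 1 (Sm b cB cF s η) g s' *
              H980.Sr R 1 (Sm b cB cF s η) h s') =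
              fun w => Sm b cB cF s η e w * Sm b cB cF s η f w * Sm b cB cF s η g w *
                Sm b cB cF s η h w := by
            funext w
            unfold H980.Sr
            rw [if_pos he, if_pos hf, if_pos hg, if_pos hh, one_mul, one_mul, one_mul, one_mul]
          rw [e1]
        · intro h _ hh
          exact h0 _ fun w => by unfold H980.Sr; rw [if_neg hh, mul_zero]
      · intro g _ hg
        refine Finset.sum_eq_zero fun h _ => ?_
        exact h0 _ fun w => by unfold H980.Sr; rw [if_neg hg, mul_zero, zero_mul]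
    · intro f _ hf
      refine Finset.sum_eq_zero fun g _ => Finset.sum_eq_zero fun h _ => ?_
      exact h0 _ fun w => by unfold H980.Sr; rw [if_neg hf, mul_zero, zero_mul, zero_mul]
  · intro e _ he
    refine Finset.sum_eq_zero fun f _ => Finset.sum_eq_zero fun g _ =>
      Finset.sum_eq_zero fun h _ => ?_
    exact h0 _ fun w => by unfold H980.Sr; rw [if_neg he, zero_mul, zero_mul, zero_mul]

/-- the second moment of the row through the overlap -/
lemma q2_le (hn : 0 < n) (K : Finset (Co n LB LF)) (hi0 : i0 ∉ S) {t wf : ℝ}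
    (ht : ∑ l ∈ BL, cB l ^ 2 = t) (hwf : ∑ l ∈ FL, cF l ^ 2 = b ^ 2 * wf)
    (z : Co n LB LF → ℝ) :
    H980.q2 (muA (Xs n) lam η c) 1 x (Sm b cB cF s η) K (Rw i0 S BL FL) z ≤
      2 * b ^ 4 * t ^ 2 * CCv n b cB cF s η lam c x S K z + 2 * b ^ 4 * wf ^ 2 := by
  have hn' : (0 : ℝ) < n := Nat.cast_pos.2 hn
  rw [q2_eq hl hη K z]
  refine (r2_Rw_le b cB cF s hl hη c x K hi0 BL FL z).trans (le_of_eq ?_)
  rw [ht, hwf, ← m2_eq hl hη]
  unfold CCv
  field_simp

/-- the fourth moment of the row through the overlap -/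
lemma q4_le (hn : 0 < n) (K : Finset (Co n LB LF)) (hi0 : i0 ∉ S) {t wf : ℝ}
    (ht : ∑ l ∈ BL, cB l ^ 2 = t) (hwf : ∑ l ∈ FL, cF l ^ 2 = b ^ 2 * wf)
    (z : Co n LB LF → ℝ) :
    H980.q4 (muA (Xs n) lam η c) 1 x (Sm b cB cF s η) K (Rw i0 S BL FL) z ≤
      8 * b ^ 8 * t ^ 4 * M4v n b cB cF s η lam c x S K z + 8 * b ^ 8 * wf ^ 4 := by
  have hn' : (0 : ℝ) < n := Nat.cast_pos.2 hn
  rw [q4_eq hl hη K z]
  refine (r4_Rw_le b cB cF s hl hη c x K hi0 BL FL z).trans (le_of_eq ?_)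
  rw [ht, hwf, ← m4_eq hl hη]
  unfold M4v
  field_simp

/-- **The last square at the modulated SK system, pointwise.** -/
theorem c3z_le (hn : 0 < n) (hx0 : 0 ≤ x) (hx1 : x ≤ 1) (hi0 : i0 ∉ S) {t wf : ℝ}
    (ht : ∑ l ∈ BL, cB l ^ 2 = t) (hwf : ∑ l ∈ FL, cF l ^ 2 = b ^ 2 * wf)
    (hL : x ^ 2 * (b ^ 2 * (t + wf)) ≤ 1 / 4) (u : Co n LB LF → ℝ) {δ : ℝ} (hδ : 0 < δ)
    (z : Co n LB LF → ℝ) :
    cxS n b cB cF s η lam c x (Kset S BL FL) (fun y =>
      (cxS n b cB cF s η lam c x (Kset (insert i0 S) BL FL)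
        (avS b cB cF s η lam c (fun w => al η w.1 * sp w.2 i0)) y -
        lc (Rw i0 S BL FL) u y) ^ 2) z ≤
      6 * ∑ e ∈ Rw i0 S BL FL, (cxS n b cB cF s η lam c x (Kset S BL FL) (fun y =>
        cxS n b cB cF s η lam c x (Kset (insert i0 S) BL FL)
          (avS b cB cF s η lam c (fun w => al η w.1 * sp w.2 i0)) y * y e) z - u e) ^ 2 +
      6000000 * (1 + η) ^ 2 * (δ * (2 * b ^ 4 * t ^ 2 *
          cxS n b cB cF s η lam c x (Kset S BL FL)
            (CCv n b cB cF s η lam c x S (Kset (insert i0 S) BL FL)) z + 2 * b ^ 4 * wf ^ 2) +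
        (8 * b ^ 8 * t ^ 4 * cxS n b cB cF s η lam c x (Kset S BL FL)
            (M4v n b cB cF s η lam c x S (Kset (insert i0 S) BL FL)) z +
              8 * b ^ 8 * wf ^ 4) / δ) := by
  have hG := gmA (n := n) b cB cF s hl hη c
  have hw := H347.wt hG 1 x
  have hn' : (0 : ℝ) < n := Nat.cast_pos.2 hn
  have hU : Kset S BL FL ∪ Rw i0 S BL FL = Kset (LB := LB) (LF := LF) (insert i0 S) BL FL :=
    Rw_union hi0
  have bh : Bm (fun w : ℝ × Xs n => al η w.1 * sp w.2 i0) :=
    (bm_of_al (n := n) hη).mul (bm_sp i0)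
  have hP : ∀ w : ℝ × Xs n, |al η w.1 * sp w.2 i0| ≤ 1 + η := by
    intro w
    have h1 := al_mem hη w.1
    have h2 := H646.abs_sp_le w.2 i0
    have h3 : |al η w.1| ≤ 1 + η := by rw [abs_le]; constructor <;> linarith [h1.1, h1.2]
    rw [abs_mul]
    calc |al η w.1| * |sp w.2 i0| ≤ (1 + η) * 1 :=
          mul_le_mul h3 h2 (abs_nonneg _) (by linarith)
      _ = 1 + η := mul_one _
  have hεR : ∀ e ∈ Rw i0 S BL FL, eps LB LF (fl i0) e = -1 := by
    intro e he
    rcases e with (⟨p, l⟩ | ⟨i, l⟩) | j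
    · have h1 := (bd_memR p l).1 he
      exact SkS_fl_row h1.1.1
    · have h1 := (fd_memR i l).1 he
      show sp (fl i0) i = -1
      rw [h1.1]
      exact sp_fl_self i0
    · exact absurd he (gd_memR j)
  have hεK : ∀ e ∈ Kset (LB := LB) (LF := LF) S BL FL, eps LB LF (fl i0) e = 1 := by
    intro e he
    refine eps_eq_oneK (fl i0) (fun i hi => ?_) he
    unfold fl
    rw [if_neg]
    rintro rfl
    exact hi0 hi
  have hPT : ∀ w : ℝ × Xs n, (fun w : ℝ × Xs n => al η w.1 * sp w.2 i0)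
      (w.1, fun i => w.2 i * fl i0 i) = -(al η w.1 * sp w.2 i0) := by
    intro w
    show al η w.1 * sp (fun i => w.2 i * fl i0 i) i0 = _
    rw [sp_mul, sp_fl_self]
    ring
  have hLs : ∀ w : ℝ × Xs n, (x * 1) ^ 2 * ∑ e ∈ Rw i0 S BL FL, Sm b cB cF s η e w ^ 2 ≤
      1 / 4 := by
    intro w
    rw [sum_Rw_sq b cB cF s η hi0 BL FL w, ht, hwf, mul_one]
    refine le_trans (mul_le_mul_of_nonneg_left ?_ (sq_nonneg x)) hL
    have h4 : (S.card : ℝ) ≤ n := by
      have := Finset.card_le_univ S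
      rw [Fintype.card_fin] at this
      exact_mod_cast this
    have ht0 : 0 ≤ t := by rw [← ht]; exact Finset.sum_nonneg fun _ _ => sq_nonneg _
    have h5 : b ^ 2 / n * t * S.card ≤ b ^ 2 / n * t * n :=
      mul_le_mul_of_nonneg_left h4 (by positivity)
    have h6 : b ^ 2 / n * t * n = b ^ 2 * t := by field_simp
    rw [h6] at h5
    linarith
  have key := H980.c3_cx hG 1 hx0 hx1 (Rw_disj hi0) bh.1 hP (symG b cB cF s η hl c (fl i0))
    hεK hεR hPT hLs u hδ z
  rw [hU] at key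
  have hswap : ∀ e : Co n LB LF, (fun y : Co n LB LF → ℝ => y e *
      cx (H487.gs (Co n LB LF)) (Kset (insert i0 S) BL FL)
        (Zxm (muA (Xs n) lam η c) 1 (Sm b cB cF s η) x)
        (avm (muA (Xs n) lam η c) 1 (Sm b cB cF s η) fun w => al η w.1 * sp w.2 i0) y) =
      fun y => cxS n b cB cF s η lam c x (Kset (insert i0 S) BL FL)
          (avS b cB cF s η lam c (fun w => al η w.1 * sp w.2 i0)) y * y e := by
    intro e
    funext y
    exact mul_comm _ _
  simp only [hswap] at key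
  have bC := bm_CCv (n := n) (b := b) (s := s) (c := c) (x := x) (cB := cB) (cF := cF) hl hη S
    (Kset (insert i0 S) BL FL)
  have bM := bm_M4v (n := n) (b := b) (s := s) (c := c) (x := x) (cB := cB) (cF := cF) hl hη S
    (Kset (insert i0 S) BL FL)
  have h2 : cxS n b cB cF s η lam c x (Kset S BL FL)
      (H980.q2 (muA (Xs n) lam η c) 1 x (Sm b cB cF s η) (Kset (insert i0 S) BL FL)
        (Rw i0 S BL FL)) z ≤ 2 * b ^ 4 * t ^ 2 * cxS n b cB cF s η lam c x (Kset S BL FL)
            (CCv n b cB cF s η lam c x S (Kset (insert i0 S) BL FL)) z + 2 * b ^ 4 * wf ^ 2 := by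
    have h3 := cx_mono hw (K := Kset S BL FL) (H980.bm_q2 hG 1 x (Rw i0 S BL FL)
      (Kset (insert i0 S) BL FL)) ((bcm (2 * b ^ 4 * t ^ 2) bC).add (BM.const (2 * b ^ 4 *
        wf ^ 2))) (fun y => q2_le hl hη hn (Kset (insert i0 S) BL FL) hi0 ht hwf y) z
    rw [cx_add hw (bcm _ bC) (BM.const _), cx_const_mul hw,
      cx_dep hw (Q := fun _ => 2 * b ^ 4 * wf ^ 2) (fun _ _ => rfl)] at h3
    exact h3
  have h4 : cxS n b cB cF s η lam c x (Kset S BL FL)
      (H980.q4 (muA (Xs n) lam η c) 1 x (Sm b cB cF s η) (Kset (insert i0 S) BL FL)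
        (Rw i0 S BL FL)) z ≤ 8 * b ^ 8 * t ^ 4 * cxS n b cB cF s η lam c x (Kset S BL FL)
            (M4v n b cB cF s η lam c x S (Kset (insert i0 S) BL FL)) z + 8 * b ^ 8 * wf ^ 4 := by
    have h3 := cx_mono hw (K := Kset S BL FL) (H980.bm_q4 hG 1 x (Rw i0 S BL FL)
      (Kset (insert i0 S) BL FL)) ((bcm (8 * b ^ 8 * t ^ 4) bM).add (BM.const (8 * b ^ 8 *
        wf ^ 4))) (fun y => q4_le hl hη hn (Kset (insert i0 S) BL FL) hi0 ht hwf y) z
    rw [cx_add hw (bcm _ bM) (BM.const _), cx_const_mul hw,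
      cx_dep hw (Q := fun _ => 8 * b ^ 8 * wf ^ 4) (fun _ _ => rfl)] at h3
    exact h3
  refine key.trans (add_le_add le_rfl ?_)
  refine mul_le_mul_of_nonneg_left ?_ (by positivity)
  exact add_le_add (mul_le_mul_of_nonneg_left h2 hδ.le) (div_le_div_of_nonneg_right h4 hδ.le)

end

end Vale.Agent.P146.H317
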