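import Vale.Agent.P146.H317.C3Sk
import Vale.Agent.P146.H620.LowN

/-!
# P146: the numbers of the last square on the window

* `e3c_pure`: `E3c` from its monomials;
* `e3c_ln`: `E3c ≤ n ^ (-72 q) y ^ 3` at the numbers of `H620.Low`;
* `e3_ln`: the coefficient of the absorbed term.
-/

open MeasureTheory ProbabilityTheory Filter Topology

namespace Vale.Agent.P146.H317

open Vale.Agent.P146.H470 Vale.Agent.P146.H620.Low

/-- the constant of the sum -/
noncomputable def C3b (b k : ℝ) : ℝ :=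
  6 * b ^ 2 * (3 + 2 * k ^ 2) +
    6000000 * (9 / 4) * ((2 * b ^ 4 + 8 * b ^ 8) * 70000 + (7 * b ^ 4 + 8 * b ^ 8))

lemma C3b_pos {b k : ℝ} (hb : 0 < b) : 0 < C3b b k := by
  unfold C3b
  positivity

/-- `E3c` from its monomials -/
lemma e3c_pure {b k kp η U θ wf l0 del I rk k4 p0 pT W : ℝ} (hb : 0 < b) (hkp0 : 0 ≤ kp)
    (hk : kp ≤ k) (hη : 0 ≤ η) (hη1 : η ≤ 1 / 2) (hU0 : 0 < U) (hU1 : U ≤ 1)
    (hdel : 0 < del) (hwf : 0 ≤ wf) (hpT : 0 ≤ pT) (hW : 0 ≤ W)
    (t1 : U * θ ^ 2 ≤ W) (t2 : wf * θ ^ 2 ≤ W) (t3 : wf * η ^ 2 ≤ W)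
    (t4 : U ^ 4 * η ^ 2 / del ≤ W) (t5 : U ^ 3 * I / del ≤ W) (t6 : U ^ 2 * rk / del ≤ W)
    (t7 : k4 / del ≤ W) (t8 : U ^ 3 * p0 ≤ W) (t9 : U ^ 4 / l0 * p0 ≤ W)
    (t10 : pT / del ≤ W) (t11 : wf ^ 2 * U ≤ W) (t12 : wf ^ 2 * del ≤ W)
    (t13 : wf ^ 4 / del ≤ W) :
    E3c b kp η U θ wf l0 del I rk k4 p0 pT ≤ C3b b k * W := by
  have hk0 : 0 ≤ k := hkp0.trans hk
  have a1 : 6 * (b ^ 2 * (U * θ ^ 2 + wf * (θ + kp * η) ^ 2)) ≤ 6 * b ^ 2 * (3 + 2 * k ^ 2) * W := by
    have h1 : wf * (θ + kp * η) ^ 2 ≤ 2 * (wf * θ ^ 2) + 2 * (kp ^ 2 * (wf * η ^ 2)) := by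
      have h2 : (θ + kp * η) ^ 2 ≤ 2 * θ ^ 2 + 2 * (kp * η) ^ 2 := by
        nlinarith [sq_nonneg (θ - kp * η)]
      calc _ ≤ wf * (2 * θ ^ 2 + 2 * (kp * η) ^ 2) := mul_le_mul_of_nonneg_left h2 hwf
        _ = _ := by ring
    have h3 : kp ^ 2 * (wf * η ^ 2) ≤ k ^ 2 * W :=
      mul_le_mul (pow_le_pow_left₀ hkp0 hk 2) t3 (by positivity) (by positivity)
    have h4 : U * θ ^ 2 + wf * (θ + kp * η) ^ 2 ≤ (3 + 2 * k ^ 2) * W := by linarith
    have h5 := mul_le_mul_of_nonneg_left h4 (show 0 ≤ 6 * b ^ 2 by positivity)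
    linarith
  have hη2 : η ^ 2 ≤ 1 / 4 := by nlinarith
  have hU2 : U ^ 2 ≤ 1 := pow_le_one₀ hU0.le hU1
  have hU3 : U ^ 3 ≤ 1 := pow_le_one₀ hU0.le hU1
  have hpd : 0 ≤ pT / del := div_nonneg hpT hdel.le
  have a2 : NC3 U l0 del η I rk k4 p0 pT pT ≤ 70000 * W := by
    have e : NC3 U l0 del η I rk k4 p0 pT pT = 4608 * (U ^ 4 * η ^ 2 / del) +
        4608 * (U ^ 3 * η ^ 2 * (pT / del)) + 4608 * (U ^ 3 * I / del) +
        56448 * (U ^ 2 * (pT / del)) + 72 * (U ^ 2 * rk / del) + 8 * (k4 / del) +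
        2 * (U ^ 3 * p0) + 2 * (U ^ 4 / l0 * p0) + 10 * (pT / del) := by
      unfold NC3
      ring
    have h1 : U ^ 3 * η ^ 2 * (pT / del) ≤ 1 * (1 / 4) * (pT / del) := by gcongr
    have h2 : U ^ 2 * (pT / del) ≤ 1 * (pT / del) := by gcongr
    rw [e]
    linarith
  have a3 : 2 * b ^ 4 * wf ^ 2 * (9 / 4 * U + del) + 8 * b ^ 8 * wf ^ 4 / del ≤
      (7 * b ^ 4 + 8 * b ^ 8) * W := by
    have e : 2 * b ^ 4 * wf ^ 2 * (9 / 4 * U + del) + 8 * b ^ 8 * wf ^ 4 / del =
        2 * b ^ 4 * (9 / 4 * (wf ^ 2 * U) + wf ^ 2 * del) + 8 * b ^ 8 * (wf ^ 4 / del) := by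
      ring
    rw [e]
    have h1 := mul_le_mul_of_nonneg_left (show 9 / 4 * (wf ^ 2 * U) + wf ^ 2 * del ≤ 7 / 2 * W by
      linarith) (show 0 ≤ 2 * b ^ 4 by positivity)
    have h2 := mul_le_mul_of_nonneg_left t13 (show 0 ≤ 8 * b ^ 8 by positivity)
    linarith
  have a4 : 6000000 * (1 + η) ^ 2 ≤ 6000000 * (9 / 4) := by nlinarith
  have a5 := mul_le_mul_of_nonneg_left a2 (show 0 ≤ 2 * b ^ 4 + 8 * b ^ 8 by positivity)
  have a6 : (2 * b ^ 4 + 8 * b ^ 8) * NC3 U l0 del η I rk k4 p0 pT pT +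
      (2 * b ^ 4 * wf ^ 2 * (9 / 4 * U + del) + 8 * b ^ 8 * wf ^ 4 / del) ≤
      ((2 * b ^ 4 + 8 * b ^ 8) * 70000 + (7 * b ^ 4 + 8 * b ^ 8)) * W := by linarith
  have a7 : 6000000 * (1 + η) ^ 2 * ((2 * b ^ 4 + 8 * b ^ 8) * NC3 U l0 del η I rk k4 p0 pT pT +
      (2 * b ^ 4 * wf ^ 2 * (9 / 4 * U + del) + 8 * b ^ 8 * wf ^ 4 / del)) ≤
      6000000 * (9 / 4) * (((2 * b ^ 4 + 8 * b ^ 8) * 70000 + (7 * b ^ 4 + 8 * b ^ 8)) * W) := by
    have h1 := mul_le_mul_of_nonneg_left a6 (show 0 ≤ 6000000 * (1 + η) ^ 2 by positivity)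
    have h2 : 0 ≤ ((2 * b ^ 4 + 8 * b ^ 8) * 70000 + (7 * b ^ 4 + 8 * b ^ 8)) * W := by
      positivity
    exact h1.trans (mul_le_mul_of_nonneg_right a4 h2)
  unfold E3c C3b
  linarith

/-- the size of the overlap, all shares `T ≥ n ^ (-71 q) y ^ 2` -/
noncomputable def Uc (q : ℝ) (n : ℕ) (y : ℝ) : ℝ := (n : ℝ) ^ (37 * q) * y

/-- the level of the big roots -/
noncomputable def l0n (q : ℝ) (n : ℕ) (y : ℝ) : ℝ := (n : ℝ) ^ (-(8 * q)) * y

/-- the smoothing -/
noncomputable def dn (q : ℝ) (n : ℕ) (y : ℝ) : ℝ := (n : ℝ) ^ (-(9 * q)) * y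

/-- the number of the pairs -/
noncomputable def kn (q : ℝ) (n : ℕ) (y : ℝ) : ℝ := (n : ℝ) ^ (-(100 * q)) * y ^ 4

/-- the size of one monomial -/
noncomputable def W3 (q : ℝ) (n : ℕ) (y : ℝ) : ℝ := (n : ℝ) ^ (-(73 * q)) * y ^ 3

section

variable {q K : ℝ} {n : ℕ} {y V : ℝ}

lemma Uc_pos (h : LN q K n y V) : 0 < Uc q n y := by
  have := h.n0
  have := h.y0
  unfold Uc
  positivity

lemma log_Uc (h : LN q K n y V) :
    Real.log (Uc q n y) = 37 * (q * Real.log n) + Real.log y := by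
  have := h.n0
  have := h.y0
  unfold Uc
  rw [Real.log_mul (by positivity) (by positivity), Real.log_rpow h.n0]
  ring

lemma Uc_le_one (h : LN q K n y V) : Uc q n y ≤ 1 := by
  refine le_of_log (Uc_pos h) one_pos ?_
  rw [log_Uc h, Real.log_one]
  linarith [h.qL, h.hi]

lemma l0n_pos (h : LN q K n y V) : 0 < l0n q n y := by
  have := h.n0
  have := h.y0
  unfold l0n
  positivity

lemma dn_pos (h : LN q K n y V) : 0 < dn q n y := by
  have := h.n0
  have := h.y0
  unfold dn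
  positivity

lemma kn_pos (h : LN q K n y V) : 0 < kn q n y := by
  have := h.n0
  have := h.y0
  unfold kn
  positivity

lemma W3_pos (h : LN q K n y V) : 0 < W3 q n y := by
  have := h.n0
  have := h.y0
  unfold W3
  positivity

lemma log_l0n (h : LN q K n y V) :
    Real.log (l0n q n y) = -(8 * (q * Real.log n)) + Real.log y := by
  have := h.n0
  have := h.y0
  unfold l0n
  rw [Real.log_mul (by positivity) (by positivity), Real.log_rpow h.n0]
  ring

lemma log_dn (h : LN q K n y V) :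
    Real.log (dn q n y) = -(9 * (q * Real.log n)) + Real.log y := by
  have := h.n0
  have := h.y0
  unfold dn
  rw [Real.log_mul (by positivity) (by positivity), Real.log_rpow h.n0]
  ring

lemma log_kn (h : LN q K n y V) :
    Real.log (kn q n y) = -(100 * (q * Real.log n)) + 4 * Real.log y := by
  have := h.n0
  have := h.y0
  unfold kn
  rw [Real.log_mul (by positivity) (by positivity), Real.log_rpow h.n0, Real.log_pow]
  push_cast
  ring

lemma log_W3 (h : LN q K n y V) :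
    Real.log (W3 q n y) = -(73 * (q * Real.log n)) + 3 * Real.log y := by
  have := h.n0
  have := h.y0
  unfold W3
  rw [Real.log_mul (by positivity) (by positivity), Real.log_rpow h.n0, Real.log_pow]
  push_cast
  ring

lemma l0n_le (h : LN q K n y V) : l0n q n y ≤ Uc q n y := by
  refine le_of_log (l0n_pos h) (Uc_pos h) ?_
  rw [log_l0n h, log_Uc h]
  linarith [h.qL]

lemma dn_le (h : LN q K n y V) : dn q n y ≤ Uc q n y := by
  refine le_of_log (dn_pos h) (Uc_pos h) ?_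
  rw [log_dn h, log_Uc h]
  linarith [h.qL]

/-- **The size of the last square.** -/
theorem e3c_ln {b kp wf η p0 pT : ℝ} (h : LN q K n y V) (hb : 0 < b) (hkp0 : 0 ≤ kp)
    (hk2 : b * kp ≤ 3 / 2) (hKb : Real.log (1 / b ^ 2) ≤ K)
    (hKC : Real.log (C3b b (3 / (2 * b))) ≤ K) (hw0 : 0 ≤ wf) (hw : wf ≤ (1 / b ^ 2) * V)
    (hη0 : 0 ≤ η) (hη1 : η ≤ 1 / 2) (hη : η ≤ (n : ℝ) ^ (-(2000 * q)))
    (hp0 : p0 ≤ (n : ℝ) ^ (-(300 * q))) (hpT0 : 0 ≤ pT)
    (hpT : pT ≤ (n : ℝ) ^ (-2 : ℝ)) :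
    E3c b kp η (Uc q n y) (tn q n y) wf (l0n q n y) (dn q n y) (In q n y / n) (tn q n y)
      (kn q n y) p0 pT ≤ (n : ℝ) ^ (-(72 * q)) * y ^ 3 := by
  have hn := h.n0
  have hy := h.y0
  have hV := h.V0
  have hU := Uc_pos h
  have ht := tn_pos h
  have hI := In_pos h
  have hl := l0n_pos h
  have hd := dn_pos h
  have hk := kn_pos h
  have hW := W3_pos h
  have hq := h.qL
  have l0 := h.L1
  have l1 := h.lo
  have l2 := h.hi
  have l3 := h.cst
  have l4 := h.Vu
  have hηp : 0 < (n : ℝ) ^ (-(2000 * q)) := Real.rpow_pos_of_pos hn _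
  have lη : Real.log ((n : ℝ) ^ (-(2000 * q))) = -(2000 * (q * Real.log n)) := by
    rw [Real.log_rpow hn]
    ring
  have hp0p : 0 < (n : ℝ) ^ (-(300 * q)) := Real.rpow_pos_of_pos hn _
  have lp0 : Real.log ((n : ℝ) ^ (-(300 * q))) = -(300 * (q * Real.log n)) := by
    rw [Real.log_rpow hn]
    ring
  have hpTp : 0 < (n : ℝ) ^ (-2 : ℝ) := Real.rpow_pos_of_pos hn _
  have lpT : Real.log ((n : ℝ) ^ (-2 : ℝ)) = -2 * Real.log n := by
    rw [Real.log_rpow hn]
  have hw1 : 0 < (1 / b ^ 2) * V := by positivity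
  have lw : Real.log ((1 / b ^ 2) * V) ≤
      q / 100 * Real.log n + (-(24 * (q * Real.log n)) + 3 * Real.log y +
        q / 100 * Real.log n) := by
    rw [Real.log_mul (by positivity) (by positivity)]
    linarith
  set w1 := (1 / b ^ 2) * V with hw1d
  have hk3 : kp ≤ 3 / (2 * b) := by
    rw [le_div_iff₀ (by positivity)]
    linarith
  have key := e3c_pure (k := 3 / (2 * b)) (l0 := l0n q n y) (I := In q n y / n)
    (rk := tn q n y) (k4 := kn q n y) (p0 := p0) (θ := tn q n y) hb hkp0 hk3 hη0 hη1 hU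
    (Uc_le_one h) hd hw0 hpT0 hW.le ?_ ?_ ?_ ?_ ?_ ?_ ?_ ?_ ?_ ?_ ?_ ?_ ?_
  · refine key.trans ?_
    have hC : 0 < C3b b (3 / (2 * b)) := C3b_pos hb
    refine le_of_log (by positivity) (by positivity) ?_
    rw [Real.log_mul hC.ne' hW.ne', log_W3 h, Real.log_mul (by positivity) (by positivity),
      Real.log_rpow hn, Real.log_pow]
    push_cast
    linarith
  · refine le_of_log (by positivity) hW ?_
    rw [Real.log_mul (by positivity) (by positivity), Real.log_pow, log_Uc h, log_tn h, log_W3 h]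
    push_cast
    linarith
  · refine (mul_le_mul_of_nonneg_right hw (by positivity)).trans
      (le_of_log (by positivity) hW ?_)
    rw [Real.log_mul (by positivity) (by positivity), Real.log_pow, log_tn h, log_W3 h]
    push_cast
    linarith
  · refine (mul_le_mul hw (pow_le_pow_left₀ hη0 hη 2) (by positivity) hw1.le).trans
      (le_of_log (by positivity) hW ?_)
    rw [Real.log_mul (by positivity) (by positivity), Real.log_pow, lη, log_W3 h]
    push_cast
    linarith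
  · have h1 : Uc q n y ^ 4 * η ^ 2 / dn q n y ≤
        Uc q n y ^ 4 * ((n : ℝ) ^ (-(2000 * q))) ^ 2 / dn q n y := by gcongr
    refine h1.trans (le_of_log (by positivity) hW ?_)
    rw [Real.log_div (by positivity) (by positivity), Real.log_mul (by positivity) (by positivity),
      Real.log_pow, Real.log_pow, log_Uc h, lη, log_dn h, log_W3 h]
    push_cast
    linarith
  · refine le_of_log (by positivity) hW ?_
    rw [Real.log_div (by positivity) (by positivity), Real.log_mul (by positivity) (by positivity),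
      Real.log_pow, Real.log_div (by positivity) (by positivity), log_Uc h, log_In h, log_dn h,
      log_W3 h]
    push_cast
    linarith
  · refine le_of_log (by positivity) hW ?_
    rw [Real.log_div (by positivity) (by positivity), Real.log_mul (by positivity) (by positivity),
      Real.log_pow, log_Uc h, log_tn h, log_dn h, log_W3 h]
    push_cast
    linarith
  · refine le_of_log (by positivity) hW ?_
    rw [Real.log_div (by positivity) (by positivity), log_kn h, log_dn h, log_W3 h]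
    linarith
  · refine (mul_le_mul_of_nonneg_left hp0 (by positivity)).trans
      (le_of_log (by positivity) hW ?_)
    rw [Real.log_mul (by positivity) (by positivity), Real.log_pow, log_Uc h, lp0, log_W3 h]
    push_cast
    linarith
  · refine (mul_le_mul_of_nonneg_left hp0 (by positivity)).trans
      (le_of_log (by positivity) hW ?_)
    rw [Real.log_mul (by positivity) (by positivity), Real.log_div (by positivity) (by positivity),
      Real.log_pow, log_Uc h, log_l0n h, lp0, log_W3 h]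
    push_cast
    linarith
  · refine (div_le_div_of_nonneg_right hpT hd.le).trans (le_of_log (by positivity) hW ?_)
    rw [Real.log_div (by positivity) (by positivity), lpT, log_dn h, log_W3 h]
    linarith
  · have h1 : wf ^ 2 * Uc q n y ≤ w1 ^ 2 * Uc q n y := by gcongr
    refine h1.trans (le_of_log (by positivity) hW ?_)
    rw [Real.log_mul (by positivity) (by positivity), Real.log_pow, log_Uc h, log_W3 h]
    push_cast
    linarith
  · have h1 : wf ^ 2 * dn q n y ≤ w1 ^ 2 * dn q n y := by gcongr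
    refine h1.trans (le_of_log (by positivity) hW ?_)
    rw [Real.log_mul (by positivity) (by positivity), Real.log_pow, log_dn h, log_W3 h]
    push_cast
    linarith
  · have h1 : wf ^ 4 / dn q n y ≤ w1 ^ 4 / dn q n y := by gcongr
    refine h1.trans (le_of_log (by positivity) hW ?_)
    rw [Real.log_div (by positivity) (by positivity), Real.log_pow, log_dn h, log_W3 h]
    push_cast
    linarith

/-- the constant of the absorbed term -/
noncomputable def Ce3 (b : ℝ) : ℝ := 4352 * (6000000 * (9 / 4) * (2 * b ^ 4 + 8 * b ^ 8)) / b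

/-- **The coefficient of the absorbed term.** -/
theorem e3_ln {b A η : ℝ} (h : LN q K n y V) (hb : 0 < b) (hA : 1 / 2 ≤ A) (hη0 : 0 ≤ η)
    (hη1 : η ≤ 1 / 2) (hK : Real.log (Ce3 b) ≤ K) :
    CBc b η * (528 * l0n q n y + 16 * dn q n y) ≤
      A ^ 2 * (1 / 2 * (n : ℝ) ^ (-(7 * q)) * (b * y)) := by
  have hn := h.n0
  have hy := h.y0
  have hl := l0n_pos h
  have hd := dn_pos h
  have hq := h.qL
  have l3 := h.cst
  have hdl : dn q n y ≤ l0n q n y := by
    refine le_of_log hd hl ?_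
    rw [log_dn h, log_l0n h]
    linarith
  have a1 : CBc b η ≤ 6000000 * (9 / 4) * (2 * b ^ 4 + 8 * b ^ 8) := by
    unfold CBc
    have : (1 + η) ^ 2 ≤ 9 / 4 := by nlinarith
    have h1 : 0 ≤ 2 * b ^ 4 + 8 * b ^ 8 := by positivity
    nlinarith
  have a2 : 528 * l0n q n y + 16 * dn q n y ≤ 544 * l0n q n y := by linarith
  have hX : 0 < 6000000 * (9 / 4) * (2 * b ^ 4 + 8 * b ^ 8) := by positivity
  have a3 : CBc b η * (528 * l0n q n y + 16 * dn q n y) ≤
      6000000 * (9 / 4) * (2 * b ^ 4 + 8 * b ^ 8) * (544 * l0n q n y) :=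
    mul_le_mul a1 a2 (by positivity) hX.le
  have a4 : 6000000 * (9 / 4) * (2 * b ^ 4 + 8 * b ^ 8) * (544 * l0n q n y) =
      Ce3 b * l0n q n y * (b / 8) := by
    unfold Ce3
    field_simp
    ring
  have hC : 0 < Ce3 b := by
    unfold Ce3
    positivity
  have a5 : Ce3 b * l0n q n y ≤ (n : ℝ) ^ (-(7 * q)) * y := by
    refine le_of_log (by positivity) (by positivity) ?_
    rw [Real.log_mul hC.ne' hl.ne', log_l0n h, Real.log_mul (by positivity) hy.ne',
      Real.log_rpow hn]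
    linarith
  have a6 : 1 / 4 ≤ A ^ 2 := by nlinarith
  have hN : 0 < (n : ℝ) ^ (-(7 * q)) * y * b := by positivity
  calc _ ≤ Ce3 b * l0n q n y * (b / 8) := a3.trans (le_of_eq a4)
    _ ≤ (n : ℝ) ^ (-(7 * q)) * y * (b / 8) := mul_le_mul_of_nonneg_right a5 (by positivity)
    _ = 1 / 4 * (1 / 2 * ((n : ℝ) ^ (-(7 * q)) * y * b)) := by ring
    _ ≤ A ^ 2 * (1 / 2 * ((n : ℝ) ^ (-(7 * q)) * y * b)) :=
        mul_le_mul_of_nonneg_right a6 (by positivity)
    _ = _ := by ring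

end

end Vale.Agent.P146.H317
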