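import Vale.Agent.P146.H317.C3kw

/-!
# P146: the last square of the tested row equation, the cube kept

The same numbers as in `H317.C3v`, `H317.C3Sk`, with `E φ Q ^ 3` instead of a level and the
probability above it: `c3_cub`, `cube_leq`, `c3v_leq`, `c3_numq`, `c3_skq`.
-/

open MeasureTheory ProbabilityTheory

namespace Vale.Agent.P146.H317

section pt

open Vale.Agent.P146.H646 Vale.Agent.P146.H615

set_option linter.unusedSectionVars false

/-- **Pointwise.** -/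
theorem c3_cub_pt {Q Q' CC M4 k2 k4 q U del0 B : ℝ} (hQ : 0 ≤ Q) (hQ' : 0 ≤ Q')
    (hCC : 0 ≤ CC) (hk2 : 0 ≤ k2) (hk4 : 0 ≤ k4) (hdel : 0 < del0) (hdelU : del0 ≤ U)
    (h1 : CC ≤ 2 * Q' ^ 2 + 2 * k2) (h2 : M4 ≤ 2 * CC ^ 2 + k4) (h3 : Q' ≤ 2 * Q + 2 * q)
    (hB : (Q + del0) * CC + M4 / (Q + del0) ≤ B) :
    (Q + del0) * CC + M4 / (Q + del0) ≤ 528 * Q ^ 3 + 16 * del0 * Q ^ 2 +
      (36 * (U ^ 2 / del0) * (16 * q ^ 2 + 2 * k2) + k4 / del0 +
      |B| * (if U ^ 2 < CC then 1 else 0) + |B| * (if U < Q then 1 else 0)) := by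
  have hU : 0 < U := by linarith
  have n1 : 0 ≤ 528 * Q ^ 3 + 16 * del0 * Q ^ 2 := by positivity
  have n2 : 0 ≤ 36 * (U ^ 2 / del0) * (16 * q ^ 2 + 2 * k2) := by positivity
  have n3 : 0 ≤ k4 / del0 := by positivity
  have n5 : ∀ p : Prop, ∀ [Decidable p], 0 ≤ |B| * (if p then (1 : ℝ) else 0) := by
    intro p _
    refine mul_nonneg (abs_nonneg _) ?_
    split_ifs <;> norm_num
  have n6 := n5 (U ^ 2 < CC)
  have n7 := n5 (U < Q)
  by_cases hT : U ^ 2 < CC
  · rw [if_pos hT] at n6 ⊢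
    linarith [le_abs_self B]
  by_cases hT' : U < Q
  · rw [if_pos hT'] at n7 ⊢
    linarith [le_abs_self B]
  have h5 := two_small hQ hQ' hCC hk2 hk4 (not_lt.1 hT') (le_refl Q) hdel hdelU h1 h2 h3
    (not_lt.1 hT)
  have e : (528 * Q + 16 * del0) * Q ^ 2 = 528 * Q ^ 3 + 16 * del0 * Q ^ 2 := by ring
  rw [e] at h5
  linarith

variable {κ : Type*} [Fintype κ] [DecidableEq κ] {μ : κ → Measure ℝ}
  [∀ e, IsProbabilityMeasure (μ e)] {w Ψ Φ : (κ → ℝ) → ℝ} {K : Finset κ}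

lemma bcu {f : (κ → ℝ) → ℝ} (hf : BM f) : BM fun z => f z ^ 3 := by
  have e : (fun z => f z ^ 3) = fun z => f z * f z ^ 2 := by
    funext z
    ring
  rw [e]
  exact hf.mul (bsq hf)

/-- **The cube term, test function at `K`, overlaps at `K'`, the cube kept.** -/
theorem c3_cub (hw : Wt μ w) {φ Q Q' CC M4 k2 k4 q : (κ → ℝ) → ℝ} {U del0 B P0 : ℝ}
    (hφ : BM φ) (hQb : BM Q) (hCCb : BM CC) (hM4b : BM M4) (hk2b : BM k2) (hk4b : BM k4)
    (hqb : BM q) (hφ0 : ∀ z, 0 ≤ φ z) (hφ1 : ∀ z, φ z ≤ P0)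
    (hQ : ∀ z, 0 ≤ Q z) (hQ' : ∀ z, 0 ≤ Q' z) (hCC : ∀ z, 0 ≤ CC z) (hk2 : ∀ z, 0 ≤ k2 z)
    (hk4 : ∀ z, 0 ≤ k4 z) (hdel : 0 < del0) (hdelU : del0 ≤ U)
    (h1 : ∀ z, CC z ≤ 2 * Q' z ^ 2 + 2 * k2 z) (h2 : ∀ z, M4 z ≤ 2 * CC z ^ 2 + k4 z)
    (h3 : ∀ z, Q' z ≤ 2 * Q z + 2 * q z) (hB0 : 0 ≤ B)
    (hB : ∀ z, (Q z + del0) * CC z + M4 z / (Q z + del0) ≤ B) :
    ex μ w (fun z => φ z * ((Q z + del0) * CC z + M4 z / (Q z + del0))) ≤
      (528 * ex μ w (fun z => φ z * Q z ^ 3) + 16 * del0 * ex μ w (fun z => φ z * Q z ^ 2)) +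
      P0 * (36 * (U ^ 2 / del0) * (16 * ex μ w (fun z => q z ^ 2) + 2 * ex μ w k2) +
        ex μ w k4 / del0 +
        B * ex μ w (ind (U ^ 2) CC) + B * ex μ w (ind U Q)) := by
  have i2 := bm_ind hCCb.meas (U ^ 2)
  have i3 := bm_ind hQb.meas U
  have hinv : BM fun z => 1 / (Q z + del0) :=
    bm_inv (hQb.add (BM.const del0)).meas hdel fun z => by have := hQ z; linarith
  have bL : BM fun z => φ z * ((Q z + del0) * CC z + M4 z / (Q z + del0)) := by
    have e : (fun z => φ z * ((Q z + del0) * CC z + M4 z / (Q z + del0))) =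
        fun z => φ z * ((Q z + del0) * CC z + M4 z * (1 / (Q z + del0))) := by
      funext z; ring
    rw [e]
    exact hφ.mul (((hQb.add (BM.const del0)).mul hCCb).add (hM4b.mul hinv))
  have b0 : BM fun z => 528 * (φ z * Q z ^ 3) := bcm _ (hφ.mul (bcu hQb))
  have b1 : BM fun z => (16 * del0) * (φ z * Q z ^ 2) := bcm _ (hφ.mul (bsq hQb))
  have b2 : BM fun z => (576 * (U ^ 2 / del0)) * q z ^ 2 := bcm _ (bsq hqb)
  have b2' : BM fun z => (72 * (U ^ 2 / del0)) * k2 z := bcm _ hk2b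
  have b3 : BM fun z => (1 / del0) * k4 z := bcm _ hk4b
  have b5 : BM fun z => B * ind (U ^ 2) CC z := bcm _ i2
  have b6 : BM fun z => B * ind U Q z := bcm _ i3
  have c1 := b2.add b2'
  have c2 := c1.add b3
  have c4 := c2.add b5
  have c5 := c4.add b6
  have hmain : ∀ z, φ z * ((Q z + del0) * CC z + M4 z / (Q z + del0)) ≤
      (528 * (φ z * Q z ^ 3) + (16 * del0) * (φ z * Q z ^ 2)) +
      P0 * ((576 * (U ^ 2 / del0)) * q z ^ 2 + (72 * (U ^ 2 / del0)) * k2 z +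
        (1 / del0) * k4 z + B * ind (U ^ 2) CC z + B * ind U Q z) := by
    intro z
    have h := c3_cub_pt (hQ z) (hQ' z) (hCC z) (hk2 z) (hk4 z) hdel hdelU
      (h1 z) (h2 z) (h3 z) (hB z)
    rw [abs_of_nonneg hB0] at h
    have h5 := mul_le_mul_of_nonneg_left h (hφ0 z)
    have hU : 0 < U := by linarith
    have n1 : 0 ≤ (576 * (U ^ 2 / del0)) * q z ^ 2 := by positivity
    have n2 : 0 ≤ (72 * (U ^ 2 / del0)) * k2 z := mul_nonneg (by positivity) (hk2 z)
    have n3 : 0 ≤ (1 / del0) * k4 z := mul_nonneg (by positivity) (hk4 z)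
    have n5 : 0 ≤ B * ind (U ^ 2) CC z := mul_nonneg hB0 (ind_nonneg _ _ _)
    have n6 : 0 ≤ B * ind U Q z := mul_nonneg hB0 (ind_nonneg _ _ _)
    have n7 := mul_le_mul_of_nonneg_right (hφ1 z) (show 0 ≤ (576 * (U ^ 2 / del0)) * q z ^ 2 +
      (72 * (U ^ 2 / del0)) * k2 z + (1 / del0) * k4 z +
      B * ind (U ^ 2) CC z + B * ind U Q z by linarith)
    have e1 : 36 * (U ^ 2 / del0) * (16 * q z ^ 2 + 2 * k2 z) + k4 z / del0 =
        (576 * (U ^ 2 / del0)) * q z ^ 2 + (72 * (U ^ 2 / del0)) * k2 z + (1 / del0) * k4 z := by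
      ring
    rw [e1] at h5
    unfold ind at n7 ⊢
    linarith
  have h6 := ex_mono hw bL ((b0.add b1).add (bcm P0 c5)) hmain
  rw [ex_add hw (b0.add b1) (bcm P0 c5), ex_add hw b0 b1, ex_cmul, ex_cmul, ex_cmul P0,
    ex_add hw c4 b6, ex_add hw c2 b5, ex_add hw c1 b3, ex_add hw b2 b2', ex_cmul, ex_cmul,
    ex_cmul, ex_cmul, ex_cmul] at h6
  have e2 : P0 * (36 * (U ^ 2 / del0) * (16 * ex μ w (fun z => q z ^ 2) + 2 * ex μ w k2) +
        ex μ w k4 / del0 +
        B * ex μ w (ind (U ^ 2) CC) + B * ex μ w (ind U Q)) =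
      P0 * (576 * (U ^ 2 / del0) * ex μ w (fun z => q z ^ 2) +
        72 * (U ^ 2 / del0) * ex μ w k2 + 1 / del0 * ex μ w k4 +
        B * ex μ w (ind (U ^ 2) CC) + B * ex μ w (ind U Q)) := by ring
  rw [e2]
  exact h6

end pt

section levels

open Vale.Agent.P157.Lv Vale.Agent.P146.H196 Vale.Agent.P146.H646 Vale.Agent.P146.H615
  Vale.Agent.P146.H347 Vale.Agent.P146.H475 Vale.Agent.P146.H816 Vale.Agent.P146.H325
  Vale.Agent.P146.H161 Vale.Agent.P146.H412

set_option linter.unusedSectionVars false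

variable {n : ℕ} {LB LF : Type} [Fintype LB] [DecidableEq LB] [Fintype LF] [DecidableEq LF]
variable {b s η lam c x : ℝ} {cB : LB → ℝ} {cF : LF → ℝ} {S : Finset (Fin n)} {i0 : Fin n}
  {BL : Finset LB} {FL : Finset LF}

section cube

variable (hl : 0 < lam) (hη : 0 ≤ η) (hη1 : η ≤ 1 / 2) (hn : 0 < n)
include hl hη hη1 hn

/-- **The cube term with the overlaps at `K'`, the cube kept.** -/
theorem cube_leq (S : Finset (Fin n)) {K K' : Finset (Co n LB LF)} (hK : K ⊆ K')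
    {φ : (Co n LB LF → ℝ) → ℝ} (hφ : BM φ) (hφ0 : ∀ z, 0 ≤ φ z) {P0 : ℝ}
    (hφ1 : ∀ z, φ z ≤ P0) {U del : ℝ} (hdel : 0 < del) (hdelU : del ≤ U)
    (hdel1 : del ≤ 1) :
    exS n b cB cF s η lam c x (fun z => φ z * ((Qk n b cB cF s η lam c x S K z + del) *
        CCv n b cB cF s η lam c x S K' z + M4v n b cB cF s η lam c x S K' z /
          (Qk n b cB cF s η lam c x S K z + del))) ≤
      (528 * exS n b cB cF s η lam c x (fun z => φ z * Qk n b cB cF s η lam c x S K z ^ 3) +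
        16 * del *
          exS n b cB cF s η lam c x (fun z => φ z * Qk n b cB cF s η lam c x S K z ^ 2)) +
      P0 * NC3 U 1 del η
        (exS n b cB cF s η lam c x (Qk n b cB cF s η lam c x S K') -
          exS n b cB cF s η lam c x (Qk n b cB cF s η lam c x S K))
        (exS n b cB cF s η lam c x (RKk n b cB cF s η lam c x S K'))
        (exS n b cB cF s η lam c x (K4v n b cB cF s η lam c x S K'))
        0
        (exS n b cB cF s η lam c x (ind (U ^ 2) (CCv n b cB cF s η lam c x S K')))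
        (exS n b cB cF s η lam c x (ind U (Qk n b cB cF s η lam c x S K))) := by
  have hw : Wt (g1 (Co n LB LF)) (wS n b cB cF s η lam c x) := wtA b cB cF s hl hη c x
  have hU : 0 < U := by linarith
  have hP0 : 0 ≤ P0 := (hφ0 0).trans (hφ1 0)
  have bQ := bm_Qk (b := b) (cB := cB) (cF := cF) (s := s) (c := c) (x := x) hl hη S K
  have bC := bm_CCv (b := b) (cB := cB) (cF := cF) (s := s) (c := c) (x := x) hl hη S K'
  have bM4 := bm_M4v (b := b) (cB := cB) (cF := cF) (s := s) (c := c) (x := x) hl hη S K'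
  have bR := bm_RKk (b := b) (cB := cB) (cF := cF) (s := s) (c := c) (x := x) hl hη S K'
  have bK4 := bm_K4v (b := b) (cB := cB) (cF := cF) (s := s) (c := c) (x := x) hl hη S K'
  have bq := bm_qkk (b := b) (cB := cB) (cF := cF) (s := s) (c := c) (x := x) hl hη S K K'
  have hB : ∀ z, (Qk n b cB cF s η lam c x S K z + del) * CCv n b cB cF s η lam c x S K' z +
      M4v n b cB cF s η lam c x S K' z / (Qk n b cB cF s η lam c x S K z + del) ≤ 5 / del := by
    intro z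
    have h1 := Qk_le (b := b) (cB := cB) (cF := cF) (s := s) (c := c) (x := x) hl hη hn S K z
    have h2 := CCv_le_one (b := b) (cB := cB) (cF := cF) (s := s) (c := c) (x := x) hl hη hn
      S K' z
    have h3 := M4v_le_one (b := b) (cB := cB) (cF := cF) (s := s) (c := c) (x := x) hl hη hn
      S K' z
    have h4 := Qk_nonneg (b := b) (cB := cB) (cF := cF) (s := s) (η := η) (lam := lam) (c := c)
      (x := x) S K z
    have h5 := CCv_nonneg (b := b) (cB := cB) (cF := cF) (s := s) (η := η) (lam := lam) (c := c)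
      (x := x) S K' z
    have h6 := M4v_nonneg (b := b) (cB := cB) (cF := cF) (s := s) (η := η) (lam := lam) (c := c)
      (x := x) S K' z
    set Q := Qk n b cB cF s η lam c x S K z
    set CC := CCv n b cB cF s η lam c x S K' z
    set M4 := M4v n b cB cF s η lam c x S K' z
    have h7 : Q ≤ 9 / 4 := by nlinarith
    have h8 : (Q + del) * CC ≤ (9 / 4 + 1) * 1 :=
      mul_le_mul (by linarith) h2 h5 (by norm_num)
    have h9 : M4 / (Q + del) ≤ 1 / del := by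
      rw [div_le_div_iff₀ (by linarith) hdel]
      nlinarith
    have h10 : (13 / 4 : ℝ) ≤ (13 / 4) / del := by
      rw [le_div_iff₀ hdel]; nlinarith
    have h11 : 5 / del = (13 / 4) / del + 1 / del + (3 / 4) / del := by ring
    have h12 : 0 ≤ (3 / 4 : ℝ) / del := by positivity
    rw [h11]
    linarith
  have key := c3_cub (μ := g1 (Co n LB LF)) hw (φ := φ) (Q := Qk n b cB cF s η lam c x S K)
    (Q' := Q0k n b cB cF s η lam c x S K') (CC := CCv n b cB cF s η lam c x S K')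
    (M4 := M4v n b cB cF s η lam c x S K') (k2 := RKk n b cB cF s η lam c x S K')
    (k4 := fun z => 8 * K4v n b cB cF s η lam c x S K' z)
    (q := qkk n b cB cF s η lam c x S K K') (U := U) (del0 := del) (B := 5 / del)
    (P0 := P0) hφ bQ bC bM4 bR (bcm 8 bK4) bq hφ0 hφ1 (Qk_nonneg S K) (Q0k_nonneg S K')
    (CCv_nonneg S K') (RKk_nonneg S K') (fun z => mul_nonneg (by norm_num) (K4v_nonneg S K' z))
    hdel hdelU (CCv_le_two hl hη hn S K') (M4v_le hl hη hn S K') (Q0k_le S K K')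
    (by positivity) hB
  rw [ex_cmul] at key
  refine key.trans (add_le_add le_rfl (mul_le_mul_of_nonneg_left ?_ hP0))
  have e1 := ex_qkk_le (b := b) (cB := cB) (cF := cF) (s := s) (c := c) (x := x) hl hη hn S hK
    hU.le
  have i1 := bm_ind bC.meas (U ^ 2)
  have i2 := bm_ind bQ.meas U
  have e2 : exS n b cB cF s η lam c x (fun z => qkk n b cB cF s η lam c x S K K' z ^ 2) ≤
      4 * U * exS n b cB cF s η lam c x (qkk n b cB cF s η lam c x S K K') +
      49 * (exS n b cB cF s η lam c x (ind (U ^ 2) (CCv n b cB cF s η lam c x S K')) +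
        exS n b cB cF s η lam c x (ind U (Qk n b cB cF s η lam c x S K))) := by
    have h := ex_mono hw (bsq bq) ((bcm (4 * U) bq).add (bcm 49 (i1.add i2)))
      (qkk_sq_le (b := b) (cB := cB) (cF := cF) (s := s) (c := c) (x := x) hl hη hη1 hn S K K'
        hU.le)
    rw [ex_add hw (bcm (4 * U) bq) (bcm 49 (i1.add i2)), ex_cmul, ex_cmul,
      ex_add hw i1 i2] at h
    exact h
  unfold NC3
  have e3 := e2.trans (add_le_add (mul_le_mul_of_nonneg_left e1 (show 0 ≤ 4 * U by positivity))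
    le_rfl)
  have hc0 : 0 ≤ 36 * (U ^ 2 / del) := by positivity
  have e4 := mul_le_mul_of_nonneg_left (add_le_add (mul_le_mul_of_nonneg_left e3
    (show (0 : ℝ) ≤ 16 by norm_num)) (le_refl (2 * ex (g1 (Co n LB LF))
      (wS n b cB cF s η lam c x) (RKk n b cB cF s η lam c x S K')))) hc0
  set X1 := exS n b cB cF s η lam c x (fun z => qkk n b cB cF s η lam c x S K K' z ^ 2)
  linarith

end cube

section final

variable {r0 : ℝ} (hl : 0 < lam) (hη : 0 ≤ η) (hη1 : η ≤ 1 / 2) (hs : s ≠ 0) (hx0 : 0 ≤ x)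
  (hx1 : x < 1) (hn : 0 < n) (hc : c = s ^ 2 * n * (1 - (1 - x) * r0))
include hl hη hη1 hs hx0 hx1 hn hc

/-- **The last square, tested, the cube kept.** -/
theorem c3v_leq {S1 : Finset (Fin n)} (hS : S ⊆ S1) (hi0 : i0 ∉ S) (hne : (S1 \ S).Nonempty)
    {φ : (Co n LB LF → ℝ) → ℝ} (hφ : H646.Dep (Kset S BL FL) φ) (hφb : BM φ)
    (hφ0 : ∀ z, 0 ≤ φ z) {P0 : ℝ} (hφ1 : ∀ z, φ z ≤ P0) {t wf : ℝ}
    (ht : ∑ l ∈ BL, cB l ^ 2 = t) (hwf : ∑ l ∈ FL, cF l ^ 2 = b ^ 2 * wf)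
    (hL : x ^ 2 * (b ^ 2 * (t + wf)) ≤ 1 / 4) {U del : ℝ} (hdel : 0 < del) (hdelU : del ≤ U) (hdel1 : del ≤ 1) :
    C3v n b cB cF s η lam c x (1 - (1 - x) * r0) S BL FL i0 φ ≤
      6 * (P0 * (b ^ 2 * (t * (d0 n b cB cF s η lam c x r0 (Kset S BL FL) (Kset S1 BL FL)
        (S1 \ S).card / √n) ^ 2 +
          wf * H646.d0f n b cB cF s η lam c x r0 (S1 \ S).card ^ 2))) +
      6000000 * (1 + η) ^ 2 * ((2 * b ^ 4 * t ^ 2 + 8 * b ^ 8 * t ^ 4) *
        ((528 * exS n b cB cF s η lam c x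
            (fun z => φ z * Qv n b cB cF s η lam c x S BL FL z ^ 3) +
          16 * del * exS n b cB cF s η lam c x
            (fun z => φ z * Qv n b cB cF s η lam c x S BL FL z ^ 2)) +
        P0 * NC3 U 1 del η
        (exS n b cB cF s η lam c x (Qk n b cB cF s η lam c x S (Kset (insert i0 S) BL FL)) -
          exS n b cB cF s η lam c x (Qk n b cB cF s η lam c x S (Kset S BL FL)))
        (exS n b cB cF s η lam c x (RKk n b cB cF s η lam c x S (Kset (insert i0 S) BL FL)))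
        (exS n b cB cF s η lam c x (K4v n b cB cF s η lam c x S (Kset (insert i0 S) BL FL)))
        0
        (exS n b cB cF s η lam c x
          (ind (U ^ 2) (CCv n b cB cF s η lam c x S (Kset (insert i0 S) BL FL))))
        (exS n b cB cF s η lam c x (ind U (Qk n b cB cF s η lam c x S (Kset S BL FL))))) +
        P0 * (2 * b ^ 4 * wf ^ 2 * (exS n b cB cF s η lam c x
          (Qk n b cB cF s η lam c x S (Kset S BL FL)) + del) + 8 * b ^ 8 * wf ^ 4 / del)) := by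
  have hw : Wt (g1 (Co n LB LF)) (wS n b cB cF s η lam c x) := wtA b cB cF s hl hη c x
  have hG := gmA (n := n) b cB cF s hl hη c
  have hn' : (0 : ℝ) < n := Nat.cast_pos.2 hn
  have hP0 : 0 ≤ P0 := (hφ0 0).trans (hφ1 0)
  have ht0 : 0 ≤ t := by rw [← ht]; exact Finset.sum_nonneg fun _ _ => sq_nonneg _
  set K : Finset (Co n LB LF) := Kset S BL FL with hK
  set K' : Finset (Co n LB LF) := Kset (insert i0 S) BL FL with hK'
  have hKK : K ⊆ K' := Kset_mono (Finset.subset_insert i0 S) (Finset.Subset.refl _)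
    (Finset.Subset.refl _)
  set Q := Qk n b cB cF s η lam c x S K with hQ
  set CC := CCv n b cB cF s η lam c x S K' with hCC
  set M4 := M4v n b cB cF s η lam c x S K' with hM4
  have eQv : Qv n b cB cF s η lam c x S BL FL = Q := rfl
  rw [eQv]
  have bQ : BM Q := bm_Qk hl hη S K
  have dQ : H646.Dep K Q := dep_Qv S BL FL
  have bC : BM CC := bm_CCv hl hη S K'
  have bM4 : BM M4 := bm_M4v hl hη S K'
  have hQ0 : ∀ z, 0 ≤ Q z := Qk_nonneg S K
  have hM : ∀ j, BM (Mv n b cB cF s η lam c x S BL FL j) := fun j => bm_M hl hη K j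
  have hMd : ∀ j, H646.Dep K (Mv n b cB cF s η lam c x S BL FL j) := fun j => dep_cx K
  -- the last square
  set kp := 1 - (1 - x) * r0 with hkp
  set LT : (Co n LB LF → ℝ) → ℝ := fun z => cxS n b cB cF s η lam c x K (fun y =>
      (cxS n b cB cF s η lam c x K' (avS b cB cF s η lam c (fun w => al η w.1 * sp w.2 i0)) y -
        lc (Rw i0 S BL FL) (cfr i0 b cB cF kp (Mv n b cB cF s η lam c x S BL FL) z) y) ^ 2) z
    with hLT
  have bLT : BM LT := by
    have hR : Rw i0 S BL FL ⊆ K' := by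
      rw [hK', ← Rw_union hi0]
      exact Finset.subset_union_right
    have h1 : ∀ j : Fin n, Bd fun ω : ℝ × Xs n => sp ω.2 j := fun j => bm_sp j
    have h2 : Bd fun ω : ℝ × Xs n => al η ω.1 := bm_of_al (n := n) hη
    have h3 : ∀ ω : ℝ × Xs n, (fun ω : ℝ × Xs n => sp ω.2 i0) ω ^ 2 = 1 := fun ω => by
      show sp ω.2 i0 ^ 2 = 1
      rw [sq]
      exact sp_mul_self ω.2 i0
    exact bm_last (T := S) (M := Mv n b cB cF s η lam c x S BL FL)
      (s := fun j (ω : ℝ × Xs n) => sp ω.2 j)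
      (s0 := fun ω : ℝ × Xs n => sp ω.2 i0) (a := fun ω : ℝ × Xs n => al η ω.1)
      hG x (Rw_disj hi0) hKK hR h1 (h1 i0) h3 h2 hM hMd
      (b ^ 2 / n * ∑ l ∈ BL, cB l ^ 2) (∑ l ∈ FL, cF l ^ 2) kp
      (cfr i0 b cB cF kp (Mv n b cB cF s η lam c x S BL FL))
      (fun z ω => ys_cfr b cB cF s η BL FL hi0 kp _ z ω)
      (fun z => sq_cfr b cB cF BL FL hi0 kp _ z)
  -- the vector of the row
  set DV : (Co n LB LF → ℝ) → ℝ := fun z => ∑ e ∈ Rw i0 S BL FL,
      (cxS n b cB cF s η lam c x K (fun y =>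
        cxS n b cB cF s η lam c x K'
          (avS b cB cF s η lam c (fun w => al η w.1 * sp w.2 i0)) y * y e) z -
        cfr i0 b cB cF kp (Mv n b cB cF s η lam c x S BL FL) z e) ^ 2 with hDV
  have bDV : BM DV := by
    have e1 : DV = fun z => b ^ 2 / n * (∑ l ∈ BL, cB l ^ 2) * ∑ j ∈ S,
      (cxS n b cB cF s η lam c x K
        (H615.Th (avS b cB cF s η lam c) x (fun w => al η w.1) (fun w => sp w.2 i0)
          (fun j w => sp w.2 j) j) z - kp * cxS n b cB cF s η lam c x K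
          (avS b cB cF s η lam c (fun w => al η w.1 * sp w.2 j)) z) ^ 2 +
      (∑ l ∈ FL, cF l ^ 2) * (cxS n b cB cF s η lam c x K
        (H615.Tf (avS b cB cF s η lam c) x (fun w => al η w.1) (fun w => sp w.2 i0)) z - kp) ^ 2
      := by
      funext z
      exact dvec_id hl hη hi0 kp z
    have hA : Av (avS (n := n) (LB := LB) (LF := LF) b cB cF s η lam c) := H615.av_gm hG 1
    have h1 : ∀ j : Fin n, Bd fun ω : ℝ × Xs n => sp ω.2 j := fun j => bm_sp j
    have h2 : Bd fun ω : ℝ × Xs n => al η ω.1 := bm_of_al (n := n) hη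
    rw [e1]
    refine BM.add (bcm _ (BM.sum S fun j _ => bsq ((hw.bm_cx K ?_).sub (bcm kp (hM j)))))
      (bcm _ (bsq ((hw.bm_cx K ?_).sub (BM.const kp))))
    · exact bm_Th (s := fun j (ω : ℝ × Xs n) => sp ω.2 j) hA h1 hM h2 (h1 i0) x j
    · exact bm_Tf hA h2 (h1 i0) x
  have hdv := dvec_sk (r0 := r0) hl hη hs hx0 hx1 hc b cB cF BL FL hS hi0 hne hφ hφb hφ0 hφ1
  -- the weights
  set wd : (Co n LB LF → ℝ) → ℝ := fun z => Q z + del with hwd
  have bwd : BM wd := bQ.add (BM.const del)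
  have hwd0 : ∀ z, del ≤ wd z := fun z => by
    have := hQ0 z
    show del ≤ Q z + del
    linarith
  have binv : BM fun z => 1 / wd z := bm_inv bwd.meas hdel hwd0
  have dwd : H646.Dep K wd := fun z z' => by
    show Q (glue K z z') + del = Q z + del
    rw [dQ z z']
  have d1 : H646.Dep K (fun z => φ z * wd z) := H615.Dep.mul hφ dwd
  have d2 : H646.Dep K (fun z => φ z * (1 / wd z)) := H615.Dep.mul hφ (fun z z' => by
    show 1 / wd (glue K z z') = 1 / wd z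
    rw [dwd z z'])
  -- pointwise
  set G : ℝ := 6000000 * (1 + η) ^ 2 with hGd
  have hG0 : 0 ≤ G := by positivity
  have pt : ∀ z, φ z * LT z ≤ 6 * (φ z * DV z) +
      G * ((2 * b ^ 4 * t ^ 2) * (φ z * wd z * cxS n b cB cF s η lam c x K CC z) +
        (8 * b ^ 8 * t ^ 4) * (φ z * (1 / wd z) * cxS n b cB cF s η lam c x K M4 z) +
        ((2 * b ^ 4 * wf ^ 2) * (P0 * wd z) + P0 * (8 * b ^ 8 * wf ^ 4 / del))) := by
    intro z
    have hz : 0 < wd z := lt_of_lt_of_le hdel (hwd0 z)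
    have h := c3z_le (b := b) (s := s) (c := c) (x := x) (cB := cB) (cF := cF) (BL := BL)
      (FL := FL) (i0 := i0) (S := S) hl hη hn hx0 hx1.le hi0 ht hwf hL
      (cfr i0 b cB cF kp (Mv n b cB cF s η lam c x S BL FL) z) hz z
    have h2 := mul_le_mul_of_nonneg_left h (hφ0 z)
    have h3 : φ z * (2 * b ^ 4 * wf ^ 2 * wd z) ≤ P0 * (2 * b ^ 4 * wf ^ 2 * wd z) :=
      mul_le_mul_of_nonneg_right (hφ1 z) (by positivity)
    have h4 : φ z * (8 * b ^ 8 * wf ^ 4 / wd z) ≤ P0 * (8 * b ^ 8 * wf ^ 4 / del) :=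
      mul_le_mul (hφ1 z) (div_le_div_of_nonneg_left (by positivity) hdel (hwd0 z))
        (by positivity) hP0
    have h5 := mul_le_mul_of_nonneg_left (add_le_add h3 h4) hG0
    refine h2.trans ?_
    have e : φ z * (6 * DV z + G * (wd z * (2 * b ^ 4 * t ^ 2 *
          cxS n b cB cF s η lam c x K CC z + 2 * b ^ 4 * wf ^ 2) +
        (8 * b ^ 8 * t ^ 4 * cxS n b cB cF s η lam c x K M4 z +
              8 * b ^ 8 * wf ^ 4) / wd z)) =
        6 * (φ z * DV z) + G * ((2 * b ^ 4 * t ^ 2) *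
          (φ z * wd z * cxS n b cB cF s η lam c x K CC z) +
        (8 * b ^ 8 * t ^ 4) * (φ z * (1 / wd z) * cxS n b cB cF s η lam c x K M4 z)) +
        G * (φ z * (2 * b ^ 4 * wf ^ 2 * wd z) + φ z * (8 * b ^ 8 * wf ^ 4 / wd z)) := by
      field_simp
      ring
    refine (le_of_eq e).trans ?_
    linarith
  -- integrate
  have bcC := hw.bm_cx K bC
  have bcM := hw.bm_cx K bM4
  have b1 : BM fun z => φ z * wd z * cxS n b cB cF s η lam c x K CC z :=
    (hφb.mul bwd).mul bcC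
  have b2 : BM fun z => φ z * (1 / wd z) * cxS n b cB cF s η lam c x K M4 z :=
    (hφb.mul binv).mul bcM
  have b3 : BM fun z => (2 * b ^ 4 * wf ^ 2) * (P0 * wd z) + P0 * (8 * b ^ 8 * wf ^ 4 / del) :=
    (bcm _ (bcm P0 bwd)).add (BM.const _)
  have b4 := ((bcm (2 * b ^ 4 * t ^ 2) b1).add (bcm (8 * b ^ 8 * t ^ 4) b2)).add b3
  have key := ex_mono hw (hφb.mul bLT) ((bcm 6 (hφb.mul bDV)).add (bcm G b4)) pt
  rw [ex_add hw (bcm 6 (hφb.mul bDV)) (bcm G b4), ex_cmul, ex_cmul,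
    ex_add hw ((bcm (2 * b ^ 4 * t ^ 2) b1).add (bcm (8 * b ^ 8 * t ^ 4) b2)) b3,
    ex_add hw (bcm (2 * b ^ 4 * t ^ 2) b1) (bcm (8 * b ^ 8 * t ^ 4) b2), ex_cmul, ex_cmul,
    ex_add hw (bcm _ (bcm P0 bwd)) (BM.const _), ex_cmul, ex_cmul, ex_const hw,
    ex_add hw bQ (BM.const del), ex_const hw] at key
  have s1 : ex (g1 (Co n LB LF)) (wS n b cB cF s η lam c x)
      (fun z => φ z * wd z * cxS n b cB cF s η lam c x K CC z) =
      ex (g1 (Co n LB LF)) (wS n b cB cF s η lam c x) (fun z => φ z * (wd z * CC z)) := by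
    have h1 := ex_cx hw d1 (hφb.mul bwd) bC
    refine h1.trans ?_
    congr 1
    funext z
    ring
  have s2 : ex (g1 (Co n LB LF)) (wS n b cB cF s η lam c x)
      (fun z => φ z * (1 / wd z) * cxS n b cB cF s η lam c x K M4 z) =
      ex (g1 (Co n LB LF)) (wS n b cB cF s η lam c x) (fun z => φ z * (M4 z / wd z)) := by
    have h1 := ex_cx hw d2 (hφb.mul binv) bM4
    refine h1.trans ?_
    congr 1
    funext z
    ring
  have hcube := cube_leq (b := b) (cB := cB) (cF := cF) (s := s) (c := c) (x := x) hl hη hη1 hn S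
    hKK hφb hφ0 hφ1 hdel hdelU hdel1
  have bX1 : BM fun z => φ z * (wd z * CC z) := hφb.mul (bwd.mul bC)
  have bX2 : BM fun z => φ z * (M4 z / wd z) := by
    have e : (fun z => φ z * (M4 z / wd z)) = fun z => φ z * (M4 z * (1 / wd z)) := by
      funext z; ring
    rw [e]
    exact hφb.mul (bM4.mul binv)
  have s3 : ex (g1 (Co n LB LF)) (wS n b cB cF s η lam c x)
      (fun z => φ z * (wd z * CC z)) + ex (g1 (Co n LB LF)) (wS n b cB cF s η lam c x)
      (fun z => φ z * (M4 z / wd z)) = exS n b cB cF s η lam c x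
      (fun z => φ z * ((Q z + del) * CC z + M4 z / (Q z + del))) := by
    rw [← ex_add hw bX1 bX2]
    congr 1
    funext z
    show φ z * ((Q z + del) * CC z) + φ z * (M4 z / (Q z + del)) = _
    ring
  have x1 : 0 ≤ ex (g1 (Co n LB LF)) (wS n b cB cF s η lam c x)
      (fun z => φ z * (wd z * CC z)) := ex_nonneg hw fun z =>
    mul_nonneg (hφ0 z) (mul_nonneg (hdel.le.trans (hwd0 z)) (CCv_nonneg S K' z))
  have x2 : 0 ≤ ex (g1 (Co n LB LF)) (wS n b cB cF s η lam c x)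
      (fun z => φ z * (M4 z / wd z)) := ex_nonneg hw fun z =>
    mul_nonneg (hφ0 z) (div_nonneg (M4v_nonneg S K' z) (hdel.le.trans (hwd0 z)))
  rw [s1, s2] at key
  rw [← s3] at hcube
  set X1 := ex (g1 (Co n LB LF)) (wS n b cB cF s η lam c x) (fun z => φ z * (wd z * CC z))
  set X2 := ex (g1 (Co n LB LF)) (wS n b cB cF s η lam c x) (fun z => φ z * (M4 z / wd z))
  have y1 : 2 * b ^ 4 * t ^ 2 * X1 + 8 * b ^ 8 * t ^ 4 * X2 ≤
      (2 * b ^ 4 * t ^ 2 + 8 * b ^ 8 * t ^ 4) * (X1 + X2) := by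
    have z1 : 0 ≤ 2 * b ^ 4 * t ^ 2 * X2 := by positivity
    have z2 : 0 ≤ 8 * b ^ 8 * t ^ 4 * X1 := by positivity
    nlinarith
  have y2 := y1.trans (mul_le_mul_of_nonneg_left hcube
    (show 0 ≤ 2 * b ^ 4 * t ^ 2 + 8 * b ^ 8 * t ^ 4 by positivity))
  have y3 : 6 * ex (g1 (Co n LB LF)) (wS n b cB cF s η lam c x) (fun z => φ z * DV z) ≤
      6 * (P0 * (b ^ 2 * (t * (d0 n b cB cF s η lam c x r0 K (Kset S1 BL FL)
        (S1 \ S).card / √n) ^ 2 +
          wf * H646.d0f n b cB cF s η lam c x r0 (S1 \ S).card ^ 2))) := by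
    refine mul_le_mul_of_nonneg_left (hdv.trans (le_of_eq ?_)) (by norm_num)
    rw [ht, hwf, div_pow, Real.sq_sqrt hn'.le]
    ring
  have y4 := mul_le_mul_of_nonneg_left (add_le_add y2 (le_refl
    (2 * b ^ 4 * wf ^ 2 * (P0 * (ex (g1 (Co n LB LF)) (wS n b cB cF s η lam c x) Q + del)) +
      P0 * (8 * b ^ 8 * wf ^ 4 / del)))) hG0
  refine key.trans ?_
  refine (add_le_add y3 y4).trans (le_of_eq ?_)
  ring

end final

end levels

section numbers

open Vale.Agent.P157.Lv hiding Dep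
open Vale.Agent.P146.H646
open Vale.Agent.P146.H325 hiding cb cf
open Vale.Agent.P146.H196 Vale.Agent.P146.H347 Vale.Agent.P146.H475 Vale.Agent.P146.H418
  Vale.Agent.P146.H412 Vale.Agent.P146.H320 Vale.Agent.P146.H615

set_option linter.unusedSectionVars false

section main

variable {n : ℕ} {LB LF : Type} [Fintype LB] [DecidableEq LB] [Fintype LF] [DecidableEq LF]
variable {b s η lam c x r0 : ℝ} {cB : LB → ℝ} {cF : LF → ℝ} {BL : Finset LB} {FL : Finset LF}

/-- **The last square, all sizes put in, the cube kept.** -/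
theorem c3_numq (hl : 0 < lam) (hη : 0 ≤ η) (hη1 : η ≤ 1 / 2) (hs : s ≠ 0) (hx0 : 0 ≤ x)
    (hx1 : x < 1) (hn : 0 < n) (hc : c = s ^ 2 * n * (1 - (1 - x) * r0))
    (hk : 0 ≤ 1 - (1 - x) * r0) {S S1 : Finset (Fin n)} (hS : S ⊆ S1) {i0 : Fin n}
    (hi0 : i0 ∉ S) (hne : (S1 \ S).Nonempty)
    {φ : (Co n LB LF → ℝ) → ℝ} (hφ : H646.Dep (Kset S BL FL) φ) (hφb : BM φ)
    (hφ0 : ∀ z, 0 ≤ φ z) {P0 : ℝ} (hφ1 : ∀ z, φ z ≤ P0) {t wf : ℝ}
    (ht : ∑ l ∈ BL, cB l ^ 2 = t) (ht1 : t ≤ 1) (hwf : ∑ l ∈ FL, cF l ^ 2 = b ^ 2 * wf)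
    (hwf0 : 0 ≤ wf) {U θ l0 del I rk k4 pT : ℝ} (hwU : wf ≤ U) (hU0 : 0 < U) (hU1 : U ≤ 1)
    (hxb : 8 * (x ^ 2 * b ^ 2) ≤ 1)
    (hUu : exS n b cB cF s η lam c x
      (CCz n b cB cF s η lam c x (Kset Finset.univ BL FL) Finset.univ) ≤ U ^ 2)
    (hUS : exS n b cB cF s η lam c x
      (fun z => CCz n b cB cF s η lam c x (Kset S BL FL) S z ^ 2) ≤ U ^ 4)
    (hθ : 5 / √((S1 \ S).card) + 2 * |lam / ((1 - x) * (s ^ 2 * n))| +
      3 * ((|r0| + 1) * √(Pst n b cB cF s η lam c x)) / √U ≤ θ)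
    (hdel : 0 < del) (hdelU : del ≤ U)
    (hI : exS n b cB cF s η lam c x (Qk n b cB cF s η lam c x S (Kset (insert i0 S) BL FL)) -
          exS n b cB cF s η lam c x (Qk n b cB cF s η lam c x S (Kset S BL FL)) ≤ I)
    (hrk : exS n b cB cF s η lam c x (RKk n b cB cF s η lam c x S (Kset (insert i0 S) BL FL)) ≤
      rk)
    (hk4 : exS n b cB cF s η lam c x (K4v n b cB cF s η lam c x S (Kset (insert i0 S) BL FL)) ≤
      k4)
    (hp1 : exS n b cB cF s η lam c x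
          (ind (U ^ 2) (CCv n b cB cF s η lam c x S (Kset (insert i0 S) BL FL))) ≤ pT)
    (hp2 : exS n b cB cF s η lam c x (ind U (Qk n b cB cF s η lam c x S (Kset S BL FL))) ≤ pT) :
    C3v n b cB cF s η lam c x (1 - (1 - x) * r0) S BL FL i0 φ ≤
      CBc b η * (528 * exS n b cB cF s η lam c x
            (fun z => φ z * Qv n b cB cF s η lam c x S BL FL z ^ 3) +
          16 * del * exS n b cB cF s η lam c x
            (fun z => φ z * Qv n b cB cF s η lam c x S BL FL z ^ 2)) +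
        P0 * E3c b (1 - (1 - x) * r0) η U θ wf l0 del I rk k4 0 pT := by
  have hw : Wt (g1 (Co n LB LF)) (wS n b cB cF s η lam c x) := wtA b cB cF s hl hη c x
  have hn0 : (0 : ℝ) < n := by exact_mod_cast hn
  have ht0 : 0 ≤ t := by rw [← ht]; exact Finset.sum_nonneg fun _ _ => sq_nonneg _
  have hPP : 0 ≤ P0 := (hφ0 0).trans (hφ1 0)
  have hdel1 : del ≤ 1 := hdelU.trans hU1
  have hL : x ^ 2 * (b ^ 2 * (t + wf)) ≤ 1 / 4 := by
    have h1 : x ^ 2 * b ^ 2 * (t + wf) ≤ x ^ 2 * b ^ 2 * 2 :=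
      mul_le_mul_of_nonneg_left (by linarith) (by positivity)
    nlinarith
  have key := c3v_leq (BL := BL) (FL := FL) (cB := cB) (cF := cF) (b := b) hl hη hη1 hs hx0 hx1
    hn hc hS hi0 hne hφ hφb hφ0 hφ1 ht hwf hL hdel hdelU hdel1
  obtain ⟨m1, -, -, -⟩ := Q_moms (b := b) (cB := cB) (cF := cF) (s := s) (c := c) (x := x)
    hl hη hη1 hn S BL FL hU0.le hUS
  have hP0 := Pst_nonneg (n := n) (b := b) (cB := cB) (cF := cF) (s := s) (c := c) (x := x) hl hη
  have hD0 : (0 : ℝ) ≤ ((S1 \ S).card : ℝ) := Nat.cast_nonneg _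
  have hθ0 : 0 ≤ θ := le_trans (by positivity) hθ
  have hR2S := sqrt_le_num (by positivity) (R2_le (b := b) (cB := cB) (cF := cF) (s := s)
    (c := c) (x := x) hl hη BL FL hn S hUu)
  have hR2S1 := sqrt_le_num (by positivity) (R2_le (b := b) (cB := cB) (cF := cF) (s := s)
    (c := c) (x := x) hl hη BL FL hn S1 hUu)
  have hd : d0 n b cB cF s η lam c x r0 (Kset S BL FL) (Kset S1 BL FL) (S1 \ S).card / √n ≤
      √U * θ := d0_core hη hη1 hx0 hn0 hP0 hD0 hU0 hR2S1 hR2S hθ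
  have hd' : 0 ≤ d0 n b cB cF s η lam c x r0 (Kset S BL FL) (Kset S1 BL FL) (S1 \ S).card /
      √n := by
    refine div_nonneg ?_ (Real.sqrt_nonneg _)
    unfold d0
    exact add_nonneg (Real.sqrt_nonneg _) (mul_nonneg (by linarith) (Real.sqrt_nonneg _))
  have hdf : H646.d0f n b cB cF s η lam c x r0 (S1 \ S).card ≤
      θ + (1 - (1 - x) * r0) * η := by
    unfold H646.d0f
    rw [abs_of_nonneg hk]
    exact add_le_add (df_core hη hη1 hx0 hP0 hD0 hU0 hU1 hθ) le_rfl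
  have hdf' : 0 ≤ H646.d0f n b cB cF s η lam c x r0 (S1 \ S).card := by
    unfold H646.d0f
    exact add_nonneg (add_nonneg (Real.sqrt_nonneg _)
      (mul_nonneg (by linarith) (Real.sqrt_nonneg _))) (mul_nonneg (abs_nonneg _) hη)
  set dd := d0 n b cB cF s η lam c x r0 (Kset S BL FL) (Kset S1 BL FL) (S1 \ S).card / √n
  set df := H646.d0f n b cB cF s η lam c x r0 (S1 \ S).card
  set q2 := exS n b cB cF s η lam c x
    (fun z => φ z * Qv n b cB cF s η lam c x S BL FL z ^ 2) with hq2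
  set q3 := exS n b cB cF s η lam c x
    (fun z => φ z * Qv n b cB cF s η lam c x S BL FL z ^ 3) with hq3
  have hq20 : 0 ≤ q2 := ex_nonneg hw fun z => mul_nonneg (hφ0 z) (sq_nonneg _)
  have hq30 : 0 ≤ q3 := ex_nonneg hw fun z => mul_nonneg (hφ0 z)
    (pow_nonneg (Qk_nonneg S (Kset S BL FL) z) 3)
  have hQ : exS n b cB cF s η lam c x (Qk n b cB cF s η lam c x S (Kset S BL FL)) ≤
      9 / 4 * U := m1
  have hNC := NC3_mono (η := η) (l0 := 1) (p0 := 0) (p0' := 0) hU0.le one_pos hdel hI hrk hk4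
    le_rfl hp1 hp2
  set NN := NC3 U 1 del η
        (exS n b cB cF s η lam c x (Qk n b cB cF s η lam c x S (Kset (insert i0 S) BL FL)) -
          exS n b cB cF s η lam c x (Qk n b cB cF s η lam c x S (Kset S BL FL)))
        (exS n b cB cF s η lam c x (RKk n b cB cF s η lam c x S (Kset (insert i0 S) BL FL)))
        (exS n b cB cF s η lam c x (K4v n b cB cF s η lam c x S (Kset (insert i0 S) BL FL)))
        0
        (exS n b cB cF s η lam c x
          (ind (U ^ 2) (CCv n b cB cF s η lam c x S (Kset (insert i0 S) BL FL))))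
        (exS n b cB cF s η lam c x (ind U (Qk n b cB cF s η lam c x S (Kset S BL FL)))) with hNN
  have hNN0 : 0 ≤ NN := by
    have hKK : Kset S BL FL ⊆ Kset (LB := LB) (LF := LF) (insert i0 S) BL FL :=
      Kset_mono (Finset.subset_insert i0 S) (Finset.Subset.refl _) (Finset.Subset.refl _)
    have a1 : 0 ≤ exS n b cB cF s η lam c x
        (Qk n b cB cF s η lam c x S (Kset (insert i0 S) BL FL)) -
          exS n b cB cF s η lam c x (Qk n b cB cF s η lam c x S (Kset S BL FL)) := by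
      rw [sub_nonneg]
      have e2 : ∀ K : Finset (Co n LB LF), exS n b cB cF s η lam c x
          (Qk n b cB cF s η lam c x S K) = (n : ℝ)⁻¹ * ∑ j ∈ S, exS n b cB cF s η lam c x
          (fun z => cxS n b cB cF s η lam c x K
          (avS b cB cF s η lam c (fun w => al η w.1 * H325.sp w.2 j)) z ^ 2) := by
        intro K
        have e2 : Qk n b cB cF s η lam c x S K = fun z => (n : ℝ)⁻¹ * ∑ j ∈ S,
            cxS n b cB cF s η lam c x K
            (avS b cB cF s η lam c (fun w => al η w.1 * H325.sp w.2 j)) z ^ 2 := by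
          funext z
          unfold Qk
          rw [div_eq_inv_mul]
        rw [e2]
        show ex _ _ _ = _
        rw [ex_cmul, ex_sum hw S fun j _ => bsq (bm_M (b := b) (cB := cB) (cF := cF) (s := s)
          (c := c) (x := x) hl hη K j)]
      rw [e2, e2]
      refine mul_le_mul_of_nonneg_left (Finset.sum_le_sum fun j _ => ?_) (by positivity)
      exact ex_cx_sq_mono hw hKK (H615.bm_as hl hη j)
    have a2 : ∀ {f : (Co n LB LF → ℝ) → ℝ}, (∀ z, 0 ≤ f z) → 0 ≤ exS n b cB cF s η lam c x f :=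
      fun hf => ex_nonneg hw hf
    have b1 := a2 (RKk_nonneg (b := b) (cB := cB) (cF := cF) (s := s) (η := η) (lam := lam)
      (c := c) (x := x) S (Kset (insert i0 S) BL FL))
    have b2 := a2 (K4v_nonneg (b := b) (cB := cB) (cF := cF) (s := s) (η := η) (lam := lam)
      (c := c) (x := x) S (Kset (insert i0 S) BL FL))
    have b4 := a2 (ind_nonneg (U ^ 2) (CCv n b cB cF s η lam c x S (Kset (insert i0 S) BL FL)))
    have b5 := a2 (ind_nonneg U (Qk n b cB cF s η lam c x S (Kset S BL FL)))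
    rw [hNN]
    unfold NC3
    positivity
  have hg : 0 ≤ 6000000 * (1 + η) ^ 2 := by positivity
  -- the direction of the row
  have z1 : b ^ 2 * (t * dd ^ 2 + wf * df ^ 2) ≤
      b ^ 2 * (U * θ ^ 2 + wf * (θ + (1 - (1 - x) * r0) * η) ^ 2) := by
    have y1 : dd ^ 2 ≤ U * θ ^ 2 := by
      have := pow_le_pow_left₀ hd' hd 2
      rwa [mul_pow, Real.sq_sqrt hU0.le] at this
    have y2 : df ^ 2 ≤ (θ + (1 - (1 - x) * r0) * η) ^ 2 := pow_le_pow_left₀ hdf' hdf 2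
    have y3 : t * dd ^ 2 ≤ 1 * (U * θ ^ 2) := mul_le_mul ht1 y1 (sq_nonneg _) zero_le_one
    have y4 := mul_le_mul_of_nonneg_left y2 hwf0
    exact mul_le_mul_of_nonneg_left (by linarith) (sq_nonneg b)
  have ht2 : t ^ 2 ≤ 1 := pow_le_one₀ ht0 ht1
  have ht4 : t ^ 4 ≤ 1 := pow_le_one₀ ht0 ht1
  have z2 : 2 * b ^ 4 * t ^ 2 + 8 * b ^ 8 * t ^ 4 ≤ 2 * b ^ 4 + 8 * b ^ 8 := by
    have y1 : 2 * b ^ 4 * t ^ 2 ≤ 2 * b ^ 4 * 1 := mul_le_mul_of_nonneg_left ht2 (by positivity)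
    have y2 : 8 * b ^ 8 * t ^ 4 ≤ 8 * b ^ 8 * 1 := mul_le_mul_of_nonneg_left ht4 (by positivity)
    linarith
  have z3 : (2 * b ^ 4 * t ^ 2 + 8 * b ^ 8 * t ^ 4) * ((528 * q3 + 16 * del * q2) + P0 * NN) ≤
      (2 * b ^ 4 + 8 * b ^ 8) * ((528 * q3 + 16 * del * q2) +
        P0 * NC3 U 1 del η I rk k4 0 pT pT) := by
    have y1 : P0 * NN ≤ P0 * NC3 U 1 del η I rk k4 0 pT pT :=
      mul_le_mul_of_nonneg_left hNC hPP
    have y2 : 0 ≤ (528 * q3 + 16 * del * q2) + P0 * NN := by positivity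
    exact mul_le_mul z2 (by linarith) y2 (by positivity)
  have z4 : 2 * b ^ 4 * wf ^ 2 * (exS n b cB cF s η lam c x
      (Qk n b cB cF s η lam c x S (Kset S BL FL)) + del) ≤
      2 * b ^ 4 * wf ^ 2 * (9 / 4 * U + del) :=
    mul_le_mul_of_nonneg_left (by linarith) (by positivity)
  refine key.trans ?_
  have z5 := mul_le_mul_of_nonneg_left (add_le_add z3 (mul_le_mul_of_nonneg_left
    (add_le_add z4 (le_refl (8 * b ^ 8 * wf ^ 4 / del))) hPP)) hg
  have z6 := mul_le_mul_of_nonneg_left (mul_le_mul_of_nonneg_left z1 hPP)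
    (show (0 : ℝ) ≤ 6 by norm_num)
  refine (add_le_add z6 z5).trans (le_of_eq ?_)
  unfold E3c CBc NC3
  ring


end main

section law

variable {L : Law} {t u : ℝ}

/-- **The last square on the names of Skel**, test function `φ (Q)`. -/
theorem c3_skq (hA : Adm L) (hη1 : L.η ≤ 1 / 2) (hs : L.s ≠ 0) (hx1 : L.x < 1) {r0 : ℝ}
    (hc : L.c = L.s ^ 2 * L.n * (1 - (1 - L.x) * r0)) (hk : 0 ≤ 1 - (1 - L.x) * r0) {m : ℕ}
    (hm1 : 1 ≤ m) (hm : m ≤ L.n) {i0 : Fin L.n} (hi : i0.1 + m = L.n) (ht : 0 ≤ t)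
    (ht1 : t ≤ 1) (hu : 0 ≤ u) {φ : ℝ → ℝ} (hφm : Measurable φ) {P0 : ℝ}
    (hφ0 : ∀ q, 0 ≤ q → 0 ≤ φ q) (hφ1 : ∀ q, 0 ≤ q → φ q ≤ P0)
    {U θ l0 del I rk k4 pT : ℝ} (hwU : u * L.vp / L.b ^ 2 ≤ U) (hU0 : 0 < U) (hU1 : U ≤ 1)
    (hxb : 8 * (L.x ^ 2 * L.b ^ 2) ≤ 1)
    (hUu : L.ex' t u (H412.CC L Finset.univ t u) ≤ U ^ 2)
    (hUS : L.ex' t u (fun z => H412.CC L (Sn L.n m) t u z ^ 2) ≤ U ^ 4)
    (hθ : 5 / √m + 2 * |L.lam / ((1 - L.x) * (L.s ^ 2 * L.n))| +
      3 * ((|r0| + 1) * √(PstL L t u)) / √U ≤ θ)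
    (hdel : 0 < del) (hdelU : del ≤ U)
    (hI : incL L (H418.cb t) (H418.cf L.vp u) (Sn L.n m) (Kset (Sn L.n m) {true} {true})
      (Kset (insert i0 (Sn L.n m)) {true} {true}) ≤ I)
    (hrk : L.rk (Sn L.n (m - 1)) t u ≤ rk)
    (hk4 : rbL L (H418.cb t) (H418.cf L.vp u) (Sn L.n (m - 1))
      (Kset (Sn L.n (m - 1)) {true} {true}) ≤ (L.n : ℝ) ^ 4 * k4)
    (hp1 : L.ex' t u (ind (U ^ 2) (H412.CC L (Sn L.n (m - 1)) t u)) ≤ pT)
    (hp2 : L.ex' t u (ind U (L.Q (Sn L.n m) t u)) ≤ pT) :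
    H615.C3v L.n L.b (H418.cb t) (H418.cf L.vp u) L.s L.η L.lam L.c L.x
        (1 - (1 - L.x) * r0) (Sn L.n m) {true} {true} i0
        (fun z => φ (L.Q (Sn L.n m) t u z)) ≤
      CBc L.b L.η * (528 *
          L.ex' t u (fun z => φ (L.Q (Sn L.n m) t u z) * L.Q (Sn L.n m) t u z ^ 3) + 16 * del *
          L.ex' t u (fun z => φ (L.Q (Sn L.n m) t u z) * L.Q (Sn L.n m) t u z ^ 2)) +
      P0 * E3c L.b (1 - (1 - L.x) * r0) L.η U θ (u * L.vp / L.b ^ 2) l0 del (I / L.n) rk k4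
        0 pT := by
  have hn0 : (0 : ℝ) < L.n := by exact_mod_cast hA.n0
  have hw : Wt (g1 (Co L.n Bool Bool))
      (wS L.n L.b (H418.cb t) (H418.cf L.vp u) L.s L.η L.lam L.c L.x) :=
    wtA (n := L.n) L.b (H418.cb t) (H418.cf L.vp u) L.s hA.lam0 hA.η0 L.c L.x
  have hi1 : i0 ∉ Sn L.n m := by
    simp only [Sn, Finset.mem_filter, Finset.mem_univ, true_and]
    omega
  have hne : ((Finset.univ : Finset (Fin L.n)) \ Sn L.n m).Nonempty :=
    ⟨i0, Finset.mem_sdiff.2 ⟨Finset.mem_univ _, hi1⟩⟩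
  have hins : insert i0 (Sn L.n m) = Sn L.n (m - 1) := Sn_ins hm1 hi
  have hsub : Sn L.n m ⊆ Sn L.n (m - 1) := by
    rw [← hins]
    exact Finset.subset_insert _ _
  have bQ : BM (L.Q (Sn L.n m) t u) :=
    H615.bm_Qv (b := L.b) (cB := H418.cb t) (cF := H418.cf L.vp u) (s := L.s) (c := L.c)
      (x := L.x) hA.lam0 hA.η0 (Sn L.n m) {true} {true}
  have dQ : H646.Dep (Kset (Sn L.n m) {true} {true}) (L.Q (Sn L.n m) t u) :=
    H615.dep_Qv (b := L.b) (cB := H418.cb t) (cF := H418.cf L.vp u) (s := L.s) (c := L.c)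
      (x := L.x) (Sn L.n m) {true} {true}
  have hQ0 : ∀ z, 0 ≤ L.Q (Sn L.n m) t u z := fun z =>
    div_nonneg (Finset.sum_nonneg fun _ _ => sq_nonneg _) (Nat.cast_nonneg _)
  have bφ : BM fun z => φ (L.Q (Sn L.n m) t u z) := ⟨hφm.comp bQ.meas, P0, fun z => by
    rw [abs_of_nonneg (hφ0 _ (hQ0 z))]
    exact hφ1 _ (hQ0 z)⟩
  have dφ : H646.Dep (Kset (Sn L.n m) {true} {true}) fun z => φ (L.Q (Sn L.n m) t u z) := by
    intro z z'
    simp only [dQ z z']
  have key := c3_numq (n := L.n) (b := L.b) (cB := H418.cb t) (cF := H418.cf L.vp u) (s := L.s)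
    (η := L.η) (lam := L.lam) (c := L.c) (x := L.x) (r0 := r0) (S := Sn L.n m)
    (S1 := Finset.univ) (i0 := i0) (BL := {true}) (FL := {true})
    (U := U) (θ := θ) (l0 := l0) (del := del) (I := I / L.n) (rk := rk) (k4 := k4)
    (pT := pT) (P0 := P0) hA.lam0 hA.η0 hη1 hs hA.x0 hx1 hA.n0 hc hk (Finset.subset_univ _) hi1
    hne dφ bφ (fun z => hφ0 _ (hQ0 z)) (fun z => hφ1 _ (hQ0 z)) (cb_true ht) ht1
    (cf_true hA.vp0.le hu hA.b0.ne') (by
      have := hA.vp0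
      have := hA.b0
      positivity) hwU hU0 hU1 hxb (by rw [ex_CC hA.lam0 hA.η0]; exact hUu)
    (by rw [ex_CC2 hA.lam0 hA.η0]; exact hUS) (by rw [card_hidden hm]; exact hθ) hdel
    hdelU ?_ ?_ ?_ ?_ ?_
  · exact key
  · -- the increment
    have e1 : ∀ K : Finset (Co L.n Bool Bool),
        exS L.n L.b (H418.cb t) (H418.cf L.vp u) L.s L.η L.lam L.c L.x
          (Qk L.n L.b (H418.cb t) (H418.cf L.vp u) L.s L.η L.lam L.c L.x (Sn L.n m) K) =
        (L.n : ℝ)⁻¹ * ∑ j ∈ Sn L.n m, exL L (H418.cb t) (H418.cf L.vp u)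
          (fun z => cxL L (H418.cb t) (H418.cf L.vp u) K
            (fun w => al L.η w.1 * H325.sp w.2 j) z ^ 2) := by
      intro K
      have e2 : Qk L.n L.b (H418.cb t) (H418.cf L.vp u) L.s L.η L.lam L.c L.x (Sn L.n m) K =
          fun z => (L.n : ℝ)⁻¹ * ∑ j ∈ Sn L.n m, cxS L.n L.b (H418.cb t) (H418.cf L.vp u) L.s
            L.η L.lam L.c L.x K (avS L.b (H418.cb t) (H418.cf L.vp u) L.s L.η L.lam L.c
              (fun w => al L.η w.1 * H325.sp w.2 j)) z ^ 2 := by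
        funext z
        unfold Qk
        rw [div_eq_inv_mul]
      rw [e2]
      show ex _ _ _ = _
      rw [ex_cmul, ex_sum hw _ fun j _ => bsq (bm_M (b := L.b) (cB := H418.cb t)
        (cF := H418.cf L.vp u) (s := L.s) (c := L.c) (x := L.x) hA.lam0 hA.η0 K j)]
    rw [e1, e1, ← mul_sub, ← Finset.sum_sub_distrib, div_eq_inv_mul]
    exact mul_le_mul_of_nonneg_left hI (by positivity)
  · -- rank one
    have h1 := ex_mono hw (bm_RKk (b := L.b) (cB := H418.cb t) (cF := H418.cf L.vp u)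
      (s := L.s) (c := L.c) (x := L.x) hA.lam0 hA.η0 (Sn L.n m)
      (Kset (insert i0 (Sn L.n m)) {true} {true}))
      (bm_RKk (b := L.b) (cB := H418.cb t) (cF := H418.cf L.vp u)
      (s := L.s) (c := L.c) (x := L.x) hA.lam0 hA.η0 (Sn L.n (m - 1))
      (Kset (insert i0 (Sn L.n m)) {true} {true})) fun z => RKk_mono hsub _ z
    refine le_trans h1 ?_
    rw [hins]
    refine le_trans (le_of_eq ?_) hrk
    exact RKv_rk (L := L) (t := t) (u := u) (Sn L.n (m - 1))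
  · -- pairs
    have h1 := ex_mono hw (bm_K4v (b := L.b) (cB := H418.cb t) (cF := H418.cf L.vp u)
      (s := L.s) (c := L.c) (x := L.x) hA.lam0 hA.η0 (Sn L.n m)
      (Kset (insert i0 (Sn L.n m)) {true} {true}))
      (bm_K4v (b := L.b) (cB := H418.cb t) (cF := H418.cf L.vp u)
      (s := L.s) (c := L.c) (x := L.x) hA.lam0 hA.η0 (Sn L.n (m - 1))
      (Kset (insert i0 (Sn L.n m)) {true} {true})) fun z => K4v_mono hsub _ z
    refine le_trans h1 ?_
    rw [hins]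
    have e2 : K4v L.n L.b (H418.cb t) (H418.cf L.vp u) L.s L.η L.lam L.c L.x (Sn L.n (m - 1))
        (Kset (Sn L.n (m - 1)) {true} {true}) = fun z => ((L.n : ℝ) ^ 4)⁻¹ *
        ∑ q ∈ H119.ps (Sn L.n (m - 1)), ∑ r ∈ H119.ps (Sn L.n (m - 1)),
        (cxL L (H418.cb t) (H418.cf L.vp u) (Kset (Sn L.n (m - 1)) {true} {true})
          (fun w => SkS q w.2 * SkS r w.2) z -
        cxL L (H418.cb t) (H418.cf L.vp u) (Kset (Sn L.n (m - 1)) {true} {true})
          (fun w => SkS q w.2) z *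
        cxL L (H418.cb t) (H418.cf L.vp u) (Kset (Sn L.n (m - 1)) {true} {true})
          (fun w => SkS r w.2) z) ^ 2 := by
      funext z
      unfold K4v k4L
      rw [div_eq_inv_mul]
      rfl
    rw [e2]
    show ex _ _ _ ≤ _
    rw [ex_cmul, inv_mul_le_iff₀ (by positivity)]
    exact hk4
  · refine le_trans (ex_mono hw (bm_ind (bm_CCv (b := L.b) (cB := H418.cb t)
      (cF := H418.cf L.vp u) (s := L.s) (c := L.c) (x := L.x) hA.lam0 hA.η0 _ _).meas _)
      (bm_ind (bm_CCv (b := L.b) (cB := H418.cb t)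
      (cF := H418.cf L.vp u) (s := L.s) (c := L.c) (x := L.x) hA.lam0 hA.η0
        (Sn L.n (m - 1)) _).meas _) fun z => ind_mono _ (CCv_mono hsub _ z)) ?_
    rw [hins]
    exact hp1
  · exact hp2


end law

end numbers

section window

open Vale.Agent.P157.Lv hiding Dep
open Vale.Agent.P146.H646
open Vale.Agent.P146.H325 hiding cb cf
open Vale.Agent.P146.H196 Vale.Agent.P146.H347 Vale.Agent.P146.H475 Vale.Agent.P146.H418
  Vale.Agent.P146.H412 Vale.Agent.P146.H320 Vale.Agent.P146.H529 Vale.Agent.P146.H470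
  Vale.Agent.P146.H516 Vale.Agent.P146.H615 Vale.Agent.P146.H620.Low
open Set

set_option linter.unusedSectionVars false

variable {a0 b₁ q A b D : ℝ} {n : ℕ} {y V al s lam η T u : ℝ}

/-- **The last square on the window, the cube kept.** -/
theorem c3_kwq (h : NW a0 b₁ q A b n y V al s lam η) (hD : 2 ≤ D)
    (hT : (n : ℝ) ^ (-(71 * q)) * y ^ 2 ≤ T) (hT1 : T ≤ 1)
    (hu : u ∈ Icc (1 - 2 * dl q n) (1 - dl q n)) {m : ℕ}
    (hm : m ∈ Finset.Icc (mm q n y) (2 * mm q n y))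
    (hp : PtN q D (lawOf n b y V al s lam η) (rq b y al) T u m)
    (hrb : rbL (lawOf n b y V al s lam η) (H418.cb (1 - T)) (H418.cf (V - s ^ 2) u)
      (Sn n (m - 1)) (Kset (Sn n (m - 1)) {true} {true}) / (n : ℝ) ^ 4 ≤
        (n : ℝ) ^ (10 * q) * y ^ 2 / (n * T ^ 2))
    {φ : ℝ → ℝ} (hφm : Measurable φ) {P0 : ℝ} (hφ0 : ∀ x, 0 ≤ x → 0 ≤ φ x)
    (hφ1 : ∀ x, 0 ≤ x → φ x ≤ P0) {i0 : Fin n} (hi : i0.1 + m = n) :
    H75.C3U (lawOf n b y V al s lam η) (rq b y al) φ m (1 - T) u i0 ≤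
      CBc b η * (528 * (lawOf n b y V al s lam η).ex' (1 - T) u (fun z =>
          φ ((lawOf n b y V al s lam η).Q (Sn n m) (1 - T) u z) *
            (lawOf n b y V al s lam η).Q (Sn n m) (1 - T) u z ^ 3) +
        16 * dn q n y * (lawOf n b y V al s lam η).ex' (1 - T) u (fun z =>
          φ ((lawOf n b y V al s lam η).Q (Sn n m) (1 - T) u z) *
            (lawOf n b y V al s lam η).Q (Sn n m) (1 - T) u z ^ 2)) +
      P0 * ((n : ℝ) ^ (-(72 * q)) * y ^ 3) := by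
  obtain ⟨k1, k2, k3, k4, k5, k6, k7, k8⟩ := h.bd
  have hln := (nw_ln h)
  have hT0 := (logT h hT hT1).1
  obtain ⟨v1, v2, v3, v4, v5⟩ := h.u_mem hu
  obtain ⟨m1, m2, m3, m4⟩ := h.mm_facts
  obtain ⟨hA, a1, a2⟩ := h.adm
  have hn := h.env.n0
  have hy := h.env.y0
  have hb := h.b0
  have hal := abs_le.1 h.al_small
  have hmI := Finset.mem_Icc.1 hm
  have hm2 : (m : ℝ) ≤ n / 2 := by
    have : (m : ℝ) ≤ 2 * (mm q n y : ℝ) := by exact_mod_cast hmI.2
    linarith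
  have hmn : m ≤ n := by
    have : (m : ℝ) ≤ n := by linarith
    exact_mod_cast this
  have hm1 : 1 ≤ m := m2.trans hmI.1
  have hy1 : y < 1 := by linarith
  have hkp := rq_eq (b := b) (al := al) hy1
  have hk0 : 0 < (1 + al) / b := div_pos (by linarith) hb
  have hbk : b * (1 - (1 - y) * rq b y al) = 1 + al := b_rq hb hy1
  have hkk : 0 ≤ 1 - (1 - y) * rq b y al := by
    rw [hkp]
    exact hk0.le
  have hUq0 : 0 < Uq q n y T := hp.U0
  have hUU := nw_Uq_le h hT hT1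
  have hU0 := Uc_pos hln
  have hUle := Uc_le_one hln
  have hP0 : 0 ≤ P0 := (hφ0 0 le_rfl).trans (hφ1 0 le_rfl)
  set L := lawOf n b y V al s lam η with hL
  have hw : Wt (g1 (Co L.n Bool Bool))
      (wS L.n L.b (H418.cb (1 - T)) (H418.cf L.vp u) L.s L.η L.lam L.c L.x) :=
    wtA (n := L.n) L.b (H418.cb (1 - T)) (H418.cf L.vp u) L.s hA.lam0 hA.η0 L.c L.x
  have hpT : (n : ℝ) ^ (-D) ≤ (n : ℝ) ^ (-2 : ℝ) :=
    Real.rpow_le_rpow_of_exponent_le (by exact_mod_cast h.kw.n1.le) (by linarith)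
  have hwf : u * (V - s ^ 2) / b ^ 2 ≤ 1 / b ^ 2 * V := nw_wf_V h ⟨by linarith, v2⟩
  have hwf0 : 0 ≤ u * (V - s ^ 2) / b ^ 2 := le_of_lt hp.w0
  have key := c3_skq (L := L) hA (show η ≤ 1 / 2 by linarith) h.kw.s0.ne' hy1
    (r0 := rq b y al) (cc_rq hy1) hkk hm1 hmn hi (t := 1 - T) (by linarith) (by linarith)
    (u := u) (by linarith) hφm hφ0 hφ1 (U := Uc q n y) (θ := tn q n y) (l0 := l0n q n y)
    (del := dn q n y) (I := In q n y) (rk := tn q n y) (k4 := kn q n y)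
    (pT := (n : ℝ) ^ (-2 : ℝ))
    (hp.wU.trans hUU) hU0 hUle (by
      show 8 * (y ^ 2 * b ^ 2) ≤ 1
      nlinarith [sq_nonneg (y * b)])
    ((hp.ap.m1 _).trans (pow_le_pow_left₀ hUq0.le hUU 2))
    ((hp.ap.m2 _).trans (pow_le_pow_left₀ hUq0.le hUU 4)) ?_
    (dn_pos hln) (dn_le hln) ((hp.inc i0 hi).trans (nw_inc_In h hT hT1))
    ((hp.rk _ (Or.inr rfl)).trans (nw_rk_tn h hT hT1)) ?_ ?_ ?_
  · have e4 := e3c_ln (b := b) (kp := 1 - (1 - y) * rq b y al) (wf := u * (V - s ^ 2) / b ^ 2)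
      (η := η) (p0 := 0) (pT := (n : ℝ) ^ (-2 : ℝ)) hln hb hkk
      (by rw [hbk]; linarith) (by
        rw [one_div, Real.log_inv, Real.log_pow]
        push_cast
        have z1 := neg_abs_le (Real.log b)
        have z2 := abs_nonneg (Real.log A)
        have z3 := abs_nonneg (Real.log b)
        linarith) ((log_C3b hb).trans (by linarith [abs_nonneg (Real.log A)])) hwf0 hwf
      h.kw.η0.le (by linarith) h.kw.η1 (by positivity) (by positivity) le_rfl
    exact key.trans (add_le_add le_rfl (mul_le_mul_of_nonneg_left e4 hP0))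
  · -- the angle
    refine le_trans ?_ (hp.th.trans (nw_th_tn h))
    refine add_le_add le_rfl (div_le_div_of_nonneg_left ?_ (Real.sqrt_pos.2 hUq0)
      (Real.sqrt_le_sqrt hUU))
    have := abs_nonneg (rq b y al)
    positivity
  · -- the pairs
    have h1 := hrb.trans (nw_rb_kn h hT hT1)
    rw [div_le_iff₀ (by positivity)] at h1
    refine h1.trans (le_of_eq ?_)
    show kn q n y * (n : ℝ) ^ 4 = (n : ℝ) ^ 4 * kn q n y
    ring
  · refine le_trans ?_ ((hp.ap.tC (Sn n (m - 1))).trans hpT)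
    exact ex_ind_anti hw (bm_CCv (b := L.b) (cB := H418.cb (1 - T)) (cF := H418.cf L.vp u)
      (s := L.s) (c := L.c) (x := L.x) hA.lam0 hA.η0 (Sn L.n (m - 1)) _).meas
      (pow_le_pow_left₀ hUq0.le hUU 2)
  · refine le_trans ?_ ((hp.ap.tQ (Sn n m)).trans hpT)
    have bQ : BM (L.Q (Sn L.n m) (1 - T) u) :=
      H615.bm_Qv (b := L.b) (cB := H418.cb (1 - T)) (cF := H418.cf L.vp u) (s := L.s) (c := L.c)
        (x := L.x) hA.lam0 hA.η0 (Sn L.n m) {true} {true}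
    exact ex_ind_anti hw bQ.meas hUU

end window

end Vale.Agent.P146.H317
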