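import Vale.Agent.P146.H317.C3Abs
import Vale.Agent.P146.H339.BigRoot

/-!
# P146: the mean `ex μ w` as an integral

`Px μ w` is the probability measure with density `w / ∫ w`; `∫ f dPx = ex μ w f`. The second moment
of a conditional mean `cx` on an event of the coarser coordinates is monotone. `br_ex` is
`H339.BR.big_root_L1` with all hypotheses in terms of `ex`.
-/

open MeasureTheory

namespace Vale.Agent.P146.H317

open Vale.Agent.P146.H646 Vale.Agent.P146.H615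

set_option linter.unusedSectionVars false

variable {κ : Type*} [Fintype κ] [DecidableEq κ] {μ : κ → Measure ℝ}
  [∀ e, IsProbabilityMeasure (μ e)] {w Ψ Φ : (κ → ℝ) → ℝ} {K K1 K2 : Finset κ}

/-- the law with density `w / ∫ w`. -/
noncomputable def Px (μ : κ → Measure ℝ) [∀ e, IsProbabilityMeasure (μ e)]
    (w : (κ → ℝ) → ℝ) : Measure (κ → ℝ) :=
  (Measure.pi μ).withDensity fun z => ENNReal.ofReal (w z / ∫ z, w z ∂(Measure.pi μ))

lemma dens_nonneg (hw : Wt μ w) (z : κ → ℝ) : 0 ≤ w z / ∫ z, w z ∂(Measure.pi μ) :=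
  div_nonneg (hw.pos z).le hw.tot_pos.le

lemma dens_meas (hw : Wt μ w) :
    Measurable fun z => (w z / ∫ z, w z ∂(Measure.pi μ)) := hw.meas.div_const _

/-- the integral against `Px` is the mean `ex`. -/
theorem int_Px (hw : Wt μ w) (f : (κ → ℝ) → ℝ) : ∫ z, f z ∂(Px μ w) = ex μ w f := by
  unfold Px ex
  have h1 := integral_withDensity_eq_integral_toReal_smul (μ := Measure.pi μ)
    (f := fun z => ENNReal.ofReal (w z / ∫ z, w z ∂(Measure.pi μ)))
    (dens_meas hw).ennreal_ofReal (Filter.Eventually.of_forall fun z => ENNReal.ofReal_lt_top) f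
  rw [h1, ← integral_div]
  refine integral_congr_ae (Filter.Eventually.of_forall fun z => ?_)
  show (ENNReal.ofReal (w z / ∫ z, w z ∂(Measure.pi μ))).toReal • f z = _
  rw [ENNReal.toReal_ofReal (dens_nonneg hw z), smul_eq_mul]
  ring

theorem isProb_Px (hw : Wt μ w) : IsProbabilityMeasure (Px μ w) := by
  refine ⟨?_⟩
  unfold Px
  rw [withDensity_apply _ MeasurableSet.univ, Measure.restrict_univ]
  rw [← ofReal_integral_eq_lintegral_ofReal (hw.int.div_const _)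
    (Filter.Eventually.of_forall fun z => dens_nonneg hw z), integral_div,
    div_self hw.tot_pos.ne', ENNReal.ofReal_one]

lemma integrable_Px (hw : Wt μ w) (h : BM Ψ) : Integrable Ψ (Px μ w) := by
  have := isProb_Px hw
  obtain ⟨C, hC⟩ := h.bd
  exact Integrable.of_bound h.meas.aestronglyMeasurable C
    (Filter.Eventually.of_forall fun z => by rw [Real.norm_eq_abs]; exact hC z)

/-- probability of a measurable set. -/
theorem real_Px (hw : Wt μ w) {s : Set (κ → ℝ)} (hs : MeasurableSet s) :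
    (Px μ w).real s = ex μ w (s.indicator 1) := by
  rw [← int_Px hw, integral_indicator_one hs]

/-- integral on a set. -/
theorem setInt_Px (hw : Wt μ w) {s : Set (κ → ℝ)} (hs : MeasurableSet s) (f : (κ → ℝ) → ℝ) :
    ∫ z in s, f z ∂(Px μ w) = ex μ w (fun z => s.indicator 1 z * f z) := by
  rw [← integral_indicator hs, int_Px hw]
  congr 1
  funext z
  by_cases hz : z ∈ s <;> simp [hz]

lemma bm_indicator {s : Set (κ → ℝ)} (hs : MeasurableSet s) :
    BM (s.indicator (1 : (κ → ℝ) → ℝ)) := by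
  refine ⟨measurable_one.indicator hs, 1, fun z => ?_⟩
  by_cases hz : z ∈ s <;> simp [hz]

lemma dep_indicator {s : Set (κ → ℝ)} (hs : ∀ z z', glue K z z' ∈ s ↔ z ∈ s) :
    Dep K (s.indicator (1 : (κ → ℝ) → ℝ)) := by
  intro z z'
  by_cases hz : z ∈ s
  · rw [Set.indicator_of_mem hz, Set.indicator_of_mem ((hs z z').2 hz)]
    rfl
  · rw [Set.indicator_of_notMem hz, Set.indicator_of_notMem fun h => hz ((hs z z').1 h)]

/-- a set `{c ≤ f}` with `f` depending on `K`. -/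
lemma mem_le_dep {f : (κ → ℝ) → ℝ} (hf : Dep K f) (c : ℝ) (z z' : κ → ℝ) :
    glue K z z' ∈ {z | c ≤ f z} ↔ z ∈ {z | c ≤ f z} := by
  show c ≤ f (glue K z z') ↔ c ≤ f z
  rw [hf z z']

/-- with a nonnegative weight depending on the coarser coordinates, the second moment of the
conditional mean is monotone. -/
theorem ex_mul_cx_sq_mono (hw : Wt μ w) (hK : K2 ⊆ K1) {g : (κ → ℝ) → ℝ} (hg : Dep K2 g)
    (hgb : BM g) (hg0 : ∀ z, 0 ≤ g z) (h : BM Ψ) :
    ex μ w (fun z => g z * cx μ K2 w Ψ z ^ 2) ≤ ex μ w (fun z => g z * cx μ K1 w Ψ z ^ 2) := by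
  have b1 := hw.bm_cx K1 h
  have b2 := hw.bm_cx K2 h
  have h1 : ∀ z, cx μ K2 w Ψ z ^ 2 ≤ cx μ K2 w (fun z => cx μ K1 w Ψ z ^ 2) z := by
    intro z
    have := cx_sq_le hw (K := K2) b1 z
    rwa [cx_cx hw hK h] at this
  have h2 : ex μ w (fun z => g z * cx μ K2 w Ψ z ^ 2) ≤
      ex μ w (fun z => g z * cx μ K2 w (fun z => cx μ K1 w Ψ z ^ 2) z) :=
    ex_mono hw (hgb.mul (bsq b2)) (hgb.mul (hw.bm_cx K2 (bsq b1))) fun z =>
      mul_le_mul_of_nonneg_left (h1 z) (hg0 z)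
  rwa [ex_cx hw hg hgb (bsq b1)] at h2

/-- `(hmono)` of `big_root_L1`. -/
theorem setInt_cx_sq_mono (hw : Wt μ w) (hK : K2 ⊆ K1) {B : Set (κ → ℝ)} (hB : MeasurableSet B)
    (hBd : ∀ z z', glue K2 z z' ∈ B ↔ z ∈ B) (h : BM Ψ) :
    ∫ z in B, cx μ K2 w Ψ z ^ 2 ∂(Px μ w) ≤ ∫ z in B, cx μ K1 w Ψ z ^ 2 ∂(Px μ w) := by
  rw [setInt_Px hw hB, setInt_Px hw hB]
  exact ex_mul_cx_sq_mono hw hK (dep_indicator hBd) (bm_indicator hB) (fun z => by
    by_cases hz : z ∈ B <;> simp [hz]) h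

/-- **Big root exclusion in terms of `ex`.**  `k_i` are the conditional means of one bounded
function `ψ` given the coordinates in `K_i`, `K2 ⊆ K1`, and `Q2` depends on `K2`. -/
theorem br_ex (hw : Wt μ w) (hK : K2 ⊆ K1) {ψ Q1 Q2 : (κ → ℝ) → ℝ}
    {a τ1 τ2 v1 v2 L ξ η U C g p1 p2 e1 e2 : ℝ}
    (ha : 0 ≤ a) (hv : 0 ≤ v2) (hL : 0 < L) (hξ0 : 0 ≤ ξ) (hξ : ξ ≤ 1 / 2) (hη : 0 < η)
    (hτ : τ1 ≤ τ2) (hv12 : v2 ≤ v1)
    (hreg : 2 * |τ2| * ((1 - ξ) * L) + 3 * v2 ≤ a * ((1 - ξ) * L) ^ 2)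
    (hg : 0 < g)
    (hgap : g ≤ (τ2 - τ1) / U ^ 2 + (v1 - v2) / U ^ 3 - 4 * a * ξ / L - 3 * η / L)
    (hψ : BM ψ) (hψC : ∀ z, |ψ z| ≤ C) (hQ1 : BM Q1) (hQ2 : BM Q2) (hQ2d : Dep K2 Q2)
    (h12 : ex μ w ({z | L ≤ Q2 z ∧ Q1 z < (1 - ξ) * Q2 z}.indicator 1) ≤ p1)
    (hU : ex μ w (ind U Q1) ≤ p2)
    (hE1 : ex μ w (fun z => |cx μ K1 w ψ z ^ 2 * Q1 z ^ 3 - a * Q1 z ^ 2 - τ1 * Q1 z + v1|) ≤ e1)
    (hE2 : ex μ w (fun z => |cx μ K2 w ψ z ^ 2 * Q2 z ^ 3 - a * Q2 z ^ 2 - τ2 * Q2 z + v2|) ≤ e2) :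
    ex μ w ({z | L ≤ Q2 z}.indicator 1) ≤
      (1 + C ^ 2 / g) * (p1 + p2 + e1 / (η * ((1 - ξ) * L) ^ 2) + e2 / (η * L ^ 2)) := by
  have := isProb_Px hw
  have b1 := hw.bm_cx K1 hψ
  have b2 := hw.bm_cx K2 hψ
  have mB : MeasurableSet {z | L ≤ Q2 z} := measurableSet_le measurable_const hQ2.meas
  have mU : MeasurableSet {z | U < Q1 z} := measurableSet_lt measurable_const hQ1.meas
  have m12 : MeasurableSet {z | L ≤ Q2 z ∧ Q1 z < (1 - ξ) * Q2 z} :=
    mB.inter (measurableSet_lt hQ1.meas (hQ2.meas.const_mul _))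
  have hexp : ∀ (k Q : (κ → ℝ) → ℝ) (τ v : ℝ), BM k → BM Q →
      BM (fun z => k z ^ 2 * Q z ^ 3 - a * Q z ^ 2 - τ * Q z + v) := by
    intro k Q τ v hk hQ
    have h3 : BM fun z => Q z ^ 3 := by
      have := (bsq hQ).mul hQ
      have e : (fun z => Q z ^ 2 * Q z) = fun z => Q z ^ 3 := by funext z; ring
      rwa [e] at this
    exact ((((bsq hk).mul h3).sub (bcm a (bsq hQ))).sub (bcm τ hQ)).add (BM.const v)
  rw [← real_Px hw mB]
  refine H339.BR.big_root_L1 (P := Px μ w) ha hv hL hξ0 hξ hη hτ hv12 hreg hg hgap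
    b1.meas b2.meas hQ1.meas hQ2.meas
    (Filter.Eventually.of_forall fun z => hw.abs_cx_le K1 hψ hψC z)
    (Filter.Eventually.of_forall fun z => hw.abs_cx_le K2 hψ hψC z)
    (setInt_cx_sq_mono hw hK mB (mem_le_dep hQ2d L) hψ) ?_ ?_
    (integrable_Px hw (hexp _ _ τ1 v1 b1 hQ1)) (integrable_Px hw (hexp _ _ τ2 v2 b2 hQ2)) ?_ ?_
  · rw [real_Px hw m12]; exact h12
  · rw [real_Px hw mU]
    have e : ({z | U < Q1 z}.indicator (1 : (κ → ℝ) → ℝ)) = ind U Q1 := by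
      funext z
      unfold ind
      by_cases hz : U < Q1 z
      · rw [Set.indicator_of_mem (show z ∈ {z | U < Q1 z} from hz), if_pos hz]; rfl
      · rw [Set.indicator_of_notMem (show z ∉ {z | U < Q1 z} from hz), if_neg hz]
    rw [e]; exact hU
  · rw [int_Px hw]; exact hE1
  · rw [int_Px hw]; exact hE2

end Vale.Agent.P146.H317
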