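import Vale.Agent.P146.H317.Rho

set_option linter.all false

/-!
# P146: from the row inequalities to the difference of the relative entropies

* `int_upper`, `int_lower`: pointwise bounds at regular times of an antitone function give bounds
  of its integral;
* `sum_eq_int`: block sums are integrals;
* `kdiff`: the difference `K(y, 2v) - K(y, v) ≤ (1 + ι) (n y v / b) L`.
-/

open MeasureTheory Set Filter Topology

namespace Vale.Agent.P146.H317

/-- Bounds at regular times, upper form. -/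
theorem int_upper {r F E : ℝ → ℝ} {T₁ T₂ η : ℝ} (hT : 0 < T₁) (hTT : T₁ ≤ T₂) (hη : 0 ≤ η)
    (hr : AntitoneOn r (Icc (T₁ / (1 + η)) T₂)) (hF : Antitone F) (hE : Antitone E)
    (h : ∀ T ∈ Icc T₁ T₂, ∃ T' ∈ Icc (T / (1 + η)) T, r T' ≤ F T' + E T') :
    ∫ T in T₁..T₂, r T ≤
      (1 + η) * ((∫ T in (T₁ / (1 + η))..(T₂ / (1 + η)), F T) +
        ∫ T in (T₁ / (1 + η))..(T₂ / (1 + η)), E T) := by
  have h1 : 0 < 1 + η := by linarith
  have hsub : Icc T₁ T₂ ⊆ Icc (T₁ / (1 + η)) T₂ := by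
    refine Icc_subset_Icc_left ?_
    exact div_le_self hT.le (by linarith)
  have hFE : Antitone fun T => F T + E T := hF.add hE
  have i1 : IntervalIntegrable r volume T₁ T₂ := by
    refine AntitoneOn.intervalIntegrable ?_
    rw [uIcc_of_le hTT]
    exact hr.mono hsub
  have i2 : IntervalIntegrable (fun T => F (T / (1 + η)) + E (T / (1 + η))) volume T₁ T₂ := by
    refine Antitone.intervalIntegrable fun s t hst => hFE ?_
    exact div_le_div_of_nonneg_right hst h1.le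
  have key : ∫ T in T₁..T₂, r T ≤ ∫ T in T₁..T₂, (F (T / (1 + η)) + E (T / (1 + η))) := by
    refine intervalIntegral.integral_mono_on hTT i1 i2 fun T hT' => ?_
    obtain ⟨T', hT1, hT2⟩ := h T hT'
    have hT0 : 0 ≤ T := hT.le.trans hT'.1
    have h3 : T₁ / (1 + η) ≤ T' :=
      (div_le_div_of_nonneg_right hT'.1 h1.le).trans hT1.1
    have h4 : r T ≤ r T' := hr ⟨h3, hT1.2.trans hT'.2⟩ (hsub hT') hT1.2
    exact h4.trans (hT2.trans (hFE hT1.1))
  refine key.trans (le_of_eq ?_)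
  have e := intervalIntegral.integral_comp_div (fun T => F T + E T) h1.ne' (a := T₁) (b := T₂)
  simp only [smul_eq_mul] at e
  rw [e, intervalIntegral.integral_add]
  · exact hF.intervalIntegrable
  · exact hE.intervalIntegrable

/-- Bounds at regular times, lower form. -/
theorem int_lower {r F E : ℝ → ℝ} {T₁ T₂ η : ℝ} (hT : 0 < T₁) (hTT : T₁ ≤ T₂) (hη : 0 ≤ η)
    (hr : AntitoneOn r (Icc T₁ ((1 + η) * T₂))) (hF : Antitone F) (hE : Antitone E)
    (h : ∀ T ∈ Icc T₁ T₂, ∃ T' ∈ Icc T ((1 + η) * T), F T' - E T' ≤ r T') :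
    (1 + η)⁻¹ * (∫ T in ((1 + η) * T₁)..((1 + η) * T₂), F T) - ∫ T in T₁..T₂, E T ≤
      ∫ T in T₁..T₂, r T := by
  have h1 : 0 < 1 + η := by linarith
  have hT2 : 0 < T₂ := hT.trans_le hTT
  have hsub : Icc T₁ T₂ ⊆ Icc T₁ ((1 + η) * T₂) :=
    Icc_subset_Icc_right (le_mul_of_one_le_left hT2.le (by linarith))
  have i1 : IntervalIntegrable r volume T₁ T₂ := by
    refine AntitoneOn.intervalIntegrable ?_
    rw [uIcc_of_le hTT]
    exact hr.mono hsub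
  have iF : IntervalIntegrable (fun T => F ((1 + η) * T)) volume T₁ T₂ := by
    refine Antitone.intervalIntegrable fun s t hst => hF ?_
    exact mul_le_mul_of_nonneg_left hst h1.le
  have key : ∫ T in T₁..T₂, (F ((1 + η) * T) - E T) ≤ ∫ T in T₁..T₂, r T := by
    refine intervalIntegral.integral_mono_on hTT (iF.sub hE.intervalIntegrable) i1 fun T hT' => ?_
    obtain ⟨T', hT1, hT3⟩ := h T hT'
    have hT0 : 0 ≤ T := hT.le.trans hT'.1
    have h4 : T' ≤ (1 + η) * T₂ := hT1.2.trans (mul_le_mul_of_nonneg_left hT'.2 h1.le)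
    have h5 : r T' ≤ r T := hr (hsub hT') ⟨hT'.1.trans hT1.1, h4⟩ hT1.1
    have h6 : F ((1 + η) * T) ≤ F T' := hF hT1.2
    have h7 : E T' ≤ E T := hE hT1.1
    linarith
  refine le_trans (le_of_eq ?_) key
  rw [intervalIntegral.integral_sub iF hE.intervalIntegrable]
  congr 1
  have e := intervalIntegral.integral_comp_mul_left F h1.ne' (a := T₁) (b := T₂)
  simp only [smul_eq_mul] at e
  exact e.symm

lemma rho_sq_anti {c a w : ℝ} (hc : 0 < c) (hw : 0 < w) : Antitone fun T => rho c a w T ^ 2 :=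
  fun _ _ h => pow_le_pow_left₀ (rho_pos hc hw).le (rho_anti hc hw h) 2

/-- Block sums are integrals. -/
theorem sum_eq_int {n : ℕ} (hn : 0 < n) (q : ℕ → ℝ) {k₁ k₂ : ℕ} (hk : k₁ ≤ k₂) :
    (1 / (n : ℝ)) * ∑ k ∈ Finset.Ico k₁ k₂, q k =
      ∫ T in (1 - (k₂ : ℝ) / n)..(1 - (k₁ : ℝ) / n), q ⌊(n : ℝ) * (1 - T)⌋₊ := by
  have hn0 : (0 : ℝ) < n := by exact_mod_cast hn
  -- one step
  have step : ∀ k : ℕ, IntervalIntegrable (fun T : ℝ => q ⌊(n : ℝ) * (1 - T)⌋₊) volume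
      (1 - ((k + 1 : ℕ) : ℝ) / n) (1 - (k : ℝ) / n) ∧
      ∫ T in (1 - ((k + 1 : ℕ) : ℝ) / n)..(1 - (k : ℝ) / n), q ⌊(n : ℝ) * (1 - T)⌋₊ =
        q k / n := by
    intro k
    have hle : 1 - ((k + 1 : ℕ) : ℝ) / n ≤ 1 - (k : ℝ) / n := by
      have : (k : ℝ) / n ≤ ((k + 1 : ℕ) : ℝ) / n := by gcongr; simp
      linarith
    have heq : ∀ T ∈ Ioc (1 - ((k + 1 : ℕ) : ℝ) / n) (1 - (k : ℝ) / n),
        q ⌊(n : ℝ) * (1 - T)⌋₊ = q k := by
      intro T hT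
      congr 1
      rw [Nat.floor_eq_iff (by
        refine mul_nonneg hn0.le ?_
        have : 0 ≤ (k : ℝ) / n := by positivity
        linarith [hT.2])]
      constructor
      · have h1 : (k : ℝ) / n ≤ 1 - T := by linarith [hT.2]
        rw [div_le_iff₀ hn0] at h1
        linarith
      · have h1 : 1 - T < ((k + 1 : ℕ) : ℝ) / n := by linarith [hT.1]
        rw [lt_div_iff₀ hn0] at h1
        push_cast at h1
        linarith
    constructor
    · rw [intervalIntegrable_iff_integrableOn_Ioc_of_le hle]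
      refine (integrableOn_const (C := q k) (by simp)).congr_fun (fun T hT => (heq T hT).symm)
        measurableSet_Ioc
    · rw [intervalIntegral.integral_of_le hle,
        setIntegral_congr_fun measurableSet_Ioc heq, ← intervalIntegral.integral_of_le hle,
        intervalIntegral.integral_const]
      push_cast
      simp only [smul_eq_mul]
      field_simp
      ring
  induction k₂, hk using Nat.le_induction with
  | base => simp
  | succ k hk ih =>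
    have hint : IntervalIntegrable (fun T : ℝ => q ⌊(n : ℝ) * (1 - T)⌋₊) volume
        (1 - (k : ℝ) / n) (1 - (k₁ : ℝ) / n) := by
      clear ih
      induction k, hk using Nat.le_induction with
      | base => simp
      | succ j hj ih => exact (step j).1.trans ih
    rw [Finset.sum_Ico_succ_top hk, mul_add, ih,
      ← intervalIntegral.integral_add_adjacent_intervals (step k).1 hint, (step k).2]
    ring

/-- The tail of the integral of `ρ²`. -/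
lemma tail_le {c a w T₂ T₃ : ℝ} (hc : 0 < c) (hw : 0 < w) (ha : a < T₂) (hT : T₂ ≤ T₃) :
    ∫ T in T₂..T₃, rho c a w T ^ 2 ≤ 2 * w ^ 2 / (T₂ - a) := by
  refine (int_le hc hw).trans ?_
  have hp := rho_pos (a := a) (T := T₂) hc hw
  have he := rho_eq (a := a) (T := T₂) hc hw.le
  obtain ⟨r, hr⟩ : ∃ r, r = rho c a w T₂ := ⟨_, rfl⟩
  rw [← hr] at hp he ⊢
  have hd : 0 < T₂ - a := by linarith
  have h1 : r * (T₂ - a) ≤ w := by nlinarith [mul_pos hc (pow_pos hp 2)]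
  have h2 : c * r ^ 2 ≤ w := by nlinarith [mul_pos hp hd]
  rw [le_div_iff₀ hd]
  have h3 : c * r ^ 3 / 3 + w * r ≤ 2 * w * r := by nlinarith [mul_le_mul_of_nonneg_right h2 hp.le]
  calc (c * r ^ 3 / 3 + w * r) * (T₂ - a) ≤ 2 * w * r * (T₂ - a) := by gcongr
    _ = 2 * w * (r * (T₂ - a)) := by ring
    _ ≤ 2 * w * w := by gcongr
    _ = _ := by ring

/-- The parameters of the row equation with errors: upper data at `2v`, lower data at `v`. -/
structure Par (b y v L S η e : ℝ) : Prop where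
  hb : 0 < b
  hy : 0 < y
  hv : 0 < v
  hη : 0 < η
  hη4 : η ≤ 1 / 4
  he : 0 ≤ e
  hL : 0 < L
  hS : 0 ≤ S
  hSL : S ≤ L
  heL : e ≤ η * L
  -- the field is small: `2 (1 + η) v / b² ≤ (1 - η) b y (η L / (b y))²`
  hvL : 2 * (1 + η) * v / b ^ 2 ≤ (1 - η) * (η * L) ^ 2 / (b * y)

section par

variable {b y v L S η e : ℝ}

noncomputable abbrev c₁ (b y η : ℝ) : ℝ := (1 - η) * (b * y)
noncomputable abbrev c₂ (b y η : ℝ) : ℝ := (1 + η) * (b * y)
noncomputable abbrev a₁ (S η e : ℝ) : ℝ := (1 + η) * (2 * S) + e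
noncomputable abbrev a₂ (S η e : ℝ) : ℝ := (1 - η) * (2 * S) - e
noncomputable abbrev w₁ (b v η : ℝ) : ℝ := (1 + η) * (2 * v / b ^ 2)
noncomputable abbrev w₂ (b v η : ℝ) : ℝ := (1 - η) * (v / b ^ 2)

lemma Par.c1_pos (P : Par b y v L S η e) : 0 < c₁ b y η :=
  mul_pos (by linarith [P.hη4]) (mul_pos P.hb P.hy)

lemma Par.w2_pos (P : Par b y v L S η e) : 0 < w₂ b v η :=
  mul_pos (by linarith [P.hη4]) (div_pos P.hv (pow_pos P.hb 2))

lemma Par.c_le (P : Par b y v L S η e) : c₁ b y η ≤ c₂ b y η :=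
  mul_le_mul_of_nonneg_right (by linarith [P.hη]) (mul_pos P.hb P.hy).le

lemma Par.a_le (P : Par b y v L S η e) : a₂ S η e ≤ a₁ S η e := by
  have := mul_nonneg P.hη.le P.hS
  unfold a₂ a₁
  nlinarith [P.he]

lemma Par.w_le (P : Par b y v L S η e) : w₂ b v η ≤ w₁ b v η := by
  have h : 0 < v / b ^ 2 := div_pos P.hv (pow_pos P.hb 2)
  have := P.hη
  unfold w₂ w₁
  have e1 : (1 + η) * (2 * v / b ^ 2) = (2 + 2 * η) * (v / b ^ 2) := by ring
  rw [e1]
  exact mul_le_mul_of_nonneg_right (by linarith) h.le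

/-- The size of the largest root. -/
lemma Par.R_le (P : Par b y v L S η e) {T : ℝ} (hT : 0 ≤ T) :
    rho (c₁ b y η) (a₁ S η e) (w₁ b v η) T ≤ 2 * L / (b * y) * (1 + 4 * η) := by
  obtain ⟨hb, hy, hv, hη, hη4, he, hL, hS, hSL, heL, hvL⟩ := P
  have hby : 0 < b * y := mul_pos hb hy
  have h1η : 0 < 1 - η := by linarith
  have hc1 : 0 < (1 - η) * (b * y) := mul_pos h1η hby
  have hw1 : 0 < (1 + η) * (2 * v / b ^ 2) := by positivity
  refine (rho_le_size hc1 hw1).trans ?_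
  have h1 : max ((1 + η) * (2 * S) + e - T) 0 ≤ 2 * L * (1 + 3 / 2 * η) := by
    refine max_le ?_ (by positivity)
    nlinarith [mul_le_mul_of_nonneg_left hSL hη.le]
  have h2 : √((1 + η) * (2 * v / b ^ 2) / ((1 - η) * (b * y))) ≤ η * L / (b * y) := by
    refine Real.sqrt_le_iff.2 ⟨by positivity, ?_⟩
    rw [div_le_iff₀ hc1]
    have e1 : (η * L / (b * y)) ^ 2 * ((1 - η) * (b * y)) = (1 - η) * (η * L) ^ 2 / (b * y) := by
      field_simp
    rw [e1]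
    refine le_trans (le_of_eq (by ring)) hvL
  have h3 : max ((1 + η) * (2 * S) + e - T) 0 / ((1 - η) * (b * y)) ≤
      2 * L * (1 + 3 / 2 * η) / ((1 - η) * (b * y)) := by gcongr
  have h4 : 2 * L * (1 + 3 / 2 * η) / ((1 - η) * (b * y)) ≤
      2 * L / (b * y) * (1 + 7 / 2 * η) := by
    rw [div_le_iff₀ hc1]
    have e1 : 2 * L / (b * y) * (1 + 7 / 2 * η) * ((1 - η) * (b * y)) =
      2 * L * ((1 + 7 / 2 * η) * (1 - η)) := by field_simp
    rw [e1]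
    refine mul_le_mul_of_nonneg_left ?_ (by positivity)
    nlinarith [mul_nonneg hη.le (by linarith : (0 : ℝ) ≤ 1 - 7 / 2 * η)]
  have h5 : 2 * L / (b * y) * (1 + 7 / 2 * η) + η * L / (b * y) =
      2 * L / (b * y) * (1 + 4 * η) := by ring
  rw [← h5]
  exact add_le_add (h3.trans h4) h2

/-- The algebra of `Par.diff`. -/
lemma diff_alg {η e S L w D R B I₁ I₂ : ℝ} (hη : 0 < η) (hη4 : η ≤ 1 / 4) (hL : 0 < L)
    (hS : 0 ≤ S) (hSL : S ≤ L) (heL : e ≤ η * L) (hw0 : 0 < w) (hD : 0 < D) (hR : 0 < R)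
    (hB0 : 0 < B) (hRB : R ≤ 2 * B * (1 + 4 * η)) (hLB : L = B * D) (hI20 : 0 ≤ I₂)
    (hI12 : I₂ ≤ I₁)
    (h1 : I₁ - I₂ ≤ 2 * (2 * (1 + η) * w - (1 - η) * w) * R + (4 * η * S + 2 * e) * R ^ 2 +
      2 / 3 * (2 * η * D) * R ^ 3)
    (h2 : I₁ ≤ (1 - η) * D * R ^ 3 / 3 + 2 * (1 + η) * w * R) :
    (1 + η) ^ 2 * I₁ - (1 - η) ^ 2 * I₂ ≤ 4 * w * B * (1 + 25 * η) + 480 * η * L * B ^ 2 := by
  have hRB4 : R ≤ 4 * B := by nlinarith [mul_pos hη hB0]
  have hR2 : R ^ 2 ≤ 16 * B ^ 2 := by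
    calc R ^ 2 ≤ (4 * B) ^ 2 := pow_le_pow_left₀ hR.le hRB4 2
      _ = _ := by ring
  have hR3 : R ^ 3 ≤ 64 * B ^ 3 := by
    calc R ^ 3 ≤ (4 * B) ^ 3 := pow_le_pow_left₀ hR.le hRB4 3
      _ = _ := by ring
  have p1 : (1 + η) ^ 2 * I₁ - (1 - η) ^ 2 * I₂ ≤ (I₁ - I₂) + 5 * η * I₁ := by
    have e1 : (1 + η) ^ 2 * I₁ - (1 - η) ^ 2 * I₂ =
      (I₁ - I₂) + (2 * η + η ^ 2) * I₁ + (2 * η - η ^ 2) * I₂ := by ring
    rw [e1]
    have q1 : 0 ≤ 2 * η - η ^ 2 := by nlinarith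
    have q2 : (2 * η - η ^ 2) * I₂ ≤ (2 * η - η ^ 2) * I₁ := mul_le_mul_of_nonneg_left hI12 q1
    have q3 : 0 ≤ η * I₁ := mul_nonneg hη.le (hI20.trans hI12)
    nlinarith
  have p2 : I₁ - I₂ ≤ 2 * w * (1 + 3 * η) * R + 6 * η * L * R ^ 2 + 4 / 3 * η * D * R ^ 3 := by
    refine h1.trans ?_
    have q1 : (4 * η * S + 2 * e) * R ^ 2 ≤ 6 * η * L * R ^ 2 := by
      refine mul_le_mul_of_nonneg_right ?_ (sq_nonneg _)
      have := mul_le_mul_of_nonneg_left hSL hη.le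
      linarith
    have q2 : 2 * (2 * (1 + η) * w - (1 - η) * w) * R = 2 * w * (1 + 3 * η) * R := by ring
    have q3 : 2 / 3 * (2 * η * D) * R ^ 3 = 4 / 3 * η * D * R ^ 3 := by ring
    rw [q2, q3]
    linarith
  have p3 : I₁ ≤ D * R ^ 3 / 3 + 5 / 2 * w * R := by
    refine h2.trans ?_
    have q1 : (1 - η) * D * R ^ 3 / 3 ≤ D * R ^ 3 / 3 := by
      have : 0 ≤ η * (D * R ^ 3 / 3) := by positivity
      linarith [show (1 - η) * D * R ^ 3 / 3 = D * R ^ 3 / 3 - η * (D * R ^ 3 / 3) by ring]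
    have q2 : 2 * (1 + η) * w * R ≤ 5 / 2 * w * R := by
      refine mul_le_mul_of_nonneg_right ?_ hR.le
      refine mul_le_mul_of_nonneg_right ?_ hw0.le
      linarith
    linarith
  have p4 : (1 + η) ^ 2 * I₁ - (1 - η) ^ 2 * I₂ ≤
      2 * w * (1 + 3 * η) * R + 25 / 2 * η * w * R + (6 * η * L * R ^ 2 +
        3 * η * D * R ^ 3) := by
    have q1 : 5 * η * I₁ ≤ 5 * η * (D * R ^ 3 / 3 + 5 / 2 * w * R) :=
      mul_le_mul_of_nonneg_left p3 (by positivity)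
    linarith [show 5 * η * (D * R ^ 3 / 3 + 5 / 2 * w * R) =
      5 / 3 * η * D * R ^ 3 + 25 / 2 * η * w * R by ring]
  have p5 : 6 * η * L * R ^ 2 + 3 * η * D * R ^ 3 ≤ 480 * η * L * B ^ 2 := by
    have q1 : 6 * η * L * R ^ 2 ≤ 6 * η * L * (16 * B ^ 2) :=
      mul_le_mul_of_nonneg_left hR2 (by positivity)
    have q2 : 3 * η * D * R ^ 3 ≤ 3 * η * D * (64 * B ^ 3) :=
      mul_le_mul_of_nonneg_left hR3 (by positivity)
    have q4 : 3 * η * D * (64 * B ^ 3) = 192 * η * L * B ^ 2 := by rw [hLB]; ring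
    have q5 : 0 ≤ η * L * B ^ 2 := by positivity
    linarith
  have p6 : 2 * w * (1 + 3 * η) * R + 25 / 2 * η * w * R ≤ 4 * w * B * (1 + 25 * η) := by
    have q2 : 2 * w * (1 + 3 * η) * R + 25 / 2 * η * w * R = w * (2 + 37 / 2 * η) * R := by ring
    rw [q2]
    have q3 : w * (2 + 37 / 2 * η) * R ≤ w * (2 + 37 / 2 * η) * (2 * B * (1 + 4 * η)) :=
      mul_le_mul_of_nonneg_left hRB (by positivity)
    refine q3.trans ?_
    have q4 : w * (2 + 37 / 2 * η) * (2 * B * (1 + 4 * η)) =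
      4 * w * B * ((1 + 37 / 4 * η) * (1 + 4 * η)) := by ring
    rw [q4]
    refine mul_le_mul_of_nonneg_left ?_ (by positivity)
    nlinarith
  linarith

/-- **The weighted difference of the two integrals.** -/
theorem Par.diff (P : Par b y v L S η e) {T₁ T₂ : ℝ} (hT : 0 ≤ T₁) (hTT : T₁ ≤ T₂) :
    (1 + η) ^ 2 * (∫ T in T₁..T₂, rho (c₁ b y η) (a₁ S η e) (w₁ b v η) T ^ 2) -
      (1 - η) ^ 2 * (∫ T in T₁..T₂, rho (c₂ b y η) (a₂ S η e) (w₂ b v η) T ^ 2) ≤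
      4 * v * L / (b ^ 3 * y) * (1 + 25 * η) + 480 * η * L ^ 3 / (b ^ 2 * y ^ 2) := by
  have hc1 := P.c1_pos
  have hw2 := P.w2_pos
  have hw1 : 0 < w₁ b v η := hw2.trans_le P.w_le
  have h1 := int_diff (T₁ := T₁) (T₂ := T₂) hc1 P.c_le P.a_le hw2 P.w_le
  have h2 := int_le (a := a₁ S η e) (T₁ := T₁) (T₂ := T₂) hc1 hw1
  have hR := P.R_le hT
  have hRp := rho_pos (a := a₁ S η e) (T := T₁) hc1 hw1
  have hI20 : 0 ≤ ∫ T in T₁..T₂, rho (c₂ b y η) (a₂ S η e) (w₂ b v η) T ^ 2 :=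
    intervalIntegral.integral_nonneg hTT fun T _ => sq_nonneg _
  have hI12 : ∫ T in T₁..T₂, rho (c₂ b y η) (a₂ S η e) (w₂ b v η) T ^ 2 ≤
      ∫ T in T₁..T₂, rho (c₁ b y η) (a₁ S η e) (w₁ b v η) T ^ 2 := by
    have j1 : Continuous fun T => rho (c₂ b y η) (a₂ S η e) (w₂ b v η) T ^ 2 :=
      (continuous_rho (hc1.trans_le P.c_le) hw2).pow 2
    have j2 : Continuous fun T => rho (c₁ b y η) (a₁ S η e) (w₁ b v η) T ^ 2 :=
      (continuous_rho hc1 hw1).pow 2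
    refine intervalIntegral.integral_mono_on hTT (j1.intervalIntegrable _ _)
      (j2.intervalIntegrable _ _) fun T _ => ?_
    exact pow_le_pow_left₀ (rho_pos (hc1.trans_le P.c_le) hw2).le
      (rho_mono hc1 P.c_le hw2 P.w_le (by linarith [P.a_le])) 2
  obtain ⟨hb, hy, hv, hη, hη4, he, hL, hS, hSL, heL, -⟩ := P
  have hby : 0 < b * y := mul_pos hb hy
  have e1 : w₁ b v η = 2 * (1 + η) * (v / b ^ 2) := by unfold w₁; ring
  have e2 : w₂ b v η = (1 - η) * (v / b ^ 2) := rfl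
  have e3 : a₁ S η e - a₂ S η e = 4 * η * S + 2 * e := by unfold a₁ a₂; ring
  have e4 : c₂ b y η - c₁ b y η = 2 * η * (b * y) := by unfold c₁ c₂; ring
  have e5 : c₁ b y η = (1 - η) * (b * y) := rfl
  have h1' : (∫ T in T₁..T₂, rho (c₁ b y η) (a₁ S η e) (w₁ b v η) T ^ 2) -
      ∫ T in T₁..T₂, rho (c₂ b y η) (a₂ S η e) (w₂ b v η) T ^ 2 ≤
      2 * (2 * (1 + η) * (v / b ^ 2) - (1 - η) * (v / b ^ 2)) *
        rho (c₁ b y η) (a₁ S η e) (w₁ b v η) T₁ +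
      (4 * η * S + 2 * e) * rho (c₁ b y η) (a₁ S η e) (w₁ b v η) T₁ ^ 2 +
      2 / 3 * (2 * η * (b * y)) * rho (c₁ b y η) (a₁ S η e) (w₁ b v η) T₁ ^ 3 := by
    rw [← e1, ← e2, ← e3, ← e4]
    exact h1
  have h2' : ∫ T in T₁..T₂, rho (c₁ b y η) (a₁ S η e) (w₁ b v η) T ^ 2 ≤
      (1 - η) * (b * y) * rho (c₁ b y η) (a₁ S η e) (w₁ b v η) T₁ ^ 3 / 3 +
        2 * (1 + η) * (v / b ^ 2) * rho (c₁ b y η) (a₁ S η e) (w₁ b v η) T₁ := by
    rw [← e1, ← e5]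
    exact h2
  have hR' : rho (c₁ b y η) (a₁ S η e) (w₁ b v η) T₁ ≤ 2 * (L / (b * y)) * (1 + 4 * η) := by
    rw [show 2 * (L / (b * y)) = 2 * L / (b * y) by ring]
    exact hR
  have key := diff_alg hη hη4 hL hS hSL heL (by positivity : 0 < v / b ^ 2) hby hRp
    (by positivity : 0 < L / (b * y)) hR' (by field_simp) hI20 hI12 h1' h2'
  refine key.trans (le_of_eq ?_)
  have q1 : 4 * v * L / (b ^ 3 * y) * (1 + 25 * η) =
      4 * (v / b ^ 2) * (L / (b * y)) * (1 + 25 * η) := by field_simp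
  have q2 : 480 * η * L ^ 3 / (b ^ 2 * y ^ 2) = 480 * η * L * (L / (b * y)) ^ 2 := by field_simp
  rw [q1, q2]

/-- **The difference of the relative entropies.** -/
theorem Par.kdiff (P : Par b y v L S η e) {T₁ T₂ n ι K₁ K₂ E₁ E₂ : ℝ} (hT : 0 ≤ T₁)
    (hTT : T₁ ≤ T₂) (hn : 0 < n) (hι : 100 * η ≤ ι) (hι2 : 240 * η * b * L ^ 2 ≤ ι * (y * v))
    (hE : b ^ 3 * y * (E₁ + E₂) ≤ ι * (v * L))
    (hK₂ : K₂ ≤ n * b ^ 2 * y ^ 2 / 4 * ((1 + η) ^ 2 *
      (∫ T in T₁..T₂, rho (c₁ b y η) (a₁ S η e) (w₁ b v η) T ^ 2) + E₂))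
    (hK₁ : n * b ^ 2 * y ^ 2 / 4 * ((1 - η) ^ 2 *
      (∫ T in T₁..T₂, rho (c₂ b y η) (a₂ S η e) (w₂ b v η) T ^ 2) - E₁) ≤ K₁) :
    K₂ - K₁ ≤ (1 + ι) * (n * y * v / b * L) := by
  have h := P.diff hT hTT
  obtain ⟨hb, hy, hv, hη, hη4, he, hL, hS, hSL, heL, -⟩ := P
  obtain ⟨X, hX⟩ : ∃ X, X = ∫ T in T₁..T₂, rho (c₁ b y η) (a₁ S η e) (w₁ b v η) T ^ 2 := ⟨_, rfl⟩
  obtain ⟨Y, hY⟩ : ∃ Y, Y = ∫ T in T₁..T₂, rho (c₂ b y η) (a₂ S η e) (w₂ b v η) T ^ 2 := ⟨_, rfl⟩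
  rw [← hX, ← hY] at h
  rw [← hX] at hK₂
  rw [← hY] at hK₁
  obtain ⟨M, hM⟩ : ∃ M, M = n * b ^ 2 * y ^ 2 / 4 := ⟨_, rfl⟩
  have hM0 : 0 < M := by rw [hM]; positivity
  rw [← hM] at hK₂ hK₁
  have h1 : K₂ - K₁ ≤ M * (4 * v * L / (b ^ 3 * y) * (1 + 25 * η) +
      480 * η * L ^ 3 / (b ^ 2 * y ^ 2) + (E₁ + E₂)) := by
    have : K₂ - K₁ ≤ M * (((1 + η) ^ 2 * X - (1 - η) ^ 2 * Y) + (E₁ + E₂)) := by linarith
    refine this.trans (mul_le_mul_of_nonneg_left ?_ hM0.le)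
    linarith
  refine h1.trans ?_
  have e1 : M * (4 * v * L / (b ^ 3 * y) * (1 + 25 * η)) =
      (n * y * v / b * L) * (1 + 25 * η) := by rw [hM]; field_simp
  have e2 : M * (480 * η * L ^ 3 / (b ^ 2 * y ^ 2)) =
      (n / b * L) * (120 * η * b * L ^ 2) := by rw [hM]; field_simp; ring
  have e3 : M * (E₁ + E₂) = (n * y / (4 * b)) * (b ^ 3 * y * (E₁ + E₂)) := by
    rw [hM]; field_simp
  rw [mul_add, mul_add, e1, e2, e3]
  have f2 : (n / b * L) * (120 * η * b * L ^ 2) ≤ (n / b * L) * (ι / 2 * (y * v)) :=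
    mul_le_mul_of_nonneg_left (by linarith) (by positivity)
  have f3 : (n * y / (4 * b)) * (b ^ 3 * y * (E₁ + E₂)) ≤ (n * y / (4 * b)) * (ι * (v * L)) :=
    mul_le_mul_of_nonneg_left hE (by positivity)
  have f2' : (n / b * L) * (ι / 2 * (y * v)) = (n * y * v / b * L) * (ι / 2) := by
    field_simp
  have f3' : (n * y / (4 * b)) * (ι * (v * L)) = (n * y * v / b * L) * (ι / 4) := by
    field_simp
  have f1 : (n * y * v / b * L) * (1 + 25 * η) ≤ (n * y * v / b * L) * (1 + ι / 4) :=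
    mul_le_mul_of_nonneg_left (by linarith) (by positivity)
  calc _ ≤ (n * y * v / b * L) * (1 + ι / 4) + (n * y * v / b * L) * (ι / 2) +
        (n * y * v / b * L) * (ι / 4) := by linarith
    _ = (1 + ι) * (n * y * v / b * L) := by ring

end par

end Vale.Agent.P146.H317
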