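import Vale.Agent.P146.H317.C3q
import Vale.Agent.P146.H615.RowUp2

/-!
# P146: the upper bound of the second moment of the overlap in the middle regime

The shares `C2 y ^ 2 ≤ T ≤ n ^ (30 q) y ^ 2`, the slope `al ≤ Ca y ^ 2` and few overlaps above the
level `C1 y`: `rr ≤ n ^ (-20 q) y ^ 4 / T` at a typical point.
-/

open MeasureTheory ProbabilityTheory Filter Set

namespace Vale.Agent.P146.H317

open Vale.Agent.P157.Lv hiding Dep
open Vale.Agent.P146.H646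
open Vale.Agent.P146.H325 hiding cb cf
open Vale.Agent.P146.H196 Vale.Agent.P146.H347 Vale.Agent.P146.H475 Vale.Agent.P146.H418
  Vale.Agent.P146.H412 Vale.Agent.P146.H320 Vale.Agent.P146.H529 Vale.Agent.P146.H470
  Vale.Agent.P146.H516 Vale.Agent.P146.H615 Vale.Agent.P146.H643

set_option linter.unusedSectionVars false

section law

variable {L : Law}

/-- `E Q² ≤ l E Q + U² p + 6 p'`, `E Q³ ≤ l E Q² + U³ p + 12 p'` -/
lemma qq_lv (hA : Adm L) (hη1 : L.η ≤ 1 / 1000) (S : Finset (Fin L.n)) (t u : ℝ) {l U p p' : ℝ}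
    (hl : 0 ≤ l) (hU : 0 ≤ U) (h1 : L.ex' t u (ind l (L.Q S t u)) ≤ p)
    (h2 : L.ex' t u (ind U (L.Q S t u)) ≤ p') :
    L.qq S t u ≤ l * L.ex' t u (L.Q S t u) + (U ^ 2 * p + 6 * p') ∧
      L.ex' t u (fun z => L.Q S t u z ^ 3) ≤ l * L.qq S t u + (U ^ 3 * p + 12 * p') := by
  have hw := H75.wt_L hA t u
  have bQ := H75.bm_Q hA S t u
  have i1 : BM (ind l (L.Q S t u)) := bm_ind bQ.meas l
  have i2 : BM (ind U (L.Q S t u)) := bm_ind bQ.meas U
  have hη := hA.η0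
  have hQ2 : ∀ z, L.Q S t u z ≤ 9 / 4 := fun z => by
    refine (H75.Q_le hA S t u z).trans ?_
    nlinarith
  have h6 := mul_le_mul_of_nonneg_left h1 (sq_nonneg U)
  have h7 := mul_le_mul_of_nonneg_left h1 (pow_nonneg hU 3)
  constructor
  · have h := ex_mono hw (bsq bQ) ((bcm l bQ).add ((bcm (U ^ 2) i1).add (bcm 6 i2))) fun z => by
      have h0 := H75.Q_nonneg S t u z
      have hq := hQ2 z
      unfold ind
      by_cases z1 : l < L.Q S t u z
      · by_cases z2 : U < L.Q S t u z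
        · rw [if_pos z1, if_pos z2]
          have : L.Q S t u z ^ 2 ≤ 6 := by nlinarith
          nlinarith [mul_nonneg hl h0, sq_nonneg U]
        · rw [if_pos z1, if_neg z2]
          have : L.Q S t u z ^ 2 ≤ U ^ 2 := pow_le_pow_left₀ h0 (not_lt.1 z2) 2
          nlinarith [mul_nonneg hl h0]
      · have h3 : L.Q S t u z ^ 2 ≤ l * L.Q S t u z := by
          rw [sq]
          exact mul_le_mul_of_nonneg_right (not_lt.1 z1) h0
        have h4 : 0 ≤ U ^ 2 * (if l < L.Q S t u z then (1 : ℝ) else 0) := by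
          refine mul_nonneg (sq_nonneg _) ?_
          split_ifs <;> norm_num
        have h5 : 0 ≤ (6 : ℝ) * (if U < L.Q S t u z then (1 : ℝ) else 0) := by
          refine mul_nonneg (by norm_num) ?_
          split_ifs <;> norm_num
        linarith
    rw [ex_add hw (bcm l bQ) ((bcm (U ^ 2) i1).add (bcm 6 i2)), ex_add hw (bcm (U ^ 2) i1)
      (bcm 6 i2), ex_cmul, ex_cmul, ex_cmul] at h
    refine h.trans ?_
    refine add_le_add le_rfl (add_le_add h6 ?_)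
    exact mul_le_mul_of_nonneg_left h2 (by norm_num)
  · have h := ex_mono hw (bcu bQ) ((bcm l (bsq bQ)).add ((bcm (U ^ 3) i1).add (bcm 12 i2)))
      fun z => by
      have h0 := H75.Q_nonneg S t u z
      have hq := hQ2 z
      have hs := mul_nonneg hl (sq_nonneg (L.Q S t u z))
      have hU3 := pow_nonneg hU 3
      unfold ind
      by_cases z1 : l < L.Q S t u z
      · by_cases z2 : U < L.Q S t u z
        · rw [if_pos z1, if_pos z2]
          have k1 : L.Q S t u z ^ 3 ≤ (9 / 4) ^ 3 := pow_le_pow_left₀ h0 hq 3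
          linarith
        · rw [if_pos z1, if_neg z2]
          have : L.Q S t u z ^ 3 ≤ U ^ 3 := pow_le_pow_left₀ h0 (not_lt.1 z2) 3
          linarith
      · have h3 : L.Q S t u z ^ 3 ≤ l * L.Q S t u z ^ 2 := by
          have := mul_le_mul_of_nonneg_right (not_lt.1 z1) (sq_nonneg (L.Q S t u z))
          calc L.Q S t u z ^ 3 = L.Q S t u z * L.Q S t u z ^ 2 := by ring
            _ ≤ _ := this
        have h4 : 0 ≤ U ^ 3 * (if l < L.Q S t u z then (1 : ℝ) else 0) := by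
          refine mul_nonneg hU3 ?_
          split_ifs <;> norm_num
        have h5 : 0 ≤ (12 : ℝ) * (if U < L.Q S t u z then (1 : ℝ) else 0) := by
          refine mul_nonneg (by norm_num) ?_
          split_ifs <;> norm_num
        linarith
    rw [ex_add hw (bcm l (bsq bQ)) ((bcm (U ^ 3) i1).add (bcm 12 i2)), ex_add hw (bcm (U ^ 3) i1)
      (bcm 12 i2), ex_cmul, ex_cmul, ex_cmul] at h
    refine h.trans ?_
    refine add_le_add le_rfl (add_le_add h7 ?_)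
    exact mul_le_mul_of_nonneg_left h2 (by norm_num)

/-- the error at one point -/
noncomputable def Err3 (L : Law) (r0 c3 err3 U r : ℝ) (m : ℕ) (T u : ℝ) (i0 : Fin L.n) : ℝ :=
  4 * (U * (2 / T * (u * L.vp / L.b ^ 2 + (err3 / (L.b * (1 - (1 - L.x) * r0)) ^ 2 +
      XE L r0 1 0 m (1 - T) u i0) + c3 * r)) + r) +
  4 * (L.η * (2 + L.η)) ^ 2 * H643.CC L (Sn L.n m) (1 - T) u + 2 * L.rk (Sn L.n m) (1 - T) u

/-- **The second moment of the overlap from above at one point.** -/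
theorem rr_up3 (hA : Adm L) (hη1 : L.η ≤ 1 / 2) (hs : L.s ≠ 0) (hx0 : 0 < L.x)
    (hx1 : L.x < 1) {r0 : ℝ} (hc : L.c = L.s ^ 2 * L.n * (1 - (1 - L.x) * r0))
    (hk : 0 < L.b * (1 - (1 - L.x) * r0)) {m : ℕ} (hmn : m < L.n) {T u : ℝ}
    (hT0 : 0 < T) (hT1 : T ≤ 1) (hu0 : 0 < u) {i0 : Fin L.n}
    (hi0 : i0.1 + m = L.n) {a1 c3 err3 U r : ℝ} (hU : 0 ≤ U) (hc3 : 0 ≤ c3)
    (ha : 1 - 1 / (L.b * (1 - (1 - L.x) * r0)) ^ 2 ≤ a1)
    (haU : a1 + c3 * U ≤ T / 2)
    (hqq : L.qq (Sn L.n m) (1 - T) u ≤ U * L.ex' (1 - T) u (L.Q (Sn L.n m) (1 - T) u) + r)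
    (hC3 : H75.C3U L r0 (fun _ => 1) m (1 - T) u i0 ≤
      (L.b * (1 - (1 - L.x) * r0)) ^ 2 * (c3 * L.qq (Sn L.n m) (1 - T) u) + err3) :
    L.rr (Sn L.n m) (1 - T) u ≤ Err3 L r0 c3 err3 U r m T u i0 := by
  obtain ⟨hwf, ht, hSn, hi1, hne⟩ := H75.pt_data hA hmn hT1 hu0 hi0
  have hvb : 0 < u * L.vp / L.b ^ 2 := by
    have := hA.vp0
    have := hA.b0
    positivity
  have hbx : 0 < L.b * L.x := mul_pos hA.b0 hx0
  have hw := H75.wt_L hA (1 - T) u
  have bQ := H75.bm_Q hA (Sn L.n m) (1 - T) u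
  have hAt0 : 1 - (1 : ℝ) ≤ L.b * (1 - (1 - L.x) * r0) * (1 - T) ^ 2 := by
    have : 0 ≤ L.b * (1 - (1 - L.x) * r0) * (1 - T) ^ 2 := mul_nonneg hk.le (sq_nonneg _)
    linarith
  have key := (H615.point_G hA.lam0 hA.η0 hη1 hs hx0 hx1 hA.n0 hc hk hA.b0
    (Finset.subset_univ (Sn L.n m)) hSn hi1 hne ht hwf hvb.le (G := fun _ => 1) (P := 1)
    (Lr := 0) measurable_const (fun _ _ => zero_le_one) zero_le_one (fun _ _ => le_rfl) le_rfl
    (fun r r' _ _ => by simp)).1 hAt0 ha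
  set A := L.b * (1 - (1 - L.x) * r0) with hAdef
  have hA2 : 0 < A ^ 2 := by positivity
  set X := L.ex' (1 - T) u (L.Q (Sn L.n m) (1 - T) u) with hX
  have hX0 : 0 ≤ X := H75.exQ_nonneg hA _ _ _
  set q := L.qq (Sn L.n m) (1 - T) u with hq
  set V := u * L.vp / L.b ^ 2 with hV
  have e1 : exS L.n L.b (H418.cb (1 - T)) (H418.cf L.vp u) L.s L.η L.lam L.c L.x
      (fun z => (fun _ : ℝ => (1 : ℝ)) (√(H615.Qv L.n L.b (H418.cb (1 - T)) (H418.cf L.vp u) L.s
        L.η L.lam L.c L.x (Sn L.n m) {true} {true} z)) *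
        ((1 - 1) * (L.b * L.x) * H615.Qv L.n L.b (H418.cb (1 - T)) (H418.cf L.vp u) L.s L.η L.lam
        L.c L.x (Sn L.n m) {true} {true} z ^ 2 + (1 - (1 - T) - a1) *
        H615.Qv L.n L.b (H418.cb (1 - T)) (H418.cf L.vp u) L.s L.η L.lam
        L.c L.x (Sn L.n m) {true} {true} z - V)) = (T - a1) * X - V := by
    have e2 : (fun z : Co L.n Bool Bool → ℝ => (fun _ : ℝ => (1 : ℝ)) (√(H615.Qv L.n L.b
        (H418.cb (1 - T)) (H418.cf L.vp u) L.s L.η L.lam L.c L.x (Sn L.n m) {true} {true} z)) *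
        ((1 - 1) * (L.b * L.x) * H615.Qv L.n L.b (H418.cb (1 - T)) (H418.cf L.vp u) L.s L.η L.lam
        L.c L.x (Sn L.n m) {true} {true} z ^ 2 + (1 - (1 - T) - a1) *
        H615.Qv L.n L.b (H418.cb (1 - T)) (H418.cf L.vp u) L.s L.η L.lam
        L.c L.x (Sn L.n m) {true} {true} z - V)) =
        fun z => (T - a1) * L.Q (Sn L.n m) (1 - T) u z - V := by
      funext z
      have : H615.Qv L.n L.b (H418.cb (1 - T)) (H418.cf L.vp u) L.s L.η L.lam
        L.c L.x (Sn L.n m) {true} {true} z = L.Q (Sn L.n m) (1 - T) u z := rfl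
      rw [this]
      ring
    rw [e2]
    show ex (g1 (Co L.n Bool Bool)) (L.wt (1 - T) u)
      (fun z => (T - a1) * L.Q (Sn L.n m) (1 - T) u z - V) = _
    rw [H615.ex_sub (H75.wt_L hA (1 - T) u) (H615.bcm _ bQ) (BM.const _),
      H615.ex_const (H75.wt_L hA (1 - T) u), H615.ex_cmul]
    rfl
  rw [e1] at key
  have hC3' : H615.C3v L.n L.b (H418.cb (1 - T)) (H418.cf L.vp u) L.s L.η L.lam L.c L.x
      (1 - (1 - L.x) * r0) (Sn L.n m) {true} {true} i0
      (fun z => (fun _ : ℝ => (1 : ℝ)) (√(H615.Qv L.n L.b (H418.cb (1 - T)) (H418.cf L.vp u) L.s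
        L.η L.lam L.c L.x (Sn L.n m) {true} {true} z))) ≤ A ^ 2 * (c3 * q) + err3 := hC3
  have h1 : (T - a1) * X - V ≤ c3 * q + (err3 / A ^ 2 + XE L r0 1 0 m (1 - T) u i0) := by
    refine key.trans ?_
    unfold XE
    rw [← hAdef, ← hV, ← add_div]
    rw [div_le_iff₀ hA2, add_mul, div_mul_cancel₀ _ hA2.ne']
    have h2 : c3 * q * A ^ 2 = A ^ 2 * (c3 * q) := by ring
    rw [h2]
    linarith
  set Y := err3 / A ^ 2 + XE L r0 1 0 m (1 - T) u i0 with hY
  have h2 : T / 2 * X ≤ V + Y + c3 * r := by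
    have h3 := mul_le_mul_of_nonneg_left hqq hc3
    have h4 := mul_le_mul_of_nonneg_right haU hX0
    nlinarith
  have h5 : X ≤ 2 / T * (V + Y + c3 * r) := by
    have h6 := mul_le_mul_of_nonneg_left h2 (show 0 ≤ 2 / T by positivity)
    have h7 : 2 / T * (T / 2 * X) = X := by
      field_simp
    rw [h7] at h6
    exact h6
  have h8 : q ≤ U * (2 / T * (V + Y + c3 * r)) + r := by
    have h9 := mul_le_mul_of_nonneg_left h5 hU
    linarith
  have h9 := rr_le_qq (S := Sn L.n m) (t := 1 - T) (u := u) (θ := 1) hA.lam0 hA.η0 hA.n0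
    one_pos
  rw [← hq] at h9
  unfold Err3
  rw [← hAdef, ← hV, ← hY]
  have h10 : (1 + (1 : ℝ)) ^ 2 = 4 := by norm_num
  have h11 : (1 + (1 : ℝ)) * (1 + 1 / 1) = 4 := by norm_num
  have h12 : (1 + (1 : ℝ) / 1) = 2 := by norm_num
  rw [h10, h11, h12] at h9
  linarith

end law

/-! ### the window -/

section window

variable {a0 b₁ q A b : ℝ} {n : ℕ} {y V al s lam η T u Ca C1 : ℝ}

/-- the constant of the last square -/
noncomputable def cM (b C1 : ℝ) : ℝ := 2 * (7000000 * (2 * b ^ 4 + 8 * b ^ 8) * (528 * C1 + 16))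

lemma cM_nonneg (hC : 0 < C1) : 0 ≤ cM b C1 := by
  unfold cM
  positivity

/-- the first share of the middle regime is `C2c y ^ 2` -/
noncomputable def C2c (b Ca C1 : ℝ) : ℝ := 4 * (2 * Ca + cM b C1 * C1)

/-- the tails at the typical point -/
lemma tails_mid (h : NW a0 b₁ q A b n y V al s lam η)
    (hT71 : (n : ℝ) ^ (-(71 * q)) * y ^ 2 ≤ T) (hT1 : T ≤ 1)
    {m : ℕ}
    (hp : PtN q 10 (lawOf n b y V al s lam η) (rq b y al) T u m) :
    (lawOf n b y V al s lam η).ex' (1 - T) u (ind (Uc q n y)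
      ((lawOf n b y V al s lam η).Q (Sn n m) (1 - T) u)) ≤ (n : ℝ) ^ (-(10 : ℝ)) := by
  obtain ⟨hA, a1, a2⟩ := h.adm
  have hw := H75.wt_L hA (1 - T) u
  refine le_trans ?_ (hp.ap.tQ (Sn n m))
  exact ex_ind_anti hw (H75.bm_Q hA (Sn n m) (1 - T) u).meas (nw_Uq_le h hT71 hT1)

lemma dn_le_y (h : NW a0 b₁ q A b n y V al s lam η) : 0 < dn q n y ∧ dn q n y ≤ y := by
  obtain ⟨f1, f2, f3, f4, f5, f6, f7, f8, f9, f10, f11, f12, f13, f14⟩ := h.facts
  have hn := h.env.n0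
  have hy := h.env.y0
  unfold dn
  refine ⟨by positivity, le_of_log (by positivity) hy ?_⟩
  simp (disch := positivity) only [Real.log_mul, Real.log_rpow]
  linarith

lemma num_c3 (h : NW a0 b₁ q A b n y V al s lam η) :
    (n : ℝ) ^ (q / 5) * (528 * (Uc q n y ^ 3 * (n : ℝ) ^ (-(400 * q)) +
      12 * (n : ℝ) ^ (-(10 : ℝ)))) + (n : ℝ) ^ (-(72 * q)) * y ^ 3 ≤
      (n : ℝ) ^ (-(70 * q)) * y ^ 3 := by
  obtain ⟨f1, f2, f3, f4, f5, f6, f7, f8, f9, f10, f11, f12, f13, f14⟩ := h.facts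
  have hn := h.env.n0
  have hy := h.env.y0
  have hL := h.env.L1
  have c1 := log_c 528 (by norm_num)
  have c2 := log_c 4 (by norm_num)
  have c3 := log_ten 4 (c := 6336) (by norm_num) (by norm_num)
  push_cast at c3
  have y2 : (n : ℝ) ^ (q / 5) * (528 * (Uc q n y ^ 3 * (n : ℝ) ^ (-(400 * q)))) ≤
      (n : ℝ) ^ (-(70 * q)) * y ^ 3 / 4 := by
    unfold Uc
    refine le_of_log (by positivity) (by positivity) ?_
    simp (disch := positivity) only [Real.log_mul, Real.log_rpow, Real.log_pow, Real.log_div]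
    push_cast
    linarith
  have y3 : (n : ℝ) ^ (q / 5) * (6336 * (n : ℝ) ^ (-(10 : ℝ))) ≤
      (n : ℝ) ^ (-(70 * q)) * y ^ 3 / 4 := by
    refine le_of_log (by positivity) (by positivity) ?_
    simp (disch := positivity) only [Real.log_mul, Real.log_rpow, Real.log_pow, Real.log_div]
    push_cast
    linarith
  have x2 : (n : ℝ) ^ (-(72 * q)) * y ^ 3 ≤ (n : ℝ) ^ (-(70 * q)) * y ^ 3 / 4 := by
    refine le_of_log (by positivity) (by positivity) ?_
    simp (disch := positivity) only [Real.log_mul, Real.log_rpow, Real.log_pow, Real.log_div]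
    push_cast
    linarith
  have x3 : 0 < (n : ℝ) ^ (-(70 * q)) * y ^ 3 := by positivity
  linarith

lemma alg_c3 {B B5 B' C1 y d X Y Z r e e' al c : ℝ} (hB : 0 ≤ B) (hB5 : B ≤ B5) (hB' : B ≤ B')
    (hC : 0 < C1) (hy : 0 < y) (hdy : d ≤ y) (hX : 0 ≤ X) (hr : 0 ≤ r)
    (hY : Y ≤ C1 * y * X + r) (hZ : Z ≤ B * (528 * Y + 16 * d * X) + e)
    (he : B5 * (528 * r) + e ≤ e') (hal : 1 / 2 ≤ (1 + al) ^ 2)
    (hc : c = 2 * (B' * (528 * C1 + 16))) : Z ≤ (1 + al) ^ 2 * (c * y * X) + e' := by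
  have hB'0 : 0 ≤ B' := hB.trans hB'
  have h1 : B * (528 * Y + 16 * d * X) ≤
      B * ((528 * C1 + 16) * y * X) + B * (528 * r) := by
    rw [← mul_add]
    refine mul_le_mul_of_nonneg_left ?_ hB
    have h2 : 16 * d * X ≤ 16 * y * X := mul_le_mul_of_nonneg_right (by linarith) hX
    linarith
  have h3 : B * ((528 * C1 + 16) * y * X) ≤ B' * ((528 * C1 + 16) * y * X) :=
    mul_le_mul_of_nonneg_right hB' (by positivity)
  have h4 : B * (528 * r) ≤ B5 * (528 * r) := mul_le_mul_of_nonneg_right hB5 (by positivity)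
  have h5 : 0 ≤ c * y * X := by
    rw [hc]
    positivity
  have h6 : 1 / 2 * (c * y * X) ≤ (1 + al) ^ 2 * (c * y * X) := mul_le_mul_of_nonneg_right hal h5
  have h7 : 1 / 2 * (c * y * X) = B' * ((528 * C1 + 16) * y * X) := by
    rw [hc]
    ring
  linarith

/-- **The last square at a typical point**, test function `1`. -/
theorem c3_mid (h : NW a0 b₁ q A b n y V al s lam η)
    (hT71 : (n : ℝ) ^ (-(71 * q)) * y ^ 2 ≤ T) (hT1 : T ≤ 1)
    (hu : u ∈ Icc (1 - 2 * dl q n) (1 - dl q n)) {m : ℕ}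
    (hm : m ∈ Finset.Icc (mm q n y) (2 * mm q n y))
    (hp : PtN q 10 (lawOf n b y V al s lam η) (rq b y al) T u m)
    (hrb : rbL (lawOf n b y V al s lam η) (H418.cb (1 - T)) (H418.cf (V - s ^ 2) u)
      (Sn n (m - 1)) (Kset (Sn n (m - 1)) {true} {true}) / (n : ℝ) ^ 4 ≤
        (n : ℝ) ^ (10 * q) * y ^ 2 / (n * T ^ 2)) {i0 : Fin n} (hi0 : i0.1 + m = n)
    (hC0 : 0 < C1)
    (hpl : (lawOf n b y V al s lam η).ex' (1 - T) u (ind (C1 * y)
      ((lawOf n b y V al s lam η).Q (Sn n m) (1 - T) u)) ≤ (n : ℝ) ^ (-(400 * q))) :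
    H75.C3U (lawOf n b y V al s lam η) (rq b y al) (fun _ => 1) m (1 - T) u i0 ≤
      (1 + al) ^ 2 * (cM b C1 * y * (lawOf n b y V al s lam η).qq (Sn n m) (1 - T) u) +
        (n : ℝ) ^ (-(70 * q)) * y ^ 3 := by
  obtain ⟨k1, k2, k3, k4, k5, k6, k7, k8⟩ := h.bd
  obtain ⟨hA, a1, a2⟩ := h.adm
  obtain ⟨z1, z2⟩ := h.CB_le
  obtain ⟨d1, d2⟩ := dn_le_y h
  have hn := h.env.n0
  have hy := h.env.y0
  have hb := h.b0
  have hη := h.kw.η0
  have hal1 := abs_le.1 h.al_small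
  have hU0 : 0 < Uc q n y := Uc_pos (nw_ln h)
  have hC3 := c3_kwq h (by norm_num) hT71 hT1 hu hm hp hrb (φ := fun _ => 1) measurable_const
    (P0 := 1) (fun _ _ => zero_le_one) (fun _ _ => le_rfl) hi0
  simp only [one_mul] at hC3
  obtain ⟨-, g3⟩ := qq_lv (L := lawOf n b y V al s lam η) hA k3 (Sn n m) (1 - T) u (l := C1 * y)
    (U := Uc q n y) (by positivity) hU0.le hpl (tails_mid h hT71 hT1 hp)
  exact alg_c3 (B := CBc b η) (B5 := (n : ℝ) ^ (q / 5))
    (B' := 7000000 * (2 * b ^ 4 + 8 * b ^ 8)) (C1 := C1) (y := y) (d := dn q n y)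
    (X := (lawOf n b y V al s lam η).qq (Sn n m) (1 - T) u) (by
      unfold CBc
      positivity) z1 (by
      unfold CBc
      exact mul_le_mul_of_nonneg_right z2 (by positivity)) hC0 hy d2
    (ex_nonneg (H75.wt_L hA (1 - T) u) fun z => sq_nonneg _) (by positivity) g3 hC3
    (num_c3 h) (by nlinarith) rfl

/-- the logarithm of the share -/
lemma logT3 (h : NW a0 b₁ q A b n y V al s lam η) (hT : y ^ 2 / 2 ≤ T)
    (hT2 : T ≤ (n : ℝ) ^ (30 * q) * y ^ 2) : 0 < T ∧ 2 * Real.log y - Real.log 2 ≤ Real.log T ∧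
      Real.log T ≤ 30 * q * Real.log n + 2 * Real.log y ∧ (n : ℝ) ^ (-(71 * q)) * y ^ 2 ≤ T ∧
      T ≤ 1 := by
  obtain ⟨f1, f2, f3, f4, f5, f6, f7, f8, f9, f10, f11, f12, f13, f14⟩ := h.facts
  have hn := h.env.n0
  have hy := h.env.y0
  have hT0 : 0 < T := lt_of_lt_of_le (by positivity) hT
  have h1 := Real.log_le_log (by positivity) hT
  have h2 := Real.log_le_log hT0 hT2
  have c2 := log_c 2 (by norm_num)
  simp (disch := positivity) only [Real.log_mul, Real.log_rpow, Real.log_pow, Real.log_div] at h1 h2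
  push_cast at h1 h2
  refine ⟨hT0, h1, h2, ?_, ?_⟩
  · refine le_of_log (by positivity) hT0 ?_
    simp (disch := positivity) only [Real.log_mul, Real.log_rpow, Real.log_pow]
    push_cast
    linarith
  · refine le_of_log hT0 one_pos ?_
    rw [Real.log_one]
    linarith

/-- the remainder of `E Q²` -/
noncomputable def rM (q : ℝ) (n : ℕ) (y : ℝ) : ℝ :=
  Uc q n y ^ 2 * (n : ℝ) ^ (-(400 * q)) + 6 * (n : ℝ) ^ (-(10 : ℝ))

lemma rM_le (h : NW a0 b₁ q A b n y V al s lam η) :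
    0 < rM q n y ∧ rM q n y ≤ (n : ℝ) ^ (-(300 * q)) * y ^ 2 := by
  obtain ⟨f1, f2, f3, f4, f5, f6, f7, f8, f9, f10, f11, f12, f13, f14⟩ := h.facts
  have hn := h.env.n0
  have hy := h.env.y0
  have hL := h.env.L1
  have c2 := log_c 2 (by norm_num)
  have c12 := log_c 6 (by norm_num)
  have y2 : Uc q n y ^ 2 * (n : ℝ) ^ (-(400 * q)) ≤ (n : ℝ) ^ (-(300 * q)) * y ^ 2 / 2 := by
    unfold Uc
    refine le_of_log (by positivity) (by positivity) ?_
    simp (disch := positivity) only [Real.log_mul, Real.log_rpow, Real.log_pow, Real.log_div]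
    push_cast
    linarith
  have y3 : 6 * (n : ℝ) ^ (-(10 : ℝ)) ≤ (n : ℝ) ^ (-(300 * q)) * y ^ 2 / 2 := by
    refine le_of_log (by positivity) (by positivity) ?_
    simp (disch := positivity) only [Real.log_mul, Real.log_rpow, Real.log_pow, Real.log_div]
    push_cast
    linarith
  have hU0 : 0 < Uc q n y := Uc_pos (nw_ln h)
  unfold rM
  exact ⟨by positivity, by linarith⟩

lemma log_cM {b C1 : ℝ} {X : ℝ} (hb : 0 < b) (hb1 : Real.log b ≤ X) (hC0 : 0 < C1)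
    (hC : Real.log C1 ≤ X) (hX : 0 ≤ X) : Real.log (cM b C1) ≤ 9 * X + 500 := by
  set E := Real.exp X with hE
  have hE1 : 1 ≤ E := Real.one_le_exp hX
  have hbE : b ≤ E := by
    rw [← Real.exp_log hb]
    exact Real.exp_le_exp.2 hb1
  have hCE : C1 ≤ E := by
    rw [← Real.exp_log hC0]
    exact Real.exp_le_exp.2 hC
  have h4 : b ^ 4 ≤ E ^ 8 := (pow_le_pow_left₀ hb.le hbE 4).trans
    (pow_le_pow_right₀ hE1 (by norm_num))
  have h8 : b ^ 8 ≤ E ^ 8 := pow_le_pow_left₀ hb.le hbE 8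
  have h1 : 2 * b ^ 4 + 8 * b ^ 8 ≤ 10 * E ^ 8 := by linarith
  have h2 : 528 * C1 + 16 ≤ 544 * E := by linarith
  have h3 : cM b C1 ≤ 10 ^ 11 * E ^ 9 := by
    unfold cM
    have h5 : (2 * b ^ 4 + 8 * b ^ 8) * (528 * C1 + 16) ≤ 10 * E ^ 8 * (544 * E) :=
      mul_le_mul h1 h2 (by positivity) (by positivity)
    have h6 : 0 < E ^ 9 := by positivity
    nlinarith
  have h4' : 0 < cM b C1 := by
    unfold cM
    positivity
  have h5 := Real.log_le_log h4' h3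
  have hE0 : 0 < E := by positivity
  have hE2 : Real.log E = X := by rw [hE, Real.log_exp]
  rw [Real.log_mul (by positivity) (by positivity), Real.log_pow, Real.log_pow, hE2] at h5
  push_cast at h5
  have c := log_c 10 (by norm_num)
  linarith

/-- the main part of the error -/
lemma main_mid (h : NW a0 b₁ q A b n y V al s lam η) (hT : y ^ 2 / 2 ≤ T)
    (hT2 : T ≤ (n : ℝ) ^ (30 * q) * y ^ 2) (hC0 : 0 < C1)
    (hC1 : Real.log C1 ≤ q / 1000 * Real.log n) :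
    4 * (C1 * y * (2 / T * (V / b ^ 2 + (2 * ((n : ℝ) ^ (-(70 * q)) * y ^ 3) +
      (n : ℝ) ^ (-(1890 * q)) * y ^ 3) + cM b C1 * y * ((n : ℝ) ^ (-(300 * q)) * y ^ 2)))) ≤
      (n : ℝ) ^ (-(20 * q)) * y ^ 4 / T / 2 := by
  obtain ⟨f1, f2, f3, f4, f5, f6, f7, f8, f9, f10, f11, f12, f13, f14⟩ := h.facts
  obtain ⟨hT0, t1, t2, t3, t4⟩ := logT3 h hT hT2
  have hn := h.env.n0
  have hy := h.env.y0
  have hV := h.env.V0
  have hb := h.b0
  have c2 := log_c 2 (by norm_num)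
  have c8 := log_c 8 (by norm_num)
  have c16 := log_c 16 (by norm_num)
  have hcM := log_cM hb f3 hC0 hC1 (by linarith)
  have hcM0 : 0 < cM b C1 := by
    unfold cM
    positivity
  have x1 : V / b ^ 2 ≤ (n : ℝ) ^ (-(23 * q)) * y ^ 3 / 2 := by
    refine le_of_log (by positivity) (by positivity) ?_
    simp (disch := positivity) only [Real.log_mul, Real.log_rpow, Real.log_pow, Real.log_div]
    push_cast
    linarith
  have x2 : 2 * ((n : ℝ) ^ (-(70 * q)) * y ^ 3) ≤ (n : ℝ) ^ (-(23 * q)) * y ^ 3 / 8 := by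
    refine le_of_log (by positivity) (by positivity) ?_
    simp (disch := positivity) only [Real.log_mul, Real.log_rpow, Real.log_pow, Real.log_div]
    push_cast
    linarith
  have x3 : (n : ℝ) ^ (-(1890 * q)) * y ^ 3 ≤ (n : ℝ) ^ (-(23 * q)) * y ^ 3 / 8 := by
    refine le_of_log (by positivity) (by positivity) ?_
    simp (disch := positivity) only [Real.log_mul, Real.log_rpow, Real.log_pow, Real.log_div]
    push_cast
    linarith
  have x4 : cM b C1 * y * ((n : ℝ) ^ (-(300 * q)) * y ^ 2) ≤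
      (n : ℝ) ^ (-(23 * q)) * y ^ 3 / 8 := by
    refine le_of_log (by positivity) (by positivity) ?_
    simp (disch := positivity) only [Real.log_mul, Real.log_rpow, Real.log_pow, Real.log_div]
    push_cast
    linarith
  have x5 : V / b ^ 2 + (2 * ((n : ℝ) ^ (-(70 * q)) * y ^ 3) +
      (n : ℝ) ^ (-(1890 * q)) * y ^ 3) + cM b C1 * y * ((n : ℝ) ^ (-(300 * q)) * y ^ 2) ≤
      (n : ℝ) ^ (-(23 * q)) * y ^ 3 := by
    have : 0 < (n : ℝ) ^ (-(23 * q)) * y ^ 3 := by positivity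
    linarith
  have x6 : 4 * (C1 * y * (2 / T * (V / b ^ 2 + (2 * ((n : ℝ) ^ (-(70 * q)) * y ^ 3) +
      (n : ℝ) ^ (-(1890 * q)) * y ^ 3) + cM b C1 * y * ((n : ℝ) ^ (-(300 * q)) * y ^ 2)))) ≤
      4 * (C1 * y * (2 / T * ((n : ℝ) ^ (-(23 * q)) * y ^ 3))) := by gcongr
  refine x6.trans ?_
  refine le_of_log (by positivity) (by positivity) ?_
  have c4 := log_c 4 (by norm_num)
  simp (disch := positivity) only [Real.log_mul, Real.log_rpow, Real.log_pow, Real.log_div]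
  push_cast
  linarith

/-- the rest of the error -/
lemma rest_mid (h : NW a0 b₁ q A b n y V al s lam η) (hT : y ^ 2 / 2 ≤ T)
    (hT2 : T ≤ (n : ℝ) ^ (30 * q) * y ^ 2) :
    4 * ((n : ℝ) ^ (-(300 * q)) * y ^ 2) + 4 * (9 * η ^ 2) * Uq q n y T ^ 2 +
      2 * ((n : ℝ) ^ (106 * q) / (n * y ^ 3 * √T)) ≤ (n : ℝ) ^ (-(20 * q)) * y ^ 4 / T / 2 := by
  obtain ⟨f1, f2, f3, f4, f5, f6, f7, f8, f9, f10, f11, f12, f13, f14⟩ := h.facts
  obtain ⟨hT0, t1, t2, t3, t4⟩ := logT3 h hT hT2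
  have hn := h.env.n0
  have hy := h.env.y0
  have hη := h.kw.η0
  have c2 := log_c 2 (by norm_num)
  have c4 := log_c 4 (by norm_num)
  have c8 := log_c 8 (by norm_num)
  have c9 := log_c 9 (by norm_num)
  have hU := h.logU (T := T) hT0
  have hU0 := Uq_pos (q := q) hn hy hT0
  have x1 : 4 * ((n : ℝ) ^ (-(300 * q)) * y ^ 2) ≤ (n : ℝ) ^ (-(20 * q)) * y ^ 4 / T / 8 := by
    refine le_of_log (by positivity) (by positivity) ?_
    simp (disch := positivity) only [Real.log_mul, Real.log_rpow, Real.log_pow, Real.log_div]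
    push_cast
    linarith
  have x2 : 4 * (9 * η ^ 2) * Uq q n y T ^ 2 ≤ (n : ℝ) ^ (-(20 * q)) * y ^ 4 / T / 8 := by
    refine le_of_log (by positivity) (by positivity) ?_
    simp (disch := positivity) only [Real.log_mul, Real.log_rpow, Real.log_pow, Real.log_div]
    rw [hU]
    push_cast
    linarith
  have x3 : 2 * ((n : ℝ) ^ (106 * q) / (n * y ^ 3 * √T)) ≤
      (n : ℝ) ^ (-(20 * q)) * y ^ 4 / T / 8 := by
    refine le_of_log (by positivity) (by positivity) ?_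
    simp (disch := positivity) only [Real.log_mul, Real.log_rpow, Real.log_pow, Real.log_div,
      Real.log_sqrt]
    push_cast
    linarith
  have x4 : 0 < (n : ℝ) ^ (-(20 * q)) * y ^ 4 / T := by positivity
  linarith

/-- the error at a typical point of the middle regime -/
theorem err3_pt (h : NW a0 b₁ q A b n y V al s lam η) (hT : y ^ 2 / 2 ≤ T)
    (hT2 : T ≤ (n : ℝ) ^ (30 * q) * y ^ 2) (hC0 : 0 < C1)
    (hC1 : Real.log C1 ≤ q / 1000 * Real.log n)
    (hu : u ∈ Icc (1 - 2 * dl q n) (1 - dl q n)) {m : ℕ}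
    (hm : m ∈ Finset.Icc (mm q n y) (2 * mm q n y))
    (hp : PtN q 10 (lawOf n b y V al s lam η) (rq b y al) T u m) {i0 : Fin n}
    (hi0 : i0.1 + m = n) :
    Err3 (lawOf n b y V al s lam η) (rq b y al) (cM b C1 * y)
      ((n : ℝ) ^ (-(70 * q)) * y ^ 3) (C1 * y) (rM q n y) m T u i0 ≤
        (n : ℝ) ^ (-(20 * q)) * y ^ 4 / T := by
  obtain ⟨k1, k2, k3, k4, k5, k6, k7, k8⟩ := h.bd
  obtain ⟨hT0, t1, t2, hT71, hT1⟩ := logT3 h hT hT2
  obtain ⟨r1, r2⟩ := rM_le h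
  have hn := h.env.n0
  have hy := h.env.y0
  have hη := h.kw.η0
  have hal1 := abs_le.1 h.al_small
  have hbk := b_rq (al := al) h.b0 (show y < 1 by linarith)
  have hXE := xe_pt h hT71 hT1 hu hm hp (P := 1) (Lr := 0) zero_le_one le_rfl hi0
  obtain ⟨hη4, hη2⟩ := alg_eta hη.le k3
  have hX := alg_X (E := (n : ℝ) ^ (-(70 * q)) * y ^ 3)
    (A2 := (b * (1 - (1 - y) * rq b y al)) ^ 2) (by positivity) (by
      rw [hbk]
      nlinarith) (hXE.trans (le_of_eq (show _ = (n : ℝ) ^ (-(1890 * q)) * y ^ 3 by ring)))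
  exact alg_err2 (U := C1 * y) (T := T) (e := (η * (2 + η)) ^ 2) (by positivity) hT0
    (w' := V / b ^ 2)
    (H615.alg_w (h.u_mem hu).2.1 (by linarith [h.adm.2.1, h.env.V0])) hX
    (mul_le_mul_of_nonneg_left r2 (mul_nonneg (cM_nonneg hC0) hy.le)) r2 hη2 (sq_nonneg _)
    (sq_nonneg _) (hp.ap.m1 _) (hp.rk _ (Or.inl rfl)) (main_mid h hT hT2 hC0 hC1)
    (rest_mid h hT hT2)

lemma alg_mass {Ca C1 c y T : ℝ}
    (hT : 4 * (2 * Ca + c * C1) * y ^ 2 / 2 ≤ T) : 2 * (Ca * y ^ 2) + c * y * (C1 * y) ≤ T / 2 := by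
  have e : 2 * (Ca * y ^ 2) + c * y * (C1 * y) = (2 * Ca + c * C1) * y ^ 2 := by ring
  rw [e]
  linarith

/-- **The second moment of the overlap at a typical point of the middle regime.** -/
theorem rowm_pt (h : NW a0 b₁ q A b n y V al s lam η)
    (hap : ∀ T, 0 < T → T ≤ 1 → ∀ u ∈ Icc (0 : ℝ) 1, ApN q 10 (lawOf n b y V al s lam η) T u)
    (hCa : 1 ≤ Ca) (hal : al ≤ Ca * y ^ 2) (hC0 : 0 < C1)
    (hC1 : Real.log C1 ≤ q / 1000 * Real.log n)
    (hT : C2c b Ca C1 * y ^ 2 / 2 ≤ T) (hT2 : T ≤ (n : ℝ) ^ (30 * q) * y ^ 2)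
    (hu : u ∈ Icc (1 - 2 * dl q n) (1 - dl q n)) {m : ℕ}
    (hm : m ∈ Finset.Icc (mm q n y) (2 * mm q n y))
    (hty : H75.TypU (lawOf n b y V al s lam η) (hh q n) (1 - 2 * dl q n) (1 - dl q n)
      (mm q n y) (2 * mm q n y) T u m)
    (hpl : (lawOf n b y V al s lam η).ex' (1 - T) u (ind (C1 * y)
      ((lawOf n b y V al s lam η).Q (Sn n m) (1 - T) u)) ≤ (n : ℝ) ^ (-(400 * q))) :
    (lawOf n b y V al s lam η).rr (Sn n m) (1 - T) u ≤ (n : ℝ) ^ (-(20 * q)) * y ^ 4 / T := by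
  have hy := h.env.y0
  have hcM := cM_nonneg (b := b) hC0
  have hT8 : y ^ 2 / 2 ≤ T := by
    refine le_trans ?_ hT
    have h1 : 1 ≤ C2c b Ca C1 := by
      unfold C2c
      have : 0 ≤ cM b C1 * C1 := mul_nonneg hcM hC0.le
      linarith
    have h2 := mul_le_mul_of_nonneg_right h1 (sq_nonneg y)
    linarith
  obtain ⟨k1, k2, k3, k4, k5, k6, k7, k8⟩ := h.bd
  obtain ⟨hT0, t1, t2, hT71, hT1⟩ := logT3 h hT8 hT2
  obtain ⟨v1, v2, v3, v4, v5⟩ := h.u_mem hu
  obtain ⟨hm0, hmn, i0, hi0⟩ := h.m_facts hm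
  obtain ⟨hA, a1, a2⟩ := h.adm
  obtain ⟨T'', hT'', hty⟩ := hty
  have hn := h.env.n0
  have hb := h.b0
  have hal1 := abs_le.1 h.al_small
  have hy1 : y < 1 := by linarith
  have hkp := rq_eq (b := b) (al := al) hy1
  have hbk := b_rq (al := al) hb hy1
  have hh0 : 0 < hh q n := Real.rpow_pos_of_pos hn _
  have hh1 : hh q n ≤ 1 := by
    refine Real.rpow_le_one_of_one_le_of_nonpos (by exact_mod_cast h.kw.n1.le) ?_
    have := h.q0
    linarith
  have hTT : T / 2 ≤ T'' := by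
    refine le_trans ?_ hT''.1
    exact div_le_div_of_nonneg_left hT0.le (by linarith) (by linarith)
  have hT3 : T'' ≤ 1 := hT''.2.trans hT1
  have hp := ptn_typ h (by norm_num) hap hT71 hT1 hu hm hTT hT3 hty
  have hrb := rb_pt h hap hT71 hT1 hu hTT hT3 hty (S := Sn n (m - 1)) (Or.inr rfl)
  have hc : (lawOf n b y V al s lam η).c = s ^ 2 * n * (1 - (1 - y) * rq b y al) := by
    rw [hkp]
    show cc n b s al = _
    unfold cc
    ring
  have hC3 := c3_mid h hT71 hT1 hu hm hp hrb hi0 hC0 hpl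
  have hA1 : 1 - 1 / (1 + al) ^ 2 ≤ 2 * (Ca * y ^ 2) :=
    (one_sub_inv_sq (by linarith)).trans (by linarith)
  obtain ⟨g1, -⟩ := qq_lv (L := lawOf n b y V al s lam η) hA k3 (Sn n m) (1 - T) u (l := C1 * y)
    (U := Uc q n y) (by positivity) (Uc_pos (nw_ln h)).le hpl (tails_mid h hT71 hT1 hp)
  refine (rr_up3 (L := lawOf n b y V al s lam η) hA (show η ≤ 1 / 2 by linarith)
    (show s ≠ 0 from h.kw.s0.ne') hy hy1 (r0 := rq b y al) hc (by
      show 0 < b * (1 - (1 - y) * rq b y al)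
      rw [hbk]
      linarith) (m := m) hmn hT0 hT1 (u := u) (by linarith) (i0 := i0) hi0
    (a1 := 2 * (Ca * y ^ 2)) (c3 := cM b C1 * y) (err3 := (n : ℝ) ^ (-(70 * q)) * y ^ 3)
    (U := C1 * y) (r := rM q n y) (by positivity) (mul_nonneg hcM hy.le) (by
      show 1 - 1 / (b * (1 - (1 - y) * rq b y al)) ^ 2 ≤ 2 * (Ca * y ^ 2)
      rw [hbk]
      exact hA1) (alg_mass hT) g1 (by
      show H75.C3U _ _ _ _ _ _ _ ≤ (b * (1 - (1 - y) * rq b y al)) ^ 2 * _ + _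
      rw [hbk]
      exact hC3)).trans ?_
  exact err3_pt h hT8 hT2 hC0 hC1 hu hm hp hi0

/-- the overlaps above the level `C1 y` are few -/
def BrP (q b C1 : ℝ) (n : ℕ) (y V al s lam η : ℝ) : Prop :=
  ∀ T ∈ Icc (H122.T1 q n y / 4) 1, ∀ u ∈ Icc (0 : ℝ) (H122.u1 q n), ∀ m : ℕ,
    H122.m1 q n y ≤ m + 1 → (lawOf n b y V al s lam η).ex' (1 - T) u (ind (C1 * y)
      ((lawOf n b y V al s lam η).Q (Sn n m) (1 - T) u)) ≤ (n : ℝ) ^ (-(400 * q))

/-- **the middle regime** -/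
def RowMid (q b C2 : ℝ) (n : ℕ) (y V al s lam η : ℝ) : Prop :=
  ∀ T ∈ Icc (C2 * y ^ 2) (H122.T2 q n y), ∃ T' ∈ Icc (T / (1 + H122.hh q n)) T,
    ∃ u ∈ Icc (H122.u0 q n) (H122.u1 q n), ∃ m ≤ 2 * H122.m1 q n y,
    (lawOf n b y V al s lam η).rr (Sn n m) (1 - T') u ≤ (n : ℝ) ^ (-(20 * q)) * y ^ 4 / T'

/-- **The middle regime at one `n`.** -/
theorem row_mid_n (h : NW a0 b₁ q A b n y V al s lam η)
    (hap : ∀ T, 0 < T → T ≤ 1 → ∀ u ∈ Icc (0 : ℝ) 1, ApN q 10 (lawOf n b y V al s lam η) T u)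
    (hCa : 1 ≤ Ca) (hal : al ≤ Ca * y ^ 2) (hC0 : 0 < C1)
    (hC1 : Real.log C1 ≤ q / 1000 * Real.log n) (hbr : BrP q b C1 n y V al s lam η) :
    RowMid q b (C2c b Ca C1) n y V al s lam η := by
  obtain ⟨hAd, a1, a2⟩ := h.adm
  obtain ⟨f1, f2, f3, f4, f5, f6, f7, f8, f9, f10, f11, f12, f13, f14⟩ := h.facts
  obtain ⟨m1, m2, m3, m4⟩ := h.mm_facts
  have hn := h.env.n0
  have hy := h.env.y0
  have hcM := cM_nonneg (b := b) hC0
  have hh0 : 0 < hh q n := Real.rpow_pos_of_pos hn _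
  have hq0 := h.q0
  have hh1 : hh q n ≤ 1 :=
    Real.rpow_le_one_of_one_le_of_nonpos (by exact_mod_cast h.kw.n1.le) (by linarith)
  have hdl0 : 0 < dl q n := Real.rpow_pos_of_pos hn _
  have hdl1 : dl q n ≤ 1 / 4 := by
    have c4 := log_c 4 (by norm_num)
    unfold dl
    refine le_of_log (by positivity) (by positivity) ?_
    simp (disch := positivity) only [Real.log_rpow, Real.log_div, Real.log_one]
    linarith
  intro T hT
  have hC2 : 1 ≤ C2c b Ca C1 := by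
    unfold C2c
    have : 0 ≤ cM b C1 * C1 := mul_nonneg hcM hC0.le
    linarith
  have hTy : y ^ 2 ≤ T := by
    have := mul_le_mul_of_nonneg_right hC2 (sq_nonneg y)
    linarith [hT.1]
  have hTu : T ≤ (n : ℝ) ^ (30 * q) * y ^ 2 := hT.2
  have hT0 : 0 < T := lt_of_lt_of_le (by positivity) hTy
  obtain ⟨-, -, -, -, hT1⟩ := logT3 h (T := T) (by
    have := sq_nonneg y
    linarith) hTu
  obtain ⟨T', hT'', u, hu, m, hm, hty⟩ := H75.sel_typU (L := lawOf n b y V al s lam η) hAd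
    (h := hh q n) (Ta := T) (Tb := 1) (u0 := 1 - 2 * dl q n) (u1 := 1 - dl q n)
    (m1 := mm q n y) (m2 := 2 * mm q n y) hh0.le hT0 le_rfl m2 (by omega) (by linarith)
    (by linarith) (by linarith) T ⟨le_rfl, hT1⟩
  have hTT : T / 2 ≤ T' := by
    refine le_trans ?_ hT''.1
    exact div_le_div_of_nonneg_left hT0.le (by linarith) (by linarith)
  have hT1' : H122.T1 q n y / 4 ≤ T' := by
    have h1 : H122.T1 q n y ≤ y ^ 2 := by
      unfold H122.T1
      have h2 : (n : ℝ) ^ (-(70 * q)) ≤ 1 :=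
        Real.rpow_le_one_of_one_le_of_nonpos (by exact_mod_cast h.kw.n1.le) (by
          have := h.q0
          linarith)
      have := mul_le_mul_of_nonneg_right h2 (sq_nonneg y)
      linarith
    have := sq_nonneg y
    linarith
  have hmI := Finset.mem_Icc.1 hm
  have hmm : mm q n y = H122.m1 q n y := rfl
  refine ⟨T', hT'', u, hu, m, hmI.2, ?_⟩
  refine rowm_pt h hap hCa hal hC0 hC1 (by linarith [hT.1]) (hT''.2.trans hTu) hu hm hty ?_
  exact hbr T' ⟨hT1', hT''.2.trans hT1⟩ u ⟨by linarith [hu.1], hu.2⟩ m (by omega)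

end window

/-- **The middle regime, eventually**: the constant `C2` depends on `b`, `Ca`, `C1` only. -/
theorem row_mid {b Ca C1 : ℝ} (hb : 0 < b) (hCa : 1 ≤ Ca) (hC0 : 0 < C1) :
    ∃ C2 : ℝ, 1 ≤ C2 ∧ ∀ {a0 b₁ q A : ℝ}, 0 < q → 1 ≤ A → a0 ≤ 1 / 6 → 100 * q < b₁ →
      ∀ᶠ n : ℕ in atTop, ∀ y V al s lam η : ℝ, KW a0 b₁ q A b n y V al s lam η →
        al ≤ Ca * y ^ 2 → BrP q b C1 n y V al s lam η → RowMid q b C2 n y V al s lam η := by
  refine ⟨C2c b Ca C1, ?_, ?_⟩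
  · unfold C2c
    have : 0 ≤ cM b C1 * C1 := mul_nonneg (cM_nonneg hC0) hC0.le
    linarith
  intro a0 b₁ q A hq hA ha0 hb₁
  have e1 : ∀ᶠ n : ℕ in atTop, Real.log C1 ≤ q / 1000 * Real.log n := by
    have h1 : Tendsto (fun n : ℕ => q / 1000 * Real.log n) atTop atTop :=
      (Real.tendsto_log_atTop.comp tendsto_natCast_atTop_atTop).const_mul_atTop (by positivity)
    exact h1.eventually_ge_atTop _
  filter_upwards [apn_ev (a0 := a0) (b₁ := b₁) 10 hq hb hA ha0 hb₁, e1] with n h1 h2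
  intro y V al s lam η hkw hal hbr
  obtain ⟨h, hap⟩ := h1 y V al s lam η hkw
  exact row_mid_n h hap hCa hal hC0 h2 hbr

end Vale.Agent.P146.H317
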