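import Vale.Agent.P146.H317.RowMid
import Vale.Agent.P146.H122.S3b

/-!
# P146: the middle regime of the upper bound, eventually in the size and the unit
-/

open MeasureTheory ProbabilityTheory Filter Set

namespace Vale.Agent.P146.S3

open Vale.Agent.P146.H418 Vale.Agent.P146.H317

/-- **The middle regime**: the constant `C2c b Ca C1` depends on `b`, `Ca`, `C1` only. -/
theorem row_midS {b₁ A b Ca C1 : ℝ} (hb : 0 < b) (hA : 1 ≤ A) (hb₁ : 0 < b₁) (hCa : 1 ≤ Ca)
    (hC0 : 0 < C1) : EV fun n q => ∀ y V al s lam η : ℝ,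
      KW (1 / 6) b₁ q A b n y V al s lam η → al ≤ Ca * y ^ 2 → BrP q b C1 n y V al s lam η →
        RowMid q b (C2c b Ca C1) n y V al s lam η := by
  filter_upwards [apn_ev (b₁ := b₁) 10 hb hA hb₁,
    ev_log (show (0 : ℝ) < 1 / 1000 by norm_num) (Real.log C1)] with p h1 h2
  intro y V al s lam η hkw hal hbr
  obtain ⟨h, hap⟩ := h1 y V al s lam η hkw
  exact row_mid_n h hap hCa hal hC0 (by linarith) hbr

end Vale.Agent.P146.S3
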